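import Vale.Agent.P241.MathlibUsed
import Vale.Agent.P241.LDefs
import Vale.Agent.P241.LConj
attribute [-instance] ProperSMul.toContinuousSMul IsTopologicalTorsor.toContinuousSMul IdemSemiring.toCanonicallyOrderedAdd IdemSemiring.toMulLeftMono IdemSemiring.toMulRightMono AddQuantale.instAddLeftMono AddQuantale.instAddRightMono Quantale.instMulLeftMono Quantale.instMulRightMono FiniteDimensional.rclike_to_real IsScalarTower.complexToReal FiniteDimensional.complexToReal

set_option linter.all false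

section

set_option autoImplicit false

open CategoryTheory Opposite

namespace Vale.Agent.P241.Based

/-- Based simplicial sets. -/
abbrev BSSet := SimplexCategoryᵒᵖ ⥤ Pointed.{0}

/-- Based sets with an action of a group fixing the base point. -/
structure BGSet (G : Type) [Group G] where
  carrier : Type
  [action : MulAction G carrier]
  pt : carrier
  smul_pt : ∀ g : G, g • pt = pt

attribute [instance] BGSet.action

instance (G : Type) [Group G] : CoeSort (BGSet G) Type := ⟨BGSet.carrier⟩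

/-- Equivariant based maps. -/
@[ext]
structure BGSet.Hom {G : Type} [Group G] (A B : BGSet G) where
  toFun : A → B
  map_smul : ∀ (g : G) (a : A), toFun (g • a) = g • toFun a
  map_pt : toFun A.pt = B.pt

instance (G : Type) [Group G] : Category (BGSet G) where
  Hom A B := BGSet.Hom A B
  id A := ⟨id, fun _ _ => rfl, rfl⟩
  comp f g := ⟨g.toFun ∘ f.toFun, fun x a => by simp [f.map_smul, g.map_smul],
    by simp [f.map_pt, g.map_pt]⟩

/-- Based `G`-simplicial sets (`G`-complexes). -/
abbrev GCx (G : Type) [Group G] := SimplexCategoryᵒᵖ ⥤ BGSet G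

/-- The based set of `A`-fixed points. -/
def BGSet.fix {G : Type} [Group G] (A : Subgroup G) : BGSet G ⥤ Pointed.{0} where
  obj X := ⟨{x : X // ∀ a ∈ A, a • x = x}, ⟨X.pt, fun a _ => X.smul_pt a⟩⟩
  map f := ⟨fun x => ⟨f.toFun x.1, fun a ha => by rw [← f.map_smul, x.2 a ha]⟩,
    Subtype.ext f.map_pt⟩

/-- The based simplicial set of `A`-fixed points; `X.fix ⊥` is the underlying one. -/
abbrev GCx.fix {G : Type} [Group G] (X : GCx G) (A : Subgroup G) : BSSet := X ⋙ BGSet.fix A

/-- `X` is finite: finitely many simplices in each degree, and bounded dimension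
(every simplex is degenerate on a simplex of dimension at most `d`). -/
def IsFin (X : BSSet) : Prop :=
  (∀ n, Finite (X.obj n)) ∧ ∃ d : ℕ, ∀ (n : SimplexCategory) (x : X.obj (op n)),
    ∃ (k : SimplexCategory) (f : n ⟶ k) (y : X.obj (op k)), k.len ≤ d ∧ (X.map f.op).toFun y = x

/-- An isomorphism invariant notion of acyclicity of based simplicial sets. -/
structure AcTheory where
  Acyclic : BSSet → Prop
  iso : ∀ {X Y : BSSet}, (X ≅ Y) → Acyclic X → Acyclic Y

/-- `E`-acyclicity of `H`-fixed points forces `F`-acyclicity of `G`-fixed points, for all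
finite based `G`-complexes. -/
def Smith (E F : AcTheory) (G : Type) [Group G] (H : Subgroup G) : Prop :=
  ∀ X : GCx G, IsFin (X.fix ⊥) → E.Acyclic (X.fix H) → F.Acyclic (X.fix ⊤)

/-- There is a chain `A = c 0 ◁ c 1 ◁ ⋯ ◁ c s = B` with cyclic quotients. -/
def HasCyclicChain {G : Type} [Group G] (A B : Subgroup G) (s : ℕ) : Prop :=
  ∃ c : ℕ → Subgroup G, c 0 = A ∧ c s = B ∧ ∀ i < s, c i ≤ c (i + 1) ∧
    ∃ _ : ((c i).subgroupOf (c (i + 1))).Normal,
      IsCyclic (c (i + 1) ⧸ (c i).subgroupOf (c (i + 1)))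

/-- The least length `ℓ(B, A)` of such a chain. -/
noncomputable def cycLen {G : Type} [Group G] (A B : Subgroup G) : ℕ :=
  sInf {s | HasCyclicChain A B s}

/-- The equivalence relation collapsing the wedge to a point. -/
def wedgeSetoid (A B : Type) (a : A) (b : B) : Setoid (A × B) where
  r x y := x = y ∨ ((x.1 = a ∨ x.2 = b) ∧ (y.1 = a ∨ y.2 = b))
  iseqv :=
    { refl := fun x => Or.inl rfl
      symm := by
        rintro x y (h | h)
        exacts [Or.inl h.symm, Or.inr ⟨h.2, h.1⟩]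
      trans := by
        rintro x y z (h | h) (h' | h')
        exacts [Or.inl (h.trans h'), Or.inr (h ▸ h'), Or.inr (h' ▸ h), Or.inr ⟨h.1, h'.2⟩] }

/-- The smash product of based sets. -/
def Smash (A B : Type) (a : A) (b : B) : Type := Quotient (wedgeSetoid A B a b)

/-- The class of a pair. -/
def Smash.mk {A B : Type} (a : A) (b : B) (x : A) (y : B) : Smash A B a b :=
  Quotient.mk (wedgeSetoid A B a b) (x, y)

/-- Functoriality of the smash product. -/
def Smash.map {A B A' B' : Type} {a : A} {b : B} {a' : A'} {b' : B'} (f : A → A') (g : B → B')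
    (hf : f a = a') (hg : g b = b') : Smash A B a b → Smash A' B' a' b' :=
  Quotient.map (Prod.map f g) (by
    rintro ⟨x, y⟩ ⟨x', y'⟩ (h | ⟨h, h'⟩)
    · exact Or.inl (by rw [h])
    · exact Or.inr ⟨h.imp (fun h => (congrArg f h).trans hf) (fun h => (congrArg g h).trans hg),
        h'.imp (fun h => (congrArg f h).trans hf) (fun h => (congrArg g h).trans hg)⟩)

/-- Smash product of a based `G`-set with a based set (trivial action). -/
def BGSet.smash {G : Type} [Group G] (A : BGSet G) (B : Pointed.{0}) : BGSet G where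
  carrier := Smash A B A.pt B.point
  action :=
    { smul := fun g => Smash.map (fun a => g • a) id (A.smul_pt g) rfl
      one_smul := by
        rintro ⟨x, y⟩
        exact congrArg (fun a => Smash.mk _ _ a y) (one_smul G x)
      mul_smul := by
        rintro g h ⟨x, y⟩
        exact congrArg (fun a => Smash.mk _ _ a y) (mul_smul g h x) }
  pt := Smash.mk _ _ A.pt B.point
  smul_pt := fun g => congrArg (fun a => Smash.mk _ _ a B.point) (A.smul_pt g)

/-- Smash product of a `G`-complex with a based simplicial set (trivial action). -/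
def GCx.smash {G : Type} [Group G] (X : GCx G) (T : BSSet) : GCx G where
  obj n := (X.obj n).smash (T.obj n)
  map f :=
    { toFun := Smash.map (X.map f).toFun (T.map f).toFun (X.map f).map_pt (T.map f).map_point
      map_smul := by
        rintro g ⟨x, y⟩
        exact congrArg (fun a => Smash.mk _ _ a ((T.map f).toFun y)) ((X.map f).map_smul g x)
      map_pt := congrArg₂ (Smash.mk _ _) (X.map f).map_pt (T.map f).map_point }
  map_id n := BGSet.Hom.ext <| funext <| by
    rintro ⟨x, y⟩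
    exact congrArg₂ (Smash.mk _ _) (congrFun (congrArg BGSet.Hom.toFun (X.map_id n)) x)
      (congrFun (congrArg Pointed.Hom.toFun (T.map_id n)) y)
  map_comp f g := BGSet.Hom.ext <| funext <| by
    rintro ⟨x, y⟩
    exact congrArg₂ (Smash.mk _ _) (congrFun (congrArg BGSet.Hom.toFun (X.map_comp f g)) x)
      (congrFun (congrArg Pointed.Hom.toFun (T.map_comp f g)) y)

/-- `T` is finite and smashing with `T` does not change acyclicity. -/
def Faithful (K : ℕ → AcTheory) (T : BSSet) : Prop :=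
  IsFin T ∧ ∀ (G : Type) [Group G] (X : GCx G), IsFin (X.fix ⊥) → ∀ (A : Subgroup G) (n : ℕ),
    ((K n).Acyclic ((X.smash T).fix A) ↔ (K n).Acyclic (X.fix A))

/-- The realization principle: a finite `W`-complex `S` without free simplices can, after
smashing with a faithful `T`, be made `K i`-acyclic for all `i ≤ m` by attaching free simplices,
if `D V m j` whenever `1 ≠ V ≤ W` and `S ^ V` is not `K j`-acyclic. -/
def Realization (p : ℕ) (K : ℕ → AcTheory) (D : ∀ (V : Type) [Group V], ℕ → ℕ → Prop) : Prop :=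
  ∀ (W : Type) [Group W] [Finite W], IsPGroup p W → ∀ (m : ℕ) (S : GCx W), IsFin (S.fix ⊥) →
    (∀ n (s : S.obj n), s ≠ (S.obj n).pt → ∃ w : W, w ≠ 1 ∧ w • s = s) →
    (∀ V : Subgroup W, V ≠ ⊥ → ∀ j, ¬ (K j).Acyclic (S.fix V) → D V m j) →
    ∃ (T : BSSet) (C : GCx W) (i : S.smash T ⟶ C), Faithful K T ∧ IsFin (C.fix ⊥) ∧
      (∀ n, Function.Injective (i.app n).toFun) ∧
      (∀ n (c : C.obj n), c ∉ Set.range (i.app n).toFun → ∀ w : W, w • c = c → w = 1) ∧
      ∀ j ≤ m, (K j).Acyclic (C.fix ⊥)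

end Vale.Agent.P241.Based
end

section

set_option autoImplicit false

open CategoryTheory Opposite

namespace Vale.Agent.P241.Based

variable {G : Type} [Group G]

theorem conj_mem_of_normal {L M : Subgroup G} (hn : (L.subgroupOf M).Normal) (hLM : L ≤ M)
    {l m : G} (hl : l ∈ L) (hm : m ∈ M) : m⁻¹ * l * m ∈ L := by
  have := hn.conj_mem ⟨l, hLM hl⟩ (by simpa [Subgroup.mem_subgroupOf] using hl) ⟨m, hm⟩⁻¹
  simpa [Subgroup.mem_subgroupOf] using this

/-- The action of `M / L` on the `L`-fixed points, for `L` normal in `M`. -/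
def subSMul (A : BGSet G) (L M : Subgroup G) (hLM : L ≤ M) (hn : (L.subgroupOf M).Normal)
    (q : M ⧸ L.subgroupOf M) (a : {a : A // ∀ l ∈ L, l • a = a}) :
    {a : A // ∀ l ∈ L, l • a = a} :=
  Quotient.liftOn' q
    (fun m => ⟨m.1 • a.1, fun l hl => by
      have h := a.2 _ (conj_mem_of_normal hn hLM hl m.2)
      rw [← mul_smul, show l * m.1 = m.1 * (m.1⁻¹ * l * m.1) by group, mul_smul, h]⟩)
    (fun m m' h => by
      apply Subtype.ext
      show m.1 • a.1 = m'.1 • a.1
      rw [QuotientGroup.leftRel_apply, Subgroup.mem_subgroupOf] at h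
      have h' := a.2 _ h
      rw [show m'.1 = m.1 * ((m⁻¹ * m' : M) : G) by simp, mul_smul, h'])

/-- The `M / L`-set of `L`-fixed points. -/
def BGSet.sub (L M : Subgroup G) (hLM : L ≤ M) [hn : (L.subgroupOf M).Normal] :
    BGSet G ⥤ BGSet (M ⧸ L.subgroupOf M) where
  obj A :=
    { carrier := {a : A // ∀ l ∈ L, l • a = a}
      action :=
        { smul := subSMul A L M hLM hn
          one_smul := fun a => Subtype.ext (one_smul G a.1)
          mul_smul := fun q q' a => by
            induction q using QuotientGroup.induction_on with | _ m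
            induction q' using QuotientGroup.induction_on with | _ m'
            exact Subtype.ext (mul_smul m.1 m'.1 a.1) }
      pt := ⟨A.pt, fun l _ => A.smul_pt l⟩
      smul_pt := fun q => by
        induction q using QuotientGroup.induction_on with | _ m
        exact Subtype.ext (A.smul_pt m.1) }
  map f :=
    { toFun := fun a => ⟨f.toFun a.1, fun l hl => by rw [← f.map_smul, a.2 l hl]⟩
      map_smul := fun q a => by
        induction q using QuotientGroup.induction_on with | _ m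
        exact Subtype.ext (f.map_smul m.1 a.1)
      map_pt := Subtype.ext f.map_pt }

/-- The `L`-fixed points of a `G`-complex, as an `M / L`-complex. -/
abbrev GCx.sub (X : GCx G) (L M : Subgroup G) (hLM : L ≤ M) [(L.subgroupOf M).Normal] :
    GCx (M ⧸ L.subgroupOf M) := X ⋙ BGSet.sub L M hLM

theorem sub_mk_smul (A : BGSet G) (L M : Subgroup G) (hLM : L ≤ M) [(L.subgroupOf M).Normal]
    (m : M) (a : (BGSet.sub L M hLM).obj A) :
    ((m : M ⧸ L.subgroupOf M) • a).1 = m.1 • a.1 := rfl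

/-- The subgroup of `G` corresponding to a subgroup of `M / L`. -/
def liftSub (L M : Subgroup G) [(L.subgroupOf M).Normal] (V : Subgroup (M ⧸ L.subgroupOf M)) :
    Subgroup G :=
  (V.comap (QuotientGroup.mk' (L.subgroupOf M))).map M.subtype

theorem mem_liftSub {L M : Subgroup G} [(L.subgroupOf M).Normal]
    {V : Subgroup (M ⧸ L.subgroupOf M)} {g : G} :
    g ∈ liftSub L M V ↔ ∃ h : g ∈ M, ((⟨g, h⟩ : M) : M ⧸ L.subgroupOf M) ∈ V := by
  simp [liftSub, Subgroup.mem_map]

theorem le_liftSub {L M : Subgroup G} (hLM : L ≤ M) [(L.subgroupOf M).Normal]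
    (V : Subgroup (M ⧸ L.subgroupOf M)) : L ≤ liftSub L M V := by
  intro l hl
  rw [mem_liftSub]
  refine ⟨hLM hl, ?_⟩
  have : ((⟨l, hLM hl⟩ : M) : M ⧸ L.subgroupOf M) = 1 := by
    rw [QuotientGroup.eq_one_iff]
    simpa [Subgroup.mem_subgroupOf] using hl
  rw [this]
  exact V.one_mem

/-- Fixed points of fixed points. -/
def subFixIso (X : GCx G) (L M : Subgroup G) (hLM : L ≤ M) [(L.subgroupOf M).Normal]
    (V : Subgroup (M ⧸ L.subgroupOf M)) :
    (X.sub L M hLM).fix V ≅ X.fix (liftSub L M V) :=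
  NatIso.ofComponents
    (fun n => Pointed.Iso.mk
      { toFun := fun a => ⟨a.1.1, fun k hk => by
          obtain ⟨h, hk⟩ := mem_liftSub.1 hk
          exact congrArg Subtype.val (a.2 _ hk)⟩
        invFun := fun a => ⟨⟨a.1, fun l hl => a.2 l (le_liftSub hLM V hl)⟩, fun q hq => by
          induction q using QuotientGroup.induction_on with | _ m
          exact Subtype.ext (a.2 m.1 (mem_liftSub.2 ⟨m.2, hq⟩))⟩
        left_inv := fun a => rfl
        right_inv := fun a => rfl } rfl)
    (fun f => rfl)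

end Vale.Agent.P241.Based
end

section

set_option autoImplicit false

open CategoryTheory Opposite

namespace Vale.Agent.P241.Based

variable {G : Type} [Group G]

/-! ### Gluing a `G`-set and an `N/L`-set along the `L`-fixed points -/

section Glue

variable (L N : Subgroup G) (hLN : L ≤ N) [hn : (L.subgroupOf N).Normal]

/-- The relation generating the gluing. -/
def glueRel (A : BGSet G) (C : BGSet (N ⧸ L.subgroupOf N)) (i : (BGSet.sub L N hLN).obj A ⟶ C) :
    A ⊕ (G × C) → A ⊕ (G × C) → Prop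
  | Sum.inr (g, y), Sum.inl a => ∃ s, y = i.toFun s ∧ a = g • s.1
  | Sum.inr (g, y), Sum.inr (g', y') => ∃ m : N, g = g' * m.1 ∧ y' = (m : N ⧸ L.subgroupOf N) • y
  | _, _ => False

/-- The relation identifying `(g m, y)` with `(g, m y)`. -/
def indRel (C : BGSet (N ⧸ L.subgroupOf N)) (x y : G × C) : Prop :=
  ∃ m : N, x.1 = y.1 * m.1 ∧ y.2 = (m : N ⧸ L.subgroupOf N) • x.2

theorem indRel_eqv (C : BGSet (N ⧸ L.subgroupOf N)) : Equivalence (indRel L N C) where
  refl x := ⟨1, by simp, by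
    show x.2 = ((1 : N) : N ⧸ L.subgroupOf N) • x.2
    rw [QuotientGroup.mk_one, one_smul]⟩
  symm := by
    rintro x y ⟨m, h1, h2⟩
    refine ⟨m⁻¹, ?_, ?_⟩
    · rw [h1]; simp
    · rw [h2, QuotientGroup.mk_inv, inv_smul_smul]
  trans := by
    rintro x y z ⟨m, h1, h2⟩ ⟨m', h3, h4⟩
    refine ⟨m' * m, ?_, ?_⟩
    · rw [h1, h3]; simp [mul_assoc]
    · rw [h4, h2, QuotientGroup.mk_mul, mul_smul]

/-- The glued set. -/
def GlueT (A : BGSet G) (C : BGSet (N ⧸ L.subgroupOf N)) (i : (BGSet.sub L N hLN).obj A ⟶ C) :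
    Type := Quot (glueRel L N hLN A C i)

variable {A A' A'' : BGSet G} {C C' C'' : BGSet (N ⧸ L.subgroupOf N)}
  (i : (BGSet.sub L N hLN).obj A ⟶ C) (i' : (BGSet.sub L N hLN).obj A' ⟶ C')
  (i'' : (BGSet.sub L N hLN).obj A'' ⟶ C'')

def gl (a : A) : GlueT L N hLN A C i := Quot.mk _ (Sum.inl a)
def gr (g : G) (y : C) : GlueT L N hLN A C i := Quot.mk _ (Sum.inr (g, y))

theorem gr_image (g : G) (s : (BGSet.sub L N hLN).obj A) :
    gr L N hLN i g (i.toFun s) = gl L N hLN i (g • s.1) :=
  Quot.sound ⟨s, rfl, rfl⟩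

theorem gr_mul (g : G) (m : N) (y : C) :
    gr L N hLN i (g * m.1) y = gr L N hLN i g ((m : N ⧸ L.subgroupOf N) • y) :=
  Quot.sound ⟨m, rfl, rfl⟩

theorem glue_rep (z : GlueT L N hLN A C i) :
    (∃ a, z = gl L N hLN i a) ∨ (∃ g y, y ∉ Set.range i.toFun ∧ z = gr L N hLN i g y) := by
  induction z using Quot.induction_on with | _ z
  rcases z with a | ⟨g, y⟩
  · exact Or.inl ⟨a, rfl⟩
  · by_cases h : y ∈ Set.range i.toFun
    · obtain ⟨s, rfl⟩ := h
      exact Or.inl ⟨_, gr_image L N hLN i g s⟩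
    · exact Or.inr ⟨g, y, h, rfl⟩

open Classical in
/-- Normal form. -/
noncomputable def nf (hi : Function.Injective i.toFun) :
    GlueT L N hLN A C i → A ⊕ Quotient (Setoid.mk _ (indRel_eqv L N C)) :=
  Quot.lift
    (fun z => match z with
      | Sum.inl a => Sum.inl a
      | Sum.inr (g, y) => if h : y ∈ Set.range i.toFun then Sum.inl (g • (h.choose).1)
          else Sum.inr (Quotient.mk _ (g, y)))
    (by
      rintro (a | ⟨g, y⟩) (a' | ⟨g', y'⟩) h
      · exact h.elim
      · exact h.elim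
      · obtain ⟨s, rfl, rfl⟩ := h
        have h : i.toFun s ∈ Set.range i.toFun := ⟨s, rfl⟩
        show (if h : i.toFun s ∈ Set.range i.toFun then Sum.inl (g • (h.choose).1)
          else Sum.inr (Quotient.mk _ (g, i.toFun s))) = _
        rw [dif_pos h]
        have := hi h.choose_spec
        rw [this]
      · obtain ⟨m, h1, h2⟩ := h
        show (if h : y ∈ Set.range i.toFun then Sum.inl (g • (h.choose).1)
          else Sum.inr (Quotient.mk _ (g, y))) =
          (if h : y' ∈ Set.range i.toFun then Sum.inl (g' • (h.choose).1)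
          else Sum.inr (Quotient.mk _ (g', y')))
        by_cases h : y ∈ Set.range i.toFun
        · obtain ⟨s, rfl⟩ := h
          have h : i.toFun s ∈ Set.range i.toFun := ⟨s, rfl⟩
          have h' : y' ∈ Set.range i.toFun := ⟨(m : N ⧸ L.subgroupOf N) • s, by
            rw [i.map_smul, h2]⟩
          rw [dif_pos h, dif_pos h']
          have e := hi h.choose_spec
          have e' : h'.choose = (m : N ⧸ L.subgroupOf N) • s := by
            apply hi
            rw [h'.choose_spec, h2, i.map_smul]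
          rw [e, e', h1, mul_smul]
          rfl
        · have h' : y' ∉ Set.range i.toFun := by
            rintro ⟨s, hs⟩
            apply h
            refine ⟨(m : N ⧸ L.subgroupOf N)⁻¹ • s, ?_⟩
            rw [i.map_smul, hs, h2, inv_smul_smul]
          rw [dif_neg h, dif_neg h']
          exact congrArg Sum.inr (Quotient.sound ⟨m, h1, h2⟩))

theorem nf_gl (hi : Function.Injective i.toFun) (a : A) :
    nf L N hLN i hi (gl L N hLN i a) = Sum.inl a := rfl

theorem nf_gr (hi : Function.Injective i.toFun) (g : G) (y : C) (hy : y ∉ Set.range i.toFun) :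
    nf L N hLN i hi (gr L N hLN i g y) = Sum.inr (Quotient.mk _ (g, y)) := by
  classical
  show (if h : y ∈ Set.range i.toFun then Sum.inl (g • (h.choose).1)
          else Sum.inr (Quotient.mk _ (g, y))) = _
  rw [dif_neg hy]

theorem gl_inj (hi : Function.Injective i.toFun) {a a' : A}
    (h : gl L N hLN i a = gl L N hLN i a') : a = a' := by
  have := congrArg (nf L N hLN i hi) h
  rw [nf_gl, nf_gl] at this
  exact Sum.inl_injective this

theorem gl_ne_gr (hi : Function.Injective i.toFun) {a : A} {g : G} {y : C}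
    (hy : y ∉ Set.range i.toFun) : gl L N hLN i a ≠ gr L N hLN i g y := by
  intro h
  have := congrArg (nf L N hLN i hi) h
  rw [nf_gl, nf_gr _ _ _ _ hi _ _ hy] at this
  cases this

theorem gr_eq (hi : Function.Injective i.toFun) {g g' : G} {y y' : C}
    (hy : y ∉ Set.range i.toFun) (hy' : y' ∉ Set.range i.toFun)
    (h : gr L N hLN i g y = gr L N hLN i g' y') :
    ∃ m : N, g = g' * m.1 ∧ y' = (m : N ⧸ L.subgroupOf N) • y := by
  have := congrArg (nf L N hLN i hi) h
  rw [nf_gr _ _ _ _ hi _ _ hy, nf_gr _ _ _ _ hi _ _ hy'] at this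
  exact Quotient.exact (Sum.inr_injective this)

/-- The action on the glued set. -/
def glueSMul (g : G) : GlueT L N hLN A C i → GlueT L N hLN A C i :=
  Quot.map (Sum.map (fun a => g • a) (fun x => (g * x.1, x.2))) (by
    rintro (a | ⟨h, y⟩) (a' | ⟨h', y'⟩) r
    · exact r.elim
    · exact r.elim
    · obtain ⟨s, rfl, rfl⟩ := r
      exact ⟨s, rfl, by rw [mul_smul]⟩
    · obtain ⟨m, h1, h2⟩ := r
      exact ⟨m, by rw [h1, mul_assoc], h2⟩)

/-- The glued `G`-set. -/
def glueSet : BGSet G where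
  carrier := GlueT L N hLN A C i
  action :=
    { smul := glueSMul L N hLN i
      one_smul := fun z => by
        rcases glue_rep L N hLN i z with ⟨a, rfl⟩ | ⟨g, y, _, rfl⟩
        · show gl L N hLN i ((1 : G) • a) = _
          rw [one_smul]
        · show gr L N hLN i (1 * g) y = _
          rw [one_mul]
      mul_smul := fun x x' z => by
        rcases glue_rep L N hLN i z with ⟨a, rfl⟩ | ⟨g, y, _, rfl⟩
        · show gl L N hLN i ((x * x') • a) = gl L N hLN i (x • x' • a)
          rw [mul_smul]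
        · show gr L N hLN i (x * x' * g) y = gr L N hLN i (x * (x' * g)) y
          rw [mul_assoc] }
  pt := gl L N hLN i A.pt
  smul_pt := fun g => by
    show gl L N hLN i (g • A.pt) = _
    rw [A.smul_pt]

theorem smul_gl (g : G) (a : A) :
    g • (show glueSet L N hLN i from gl L N hLN i a) = gl L N hLN i (g • a) := rfl

theorem smul_gr (g h : G) (y : C) :
    g • (show glueSet L N hLN i from gr L N hLN i h y) = gr L N hLN i (g * h) y := rfl

/-- Functoriality of the gluing. -/
def glueMap (a : A ⟶ A') (c : C ⟶ C') (hc : i ≫ c = (BGSet.sub L N hLN).map a ≫ i') :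
    glueSet L N hLN i ⟶ glueSet L N hLN i' where
  toFun := Quot.map (Sum.map a.toFun (fun x => (x.1, c.toFun x.2))) (by
    rintro (b | ⟨h, y⟩) (b' | ⟨h', y'⟩) r
    · exact r.elim
    · exact r.elim
    · obtain ⟨s, rfl, rfl⟩ := r
      refine ⟨((BGSet.sub L N hLN).map a).toFun s, ?_, ?_⟩
      · exact congrFun (congrArg BGSet.Hom.toFun hc) s
      · exact a.map_smul h s.1
    · obtain ⟨m, h1, h2⟩ := r
      exact ⟨m, h1, by rw [h2, c.map_smul]⟩)
  map_smul := fun x z => by
    rcases glue_rep L N hLN i z with ⟨b, rfl⟩ | ⟨g, y, _, rfl⟩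
    · show gl L N hLN i' (a.toFun (x • b)) = gl L N hLN i' (x • a.toFun b)
      rw [a.map_smul]
    · rfl
  map_pt := by
    show gl L N hLN i' (a.toFun A.pt) = gl L N hLN i' A'.pt
    rw [a.map_pt]

end Glue

/-! ### Gluing complexes -/

section GlueCx

variable (L N : Subgroup G) (hLN : L ≤ N) [hn : (L.subgroupOf N).Normal]
variable (Z : GCx G) (C : GCx (N ⧸ L.subgroupOf N)) (i : Z.sub L N hLN ⟶ C)

/-- The complex obtained from `Z` by attaching the induced free cells of `C`. -/
def glueCx : GCx G where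
  obj n := glueSet L N hLN (i.app n)
  map f := glueMap L N hLN (i.app _) (i.app _) (Z.map f) (C.map f) (i.naturality f).symm
  map_id n := by
    apply BGSet.Hom.ext
    funext z
    rcases glue_rep L N hLN (i.app n) z with ⟨b, rfl⟩ | ⟨g, y, _, rfl⟩
    · show gl L N hLN (i.app n) ((Z.map (𝟙 n)).toFun b) = _
      rw [Z.map_id]; rfl
    · show gr L N hLN (i.app n) g ((C.map (𝟙 n)).toFun y) = _
      rw [C.map_id]; rfl
  map_comp f g := by
    apply BGSet.Hom.ext
    funext z
    rcases glue_rep L N hLN (i.app _) z with ⟨b, rfl⟩ | ⟨h, y, _, rfl⟩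
    · show gl L N hLN (i.app _) ((Z.map (f ≫ g)).toFun b) = _
      rw [Z.map_comp]; rfl
    · show gr L N hLN (i.app _) h ((C.map (f ≫ g)).toFun y) = _
      rw [C.map_comp]; rfl

/-- The inclusion of `Z`. -/
def glueInl : Z ⟶ glueCx L N hLN Z C i where
  app n := ⟨fun a => gl L N hLN (i.app n) a, fun _ _ => rfl, rfl⟩
  naturality _ _ _ := rfl

/-- A map of based simplicial sets which is bijective in each degree is an isomorphism. -/
noncomputable def isoOfBijective {X Y : BSSet} (f : X ⟶ Y)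
    (h : ∀ n, Function.Bijective (f.app n).toFun) : X ≅ Y :=
  NatIso.ofComponents
    (fun n => Pointed.Iso.mk (Equiv.ofBijective _ (h n)) (f.app n).map_point)
    (fun g => f.naturality g)

variable (hi : ∀ n, Function.Injective (i.app n).toFun)
variable (hfree : ∀ n (y : C.obj n), y ∉ Set.range (i.app n).toFun →
  ∀ w : N ⧸ L.subgroupOf N, w • y = y → w = 1)

include hi hfree in
/-- Isotropy of the new simplices. -/
theorem gr_fixed {n : SimplexCategoryᵒᵖ} {g k : G} {y : C.obj n}
    (hy : y ∉ Set.range (i.app n).toFun)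
    (h : gr L N hLN (i.app n) (k * g) y = gr L N hLN (i.app n) g y) : g⁻¹ * k * g ∈ L := by
  obtain ⟨m, h1, h2⟩ := gr_eq L N hLN (i.app n) (hi n) hy hy h
  have h3 := hfree n y hy m h2.symm
  rw [QuotientGroup.eq_one_iff, Subgroup.mem_subgroupOf] at h3
  rw [mul_assoc, h1]
  simpa using h3

/-- Away from the conjugates of `L` nothing changes. -/
noncomputable def glueFixIso (K : Subgroup G) (hK : ∀ g : G, ∃ k ∈ K, g⁻¹ * k * g ∉ L) :
    Z.fix K ≅ (glueCx L N hLN Z C i).fix K :=
  isoOfBijective (Functor.whiskerRight (glueInl L N hLN Z C i) (BGSet.fix K)) (by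
    intro n
    constructor
    · intro a b h
      apply Subtype.ext
      exact gl_inj L N hLN (i.app n) (hi n) (congrArg Subtype.val h)
    · rintro ⟨z, hz⟩
      rcases glue_rep L N hLN (i.app n) z with ⟨b, rfl⟩ | ⟨g, y, hy, rfl⟩
      · refine ⟨⟨b, fun k hk => ?_⟩, rfl⟩
        exact gl_inj L N hLN (i.app n) (hi n) (hz k hk)
      · exfalso
        obtain ⟨k, hk, hkL⟩ := hK g
        exact hkL (gr_fixed L N hLN Z C i hi hfree hy (hz k hk)))

/-- The map from `C` to the `L`-fixed points. -/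
def glueInr : C.fix ⊥ ⟶ (glueCx L N hLN Z C i).fix L where
  app n :=
    { toFun := fun y => ⟨gr L N hLN (i.app n) 1 y.1, fun l hl => by
        show gr L N hLN (i.app n) (l * 1) y.1 = _
        have h := gr_mul L N hLN (i.app n) 1 ⟨l, hLN hl⟩ y.1
        have h' : ((⟨l, hLN hl⟩ : N) : N ⧸ L.subgroupOf N) = 1 := by
          rw [QuotientGroup.eq_one_iff]
          simpa [Subgroup.mem_subgroupOf] using hl
        rw [h', one_smul] at h
        rw [mul_one, ← h, one_mul]⟩
      map_point := by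
        apply Subtype.ext
        show gr L N hLN (i.app n) 1 (C.obj n).pt = gl L N hLN (i.app n) (Z.obj n).pt
        have h := gr_image L N hLN (i.app n) 1 ((Z.sub L N hLN).obj n).pt
        rw [(i.app n).map_pt, one_smul] at h
        exact h }
  naturality _ _ _ := rfl

/-- The new `L`-fixed points are `C`. -/
noncomputable def glueFixIso' (hN : ∀ g : G, (∀ l ∈ L, g⁻¹ * l * g ∈ L) → g ∈ N) :
    C.fix ⊥ ≅ (glueCx L N hLN Z C i).fix L :=
  isoOfBijective (glueInr L N hLN Z C i) (by
    intro n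
    constructor
    · intro a b h
      apply Subtype.ext
      have h' : gr L N hLN (i.app n) 1 a.1 = gr L N hLN (i.app n) 1 b.1 := congrArg Subtype.val h
      by_cases ha : a.1 ∈ Set.range (i.app n).toFun
      · by_cases hb : b.1 ∈ Set.range (i.app n).toFun
        · obtain ⟨s, hs⟩ := ha
          obtain ⟨t, ht⟩ := hb
          rw [← hs, ← ht, gr_image, gr_image] at h'
          have := gl_inj L N hLN (i.app n) (hi n) h'
          rw [one_smul, one_smul] at this
          rw [← hs, ← ht, Subtype.ext this]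
        · obtain ⟨s, hs⟩ := ha
          rw [← hs, gr_image] at h'
          exact absurd h' (gl_ne_gr L N hLN (i.app n) (hi n) hb)
      · by_cases hb : b.1 ∈ Set.range (i.app n).toFun
        · obtain ⟨s, hs⟩ := hb
          rw [← hs, gr_image] at h'
          exact absurd h'.symm (gl_ne_gr L N hLN (i.app n) (hi n) ha)
        · obtain ⟨m, h1, h2⟩ := gr_eq L N hLN (i.app n) (hi n) ha hb h'
          have : m = 1 := by
            apply Subtype.ext
            simpa using h1.symm
          rw [h2, this, QuotientGroup.mk_one, one_smul]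
    · rintro ⟨z, hz⟩
      rcases glue_rep L N hLN (i.app n) z with ⟨b, rfl⟩ | ⟨g, y, hy, rfl⟩
      · have hb : ∀ l ∈ L, l • b = b := fun l hl =>
          gl_inj L N hLN (i.app n) (hi n) (hz l hl)
        refine ⟨⟨(i.app n).toFun ⟨b, hb⟩, fun k hk => ?_⟩, ?_⟩
        · rw [Subgroup.mem_bot] at hk
          rw [hk, one_smul]
        · apply Subtype.ext
          exact (gr_image L N hLN (i.app n) 1 ⟨b, hb⟩).trans
            (congrArg (gl L N hLN (i.app n)) (one_smul G b))
      · have hg : g ∈ N := hN g (fun l hl =>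
          gr_fixed L N hLN Z C i hi hfree hy (hz l hl))
        refine ⟨⟨((⟨g, hg⟩ : N) : N ⧸ L.subgroupOf N) • y, fun k hk => ?_⟩, ?_⟩
        · rw [Subgroup.mem_bot] at hk
          rw [hk, one_smul]
        · apply Subtype.ext
          show gr L N hLN (i.app n) 1 _ = gr L N hLN (i.app n) g y
          rw [← gr_mul, one_mul])

end GlueCx

end Vale.Agent.P241.Based
end

section

set_option autoImplicit false

open CategoryTheory Opposite

namespace Vale.Agent.P241.Based

namespace Smash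

variable {A B A' B' A'' B'' : Type} {a : A} {b : B} {a' : A'} {b' : B'} {a'' : A''} {b'' : B''}

theorem mk_eq {x x' : A} {y y' : B} :
    mk a b x y = mk a b x' y' ↔ (x = x' ∧ y = y') ∨ ((x = a ∨ y = b) ∧ (x' = a ∨ y' = b)) := by
  constructor
  · intro h
    rcases Quotient.exact h with h | h
    · exact Or.inl (Prod.ext_iff.1 h)
    · exact Or.inr h
  · rintro (h | h)
    · rw [h.1, h.2]
    · exact Quotient.sound (Or.inr h)

theorem exists_rep (z : Smash A B a b) : ∃ x y, z = mk a b x y := by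
  induction z using Quotient.inductionOn with
  | _ z => exact ⟨z.1, z.2, rfl⟩

end Smash

end Vale.Agent.P241.Based
end

section

set_option autoImplicit false

open CategoryTheory Opposite Limits

namespace Vale.Agent.P241.Based

variable {G : Type} [Group G]

/-- Epi-mono factorisation with a section. -/
theorem exists_section {n k : SimplexCategory} (f : n ⟶ k) :
    ∃ (k' : SimplexCategory) (e : n ⟶ k') (s : k' ⟶ n), k'.len ≤ k.len ∧ e ≫ s ≫ f = f := by
  obtain ⟨⟨s, hs⟩⟩ := isSplitEpi_of_epi (factorThruImage f)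
  refine ⟨image f, factorThruImage f, s, SimplexCategory.len_le_of_mono (image.ι f), ?_⟩
  calc factorThruImage f ≫ s ≫ f
      = factorThruImage f ≫ s ≫ (factorThruImage f ≫ image.ι f) := by rw [image.fac]
    _ = factorThruImage f ≫ (s ≫ factorThruImage f) ≫ image.ι f := by simp only [Category.assoc]
    _ = f := by rw [hs, Category.id_comp, image.fac]

/-- Simultaneous factorisation of two maps. -/
theorem exists_section₂ {n a b : SimplexCategory} (f : n ⟶ a) (g : n ⟶ b) :
    ∃ (k : SimplexCategory) (e : n ⟶ k) (s : k ⟶ n), k.len ≤ a.len + b.len ∧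
      e ≫ s ≫ f = f ∧ e ≫ s ≫ g = g := by
  let φ : n ⟶ SimplexCategory.mk (a.len + b.len) := SimplexCategory.Hom.mk
    { toFun := fun j => ⟨(f.toOrderHom j).1 + (g.toOrderHom j).1, by
        have := (f.toOrderHom j).2
        have := (g.toOrderHom j).2
        show _ < a.len + b.len + 1
        omega⟩
      monotone' := by
        intro j j' h
        have h1 := f.toOrderHom.monotone h
        have h2 := g.toOrderHom.monotone h
        show (f.toOrderHom j).1 + (g.toOrderHom j).1 ≤ (f.toOrderHom j').1 + (g.toOrderHom j').1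
        exact Nat.add_le_add h1 h2 }
  obtain ⟨k, e, s, hk, h⟩ := exists_section φ
  have key : ∀ j, f.toOrderHom (s.toOrderHom (e.toOrderHom j)) = f.toOrderHom j ∧
      g.toOrderHom (s.toOrderHom (e.toOrderHom j)) = g.toOrderHom j := by
    intro j
    have h1 : φ.toOrderHom (s.toOrderHom (e.toOrderHom j)) = φ.toOrderHom j := by
      conv_rhs => rw [← h]
      rfl
    have h2 := congrArg Fin.val h1
    change (f.toOrderHom (s.toOrderHom (e.toOrderHom j))).1 +
      (g.toOrderHom (s.toOrderHom (e.toOrderHom j))).1 =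
      (f.toOrderHom j).1 + (g.toOrderHom j).1 at h2
    rcases le_total (s.toOrderHom (e.toOrderHom j)) j with hl | hl
    · have h3 : (f.toOrderHom (s.toOrderHom (e.toOrderHom j))).1 ≤ (f.toOrderHom j).1 :=
        f.toOrderHom.monotone hl
      have h4 : (g.toOrderHom (s.toOrderHom (e.toOrderHom j))).1 ≤ (g.toOrderHom j).1 :=
        g.toOrderHom.monotone hl
      exact ⟨Fin.ext (by omega), Fin.ext (by omega)⟩
    · have h3 : (f.toOrderHom j).1 ≤ (f.toOrderHom (s.toOrderHom (e.toOrderHom j))).1 :=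
        f.toOrderHom.monotone hl
      have h4 : (g.toOrderHom j).1 ≤ (g.toOrderHom (s.toOrderHom (e.toOrderHom j))).1 :=
        g.toOrderHom.monotone hl
      exact ⟨Fin.ext (by omega), Fin.ext (by omega)⟩
  refine ⟨k, e, s, hk, ?_, ?_⟩
  · ext j : 3
    exact (key j).1
  · ext j : 3
    exact (key j).2

/-- The dimension bound in the definition of `IsFin`, relative to any subcomplex. -/
theorem bounded_section {X : BSSet} {d : ℕ}
    (hd : ∀ (n : SimplexCategory) (x : X.obj (op n)),
      ∃ (k : SimplexCategory) (f : n ⟶ k) (y : X.obj (op k)), k.len ≤ d ∧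
        (X.map f.op).toFun y = x) (n : SimplexCategory) (x : X.obj (op n)) :
    ∃ (k : SimplexCategory) (e : n ⟶ k) (s : k ⟶ n), k.len ≤ d ∧
      (X.map e.op).toFun ((X.map s.op).toFun x) = x := by
  obtain ⟨k, f, y, hk, rfl⟩ := hd n x
  obtain ⟨k', e, s, hk', h⟩ := exists_section f
  refine ⟨k', e, s, hk'.trans hk, ?_⟩
  have h1 : X.map f.op ≫ X.map s.op ≫ X.map e.op = X.map f.op := by
    rw [← X.map_comp, ← X.map_comp, ← op_comp, ← op_comp, Category.assoc, h]
  exact congrFun (congrArg Pointed.Hom.toFun h1) y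

theorem IsFin.of_iso {X Y : BSSet} (e : X ≅ Y) (h : IsFin X) : IsFin Y := by
  obtain ⟨h1, d, hd⟩ := h
  have hinv : ∀ n (y : Y.obj n), (e.hom.app n).toFun ((e.inv.app n).toFun y) = y := by
    intro n y
    exact congrFun (congrArg Pointed.Hom.toFun (e.inv_hom_id_app n)) y
  refine ⟨fun n => ?_, d, fun n y => ?_⟩
  · have := h1 n
    exact Finite.of_surjective (e.hom.app n).toFun (fun y => ⟨_, hinv n y⟩)
  · obtain ⟨k, f, x, hk, hx⟩ := hd n ((e.inv.app (op n)).toFun y)
    refine ⟨k, f, (e.hom.app (op k)).toFun x, hk, ?_⟩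
    have := congrFun (congrArg Pointed.Hom.toFun (e.hom.naturality f.op)) x
    refine Eq.trans this.symm ?_
    show (e.hom.app (op n)).toFun ((X.map f.op).toFun x) = y
    rw [hx, hinv]

/-- Fixed points of a finite complex are finite. -/
theorem IsFin.fix {X : GCx G} (h : IsFin (X.fix ⊥)) (K : Subgroup G) : IsFin (X.fix K) := by
  obtain ⟨h1, d, hd⟩ := h
  refine ⟨fun n => ?_, d, fun n x => ?_⟩
  · have : Finite {a : (X.obj n).carrier // ∀ k ∈ (⊥ : Subgroup G), k • a = a} := h1 n
    refine Finite.of_injective (α := {a : (X.obj n).carrier // ∀ k ∈ K, k • a = a})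
      (β := {a : (X.obj n).carrier // ∀ k ∈ (⊥ : Subgroup G), k • a = a})
      (fun x => ⟨x.1, fun k hk => by rw [Subgroup.mem_bot] at hk; rw [hk, one_smul]⟩)
      (fun x y h => ?_)
    exact Subtype.ext (congrArg
      (fun z : {a : (X.obj n).carrier // ∀ k ∈ (⊥ : Subgroup G), k • a = a} => z.1) h)
  · obtain ⟨k, e, s, hk, he⟩ := bounded_section hd n
      ⟨x.1, fun k hk => by rw [Subgroup.mem_bot] at hk; rw [hk, one_smul]⟩
    refine ⟨k, e, ((X.fix K).map s.op).toFun x, hk, ?_⟩
    exact Subtype.ext (congrArg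
      (fun z : {a : (X.obj (op n)).carrier // ∀ k ∈ (⊥ : Subgroup G), k • a = a} => z.1) he)

/-- Finiteness of a `G`-complex, unfolded. -/
def FinG (X : GCx G) : Prop :=
  (∀ n, Finite (X.obj n)) ∧ ∃ d : ℕ, ∀ (n : SimplexCategory) (x : X.obj (op n)),
    ∃ (k : SimplexCategory) (f : n ⟶ k) (y : X.obj (op k)), k.len ≤ d ∧ (X.map f.op).toFun y = x

theorem finG_iff {X : GCx G} : IsFin (X.fix ⊥) ↔ FinG X := by
  have hb : ∀ n (a : X.obj n), ∀ k ∈ (⊥ : Subgroup G), k • a = a := by
    intro n a k hk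
    rw [Subgroup.mem_bot] at hk
    rw [hk, one_smul]
  constructor
  · rintro ⟨h1, d, hd⟩
    refine ⟨fun n => ?_, d, fun n x => ?_⟩
    · have : Finite {a : (X.obj n).carrier // ∀ k ∈ (⊥ : Subgroup G), k • a = a} := h1 n
      exact Finite.of_injective
        (fun x => (⟨x, hb n x⟩ : {a : (X.obj n).carrier // ∀ k ∈ (⊥ : Subgroup G), k • a = a}))
        (fun x y h => congrArg
          (fun z : {a : (X.obj n).carrier // ∀ k ∈ (⊥ : Subgroup G), k • a = a} => z.1) h)
    · obtain ⟨k, f, y, hk, hy⟩ := hd n ⟨x, hb _ x⟩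
      exact ⟨k, f, y.1, hk, congrArg
        (fun z : {a : (X.obj (op n)).carrier // ∀ k ∈ (⊥ : Subgroup G), k • a = a} => z.1) hy⟩
  · rintro ⟨h1, d, hd⟩
    refine ⟨fun n => ?_, d, fun n x => ?_⟩
    · have := h1 n
      exact Subtype.finite
    · obtain ⟨k, f, y, hk, hy⟩ := hd n x.1
      exact ⟨k, f, ⟨y, hb _ y⟩, hk, Subtype.ext hy⟩

theorem FinG.bounded {X : GCx G} {d : ℕ}
    (hd : ∀ (n : SimplexCategory) (x : X.obj (op n)),
      ∃ (k : SimplexCategory) (f : n ⟶ k) (y : X.obj (op k)), k.len ≤ d ∧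
        (X.map f.op).toFun y = x) (n : SimplexCategory) (x : X.obj (op n)) :
    ∃ (k : SimplexCategory) (e : n ⟶ k) (s : k ⟶ n), k.len ≤ d ∧
      (X.map e.op).toFun ((X.map s.op).toFun x) = x := by
  obtain ⟨k, f, y, hk, rfl⟩ := hd n x
  obtain ⟨k', e, s, hk', h⟩ := exists_section f
  refine ⟨k', e, s, hk'.trans hk, ?_⟩
  have h1 : X.map f.op ≫ X.map s.op ≫ X.map e.op = X.map f.op := by
    rw [← X.map_comp, ← X.map_comp, ← op_comp, ← op_comp, Category.assoc, h]
  exact congrFun (congrArg BGSet.Hom.toFun h1) y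

/-- Smash products of finite complexes are finite. -/
theorem FinG.smash {X : GCx G} (hX : FinG X) {T : BSSet} (hT : IsFin T) : FinG (X.smash T) := by
  obtain ⟨h1, d, hd⟩ := hX
  obtain ⟨h2, d', hd'⟩ := hT
  refine ⟨fun n => ?_, d + d', fun n z => ?_⟩
  · have := h1 n
    have := h2 n
    refine Finite.of_surjective (α := X.obj n × T.obj n) (fun x => Smash.mk _ _ x.1 x.2) ?_
    intro z
    obtain ⟨x, y, rfl⟩ := Smash.exists_rep z
    exact ⟨(x, y), rfl⟩
  · obtain ⟨x, y, rfl⟩ := Smash.exists_rep z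
    obtain ⟨a, f, x', ha, rfl⟩ := hd n x
    obtain ⟨b, g, y', hb, rfl⟩ := hd' n y
    obtain ⟨k, e, s, hk, hf, hg⟩ := exists_section₂ f g
    refine ⟨k, e, Smash.mk _ _ ((X.map (s ≫ f).op).toFun x') ((T.map (s ≫ g).op).toFun y'),
      by omega, ?_⟩
    have h3 : X.map (s ≫ f).op ≫ X.map e.op = X.map f.op := by
      rw [← X.map_comp, ← op_comp, hf]
    have h4 : T.map (s ≫ g).op ≫ T.map e.op = T.map g.op := by
      rw [← T.map_comp, ← op_comp, hg]
    show Smash.mk _ _ ((X.map e.op).toFun ((X.map (s ≫ f).op).toFun x'))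
      ((T.map e.op).toFun ((T.map (s ≫ g).op).toFun y')) = _
    have h5 : (X.map e.op).toFun ((X.map (s ≫ f).op).toFun x') = (X.map f.op).toFun x' :=
      congrFun (congrArg BGSet.Hom.toFun h3) x'
    have h6 : (T.map e.op).toFun ((T.map (s ≫ g).op).toFun y') = (T.map g.op).toFun y' :=
      congrFun (congrArg Pointed.Hom.toFun h4) y'
    rw [h5, h6]

/-- The glued complex is finite. -/
theorem FinG.glue [Finite G] (L N : Subgroup G) (hLN : L ≤ N) [hn : (L.subgroupOf N).Normal]
    {Z : GCx G} {C : GCx (N ⧸ L.subgroupOf N)} (i : Z.sub L N hLN ⟶ C) (hZ : FinG Z)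
    (hC : FinG C) : FinG (glueCx L N hLN Z C i) := by
  obtain ⟨h1, d, hd⟩ := hZ
  obtain ⟨h2, d', hd'⟩ := hC
  refine ⟨fun n => ?_, max d d', fun n z => ?_⟩
  · have := h1 n
    have := h2 n
    refine Finite.of_surjective (α := Z.obj n ⊕ (G × C.obj n))
      (β := GlueT L N hLN _ _ (i.app n)) (fun x => Quot.mk _ x) ?_
    intro z
    induction z using Quot.induction_on with | _ z
    exact ⟨z, rfl⟩
  · rcases glue_rep L N hLN (i.app (op n)) z with ⟨b, rfl⟩ | ⟨g, y, _, rfl⟩
    · obtain ⟨k, f, y, hk, rfl⟩ := hd n b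
      exact ⟨k, f, gl L N hLN (i.app (op k)) y, hk.trans (le_max_left _ _), rfl⟩
    · obtain ⟨k, f, y, hk, rfl⟩ := hd' n y
      exact ⟨k, f, gr L N hLN (i.app (op k)) g y, hk.trans (le_max_right _ _), rfl⟩

end Vale.Agent.P241.Based
end

section

set_option autoImplicit false

namespace Vale.Agent.P241.Based

variable {G : Type} [Group G]

/-- `A` is normal in `B` with cyclic quotient, elementwise. -/
def Step (A B : Subgroup G) : Prop :=
  A ≤ B ∧ (∀ b ∈ B, ∀ a ∈ A, b * a * b⁻¹ ∈ A) ∧ ∃ g ∈ B, ∀ b ∈ B, ∃ k : ℤ, (g ^ k)⁻¹ * b ∈ A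

theorem step_iff {A B : Subgroup G} :
    Step A B ↔ (A ≤ B ∧ ∃ _ : (A.subgroupOf B).Normal, IsCyclic (B ⧸ A.subgroupOf B)) := by
  constructor
  · rintro ⟨h1, h2, g, hg, h3⟩
    have hn : (A.subgroupOf B).Normal := ⟨fun a ha b => by
      rw [Subgroup.mem_subgroupOf] at ha ⊢
      simpa using h2 b.1 b.2 a.1 ha⟩
    refine ⟨h1, hn, ?_⟩
    · refine ⟨((⟨g, hg⟩ : B) : B ⧸ A.subgroupOf B), fun q => ?_⟩
      obtain ⟨b, rfl⟩ := QuotientGroup.mk_surjective q
      obtain ⟨k, hk⟩ := h3 b.1 b.2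
      refine ⟨k, ?_⟩
      show ((⟨g, hg⟩ : B) : B ⧸ A.subgroupOf B) ^ k = _
      rw [← QuotientGroup.mk_zpow, QuotientGroup.eq, Subgroup.mem_subgroupOf]
      simpa using hk
  · rintro ⟨h1, hn, hc⟩
    refine ⟨h1, fun b hb a ha => ?_, ?_⟩
    · have := hn.conj_mem ⟨a, h1 ha⟩ (by simpa [Subgroup.mem_subgroupOf] using ha) ⟨b, hb⟩
      simpa [Subgroup.mem_subgroupOf] using this
    · obtain ⟨q, hq⟩ := hc
      obtain ⟨g, rfl⟩ := QuotientGroup.mk_surjective q
      refine ⟨g.1, g.2, fun b hb => ?_⟩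
      obtain ⟨k, hk⟩ := hq ((⟨b, hb⟩ : B) : B ⧸ A.subgroupOf B)
      refine ⟨k, ?_⟩
      change ((g : B) : B ⧸ A.subgroupOf B) ^ k = _ at hk
      rw [← QuotientGroup.mk_zpow, QuotientGroup.eq, Subgroup.mem_subgroupOf] at hk
      simpa using hk

theorem hasCyclicChain_iff {A B : Subgroup G} {s : ℕ} : HasCyclicChain A B s ↔
    ∃ c : ℕ → Subgroup G, c 0 = A ∧ c s = B ∧ ∀ i < s, Step (c i) (c (i + 1)) := by
  unfold HasCyclicChain
  simp only [step_iff]

theorem HasCyclicChain.refl (A : Subgroup G) : HasCyclicChain A A 0 :=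
  ⟨fun _ => A, rfl, rfl, fun i hi => absurd hi (Nat.not_lt_zero i)⟩

theorem HasCyclicChain.cons {A B C : Subgroup G} {s : ℕ} (h : Step A B)
    (h' : HasCyclicChain B C s) : HasCyclicChain A C (s + 1) := by
  rw [hasCyclicChain_iff] at h' ⊢
  obtain ⟨c, h0, hs, hc⟩ := h'
  refine ⟨fun i => if i = 0 then A else c (i - 1), by simp, by simp [hs], fun i hi => ?_⟩
  rcases Nat.eq_zero_or_pos i with rfl | hpos
  · simpa [h0] using h
  · obtain ⟨j, rfl⟩ : ∃ j, i = j + 1 := ⟨i - 1, by omega⟩
    simpa using hc j (by omega)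

theorem HasCyclicChain.snoc {A B C : Subgroup G} {s : ℕ} (h' : HasCyclicChain A B s)
    (h : Step B C) : HasCyclicChain A C (s + 1) := by
  rw [hasCyclicChain_iff] at h' ⊢
  obtain ⟨c, h0, hs, hc⟩ := h'
  refine ⟨fun i => if i ≤ s then c i else C, by simp [h0], by simp, fun i hi => ?_⟩
  rcases Nat.lt_or_ge i s with hlt | hge
  · simpa [hlt.le, Nat.succ_le_of_lt hlt] using hc i hlt
  · obtain rfl : i = s := by omega
    simpa [hs] using h

/-- Induction principle: a chain is empty or ends with a step. -/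
theorem HasCyclicChain.rec' {A : Subgroup G} {P : Subgroup G → ℕ → Prop} (h0 : P A 0)
    (h1 : ∀ B C s, HasCyclicChain A B s → P B s → Step B C → P C (s + 1)) {B : Subgroup G} {s : ℕ}
    (h : HasCyclicChain A B s) : P B s := by
  induction s generalizing B with
  | zero =>
    obtain ⟨c, hc0, hcs, _⟩ := h
    rw [← hcs, hc0]
    exact h0
  | succ s ih =>
    have h' := hasCyclicChain_iff.1 h
    obtain ⟨c, hc0, hcs, hc⟩ := h'
    have h2 : HasCyclicChain A (c s) s :=
      hasCyclicChain_iff.2 ⟨c, hc0, rfl, fun i hi => hc i (by omega)⟩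
    rw [← hcs]
    exact h1 _ _ _ h2 (ih h2) (hc s (by omega))

theorem HasCyclicChain.trans {A B C : Subgroup G} {s t : ℕ} (h : HasCyclicChain A B s)
    (h' : HasCyclicChain B C t) : HasCyclicChain A C (s + t) :=
  h'.rec' (P := fun C t => HasCyclicChain A C (s + t)) h
    (fun _ _ _ _ hP hS => hP.snoc hS)

theorem HasCyclicChain.le {A B : Subgroup G} {s : ℕ} (h : HasCyclicChain A B s) : A ≤ B :=
  h.rec' (P := fun C _ => A ≤ C) le_rfl (fun _ _ _ _ hP hS => hP.trans hS.1)

theorem cycLen_le {A B : Subgroup G} {s : ℕ} (h : HasCyclicChain A B s) : cycLen A B ≤ s :=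
  Nat.sInf_le h

theorem HasCyclicChain.cycLen {A B : Subgroup G} {s : ℕ} (h : HasCyclicChain A B s) :
    HasCyclicChain A B (cycLen A B) :=
  Nat.sInf_mem (s := {s | HasCyclicChain A B s}) ⟨s, h⟩

/-- Images of steps under a homomorphism which is injective enough: here, transport along a
map of subgroups preserving steps. -/
theorem HasCyclicChain.map {W : Type} [Group W] (F : Subgroup W → Subgroup G)
    (hF : ∀ A B, Step A B → Step (F A) (F B)) {A B : Subgroup W} {s : ℕ}
    (h : HasCyclicChain A B s) : HasCyclicChain (F A) (F B) s :=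
  h.rec' (P := fun C t => HasCyclicChain (F A) (F C) t) (HasCyclicChain.refl _)
    (fun _ _ _ _ hP hS => hP.snoc (hF _ _ hS))

/-- Steps are preserved by automorphisms. -/
theorem Step.map {A B : Subgroup G} (h : Step A B) (φ : G ≃* G) :
    Step (A.map φ.toMonoidHom) (B.map φ.toMonoidHom) := by
  obtain ⟨h1, h2, g, hg, h3⟩ := h
  refine ⟨Subgroup.map_mono h1, ?_, φ g, ⟨g, hg, rfl⟩, ?_⟩
  · rintro _ ⟨b, hb, rfl⟩ _ ⟨a, ha, rfl⟩
    exact ⟨b * a * b⁻¹, h2 b hb a ha, by simp⟩
  · rintro _ ⟨b, hb, rfl⟩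
    obtain ⟨k, hk⟩ := h3 b hb
    exact ⟨k, (g ^ k)⁻¹ * b, hk, by simp⟩

/-- The subgroup generated by `A` and an element `x` normalising it. -/
def adj (A : Subgroup G) (x : G) (hx : x ∈ Subgroup.normalizer (A : Set G)) : Subgroup G where
  carrier := {b | ∃ k : ℤ, (x ^ k)⁻¹ * b ∈ A}
  one_mem' := ⟨0, by simp⟩
  mul_mem' := by
    rintro b c ⟨k, hk⟩ ⟨l, hl⟩
    refine ⟨k + l, ?_⟩
    have h1 : x ^ (-l) ∈ Subgroup.normalizer (A : Set G) := Subgroup.zpow_mem _ hx _
    have h2 := (Subgroup.mem_normalizer_iff.1 h1 _).1 hk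
    have h3 := A.mul_mem h2 hl
    have : (x ^ (k + l))⁻¹ * (b * c) = x ^ (-l) * ((x ^ k)⁻¹ * b) * (x ^ (-l))⁻¹ * ((x ^ l)⁻¹ * c) := by
      rw [zpow_add, zpow_neg]
      group
    rw [this]
    exact h3
  inv_mem' := by
    rintro b ⟨k, hk⟩
    refine ⟨-k, ?_⟩
    have h1 : x ^ k ∈ Subgroup.normalizer (A : Set G) := Subgroup.zpow_mem _ hx _
    have h2 := (Subgroup.mem_normalizer_iff.1 h1 _).1 (A.inv_mem hk)
    have : (x ^ (-k))⁻¹ * b⁻¹ = x ^ k * ((x ^ k)⁻¹ * b)⁻¹ * (x ^ k)⁻¹ := by
      rw [zpow_neg]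
      group
    rw [this]
    exact h2

theorem step_adj (A : Subgroup G) (x : G) (hx : x ∈ Subgroup.normalizer (A : Set G)) :
    Step A (adj A x hx) := by
  refine ⟨fun a ha => ⟨0, by simpa using ha⟩, ?_, x, ⟨1, by simp⟩, fun b hb => hb⟩
  rintro b ⟨k, hk⟩ a ha
  have h1 : x ^ k ∈ Subgroup.normalizer (A : Set G) := Subgroup.zpow_mem _ hx _
  have h2 : ((x ^ k)⁻¹ * b) * a * ((x ^ k)⁻¹ * b)⁻¹ ∈ A :=
    A.mul_mem (A.mul_mem hk ha) (A.inv_mem hk)
  have h3 := (Subgroup.mem_normalizer_iff.1 h1 _).1 h2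
  have : b * a * b⁻¹ = x ^ k * ((x ^ k)⁻¹ * b * a * ((x ^ k)⁻¹ * b)⁻¹) * (x ^ k)⁻¹ := by group
  rw [this]
  exact h3

/-- In a finite `p`-group, normalisers grow. -/
theorem exists_normalizing [Finite G] {p : ℕ} [Fact p.Prime] (hG : IsPGroup p G)
    {A B : Subgroup G} (h : A < B) :
    ∃ x ∈ B, x ∈ Subgroup.normalizer (A : Set G) ∧ x ∉ A := by
  have hB : IsPGroup p B := hG.to_subgroup B
  have hnil : Group.IsNilpotent B := hB.isNilpotent
  have hnc : NormalizerCondition B := Group.normalizerCondition_of_isNilpotent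
  have hlt : A.subgroupOf B < ⊤ := by
    rw [lt_top_iff_ne_top]
    intro htop
    exact h.not_ge (Subgroup.subgroupOf_eq_top.1 htop)
  obtain ⟨_, hx⟩ := SetLike.lt_iff_le_and_exists.1 (hnc _ hlt)
  obtain ⟨x, hx1, hx2⟩ := hx
  refine ⟨x.1, x.2, ?_, by simpa [Subgroup.mem_subgroupOf] using hx2⟩
  rw [Subgroup.mem_normalizer_iff] at hx1 ⊢
  intro a
  constructor
  · intro ha
    have := (hx1 ⟨a, h.le ha⟩).1 (by simpa [Subgroup.mem_subgroupOf] using ha)
    simpa [Subgroup.mem_subgroupOf] using this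
  · intro ha
    have haB : a ∈ B := by
      have h1 := B.mul_mem (B.mul_mem (B.inv_mem x.2) (h.le ha)) x.2
      have h2 : (x.1)⁻¹ * (x.1 * a * (x.1)⁻¹) * x.1 = a := by group
      rwa [h2] at h1
    have := (hx1 ⟨a, haB⟩).2 (by simpa [Subgroup.mem_subgroupOf] using ha)
    simpa [Subgroup.mem_subgroupOf] using this

/-- Chains exist in finite `p`-groups. -/
theorem exists_chain [Finite G] {p : ℕ} [Fact p.Prime] (hG : IsPGroup p G)
    {A B : Subgroup G} (h : A ≤ B) : ∃ s, HasCyclicChain A B s := by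
  induction hn : Nat.card B - Nat.card A using Nat.strong_induction_on generalizing A with
  | _ n ih =>
    rcases h.eq_or_lt with rfl | hlt
    · exact ⟨0, HasCyclicChain.refl _⟩
    · obtain ⟨x, hxB, hx, hxA⟩ := exists_normalizing hG hlt
      have hle : adj A x hx ≤ B := by
        rintro b ⟨k, hk⟩
        have := B.mul_mem (B.zpow_mem hxB k) (h hk)
        simpa using this
      have hst := step_adj A x hx
      have hxm : x ∈ adj A x hx := ⟨1, by simp⟩
      have hlt' : A < adj A x hx := lt_of_le_of_ne hst.1 (fun e => hxA (e ▸ hxm))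
      have hc : Nat.card A < Nat.card (adj A x hx) := by
        have := Set.ncard_lt_ncard (s := (A : Set G)) (t := (adj A x hx : Set G)) hlt'
          (Set.toFinite _)
        rwa [← Nat.card_coe_set_eq, ← Nat.card_coe_set_eq] at this
      have hc2 : Nat.card (adj A x hx) ≤ Nat.card B := by
        have := Set.ncard_le_ncard (s := (adj A x hx : Set G)) (t := (B : Set G)) hle
          (Set.toFinite _)
        rwa [← Nat.card_coe_set_eq, ← Nat.card_coe_set_eq] at this
      obtain ⟨s, hs⟩ := ih _ (by omega) hle rfl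
      exact ⟨s + 1, HasCyclicChain.cons hst hs⟩

end Vale.Agent.P241.Based
end

section

set_option autoImplicit false

open CategoryTheory Opposite Limits

namespace Vale.Agent.P241.Based

/-- The Weyl group `N_G(L) / L`. -/
abbrev Weyl {G : Type} [Group G] (L : Subgroup G) : Type :=
  Subgroup.normalizer (L : Set G) ⧸ L.subgroupOf (Subgroup.normalizer (L : Set G))

theorem AcTheory.Acyclic.of_iso {E : AcTheory} {X Y : BSSet} (e : X ≅ Y)
    (h : E.Acyclic X) : E.Acyclic Y := E.iso e h

theorem acyclic_iff {E : AcTheory} {X Y : BSSet} (e : X ≅ Y) :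
    E.Acyclic X ↔ E.Acyclic Y := ⟨fun h => h.of_iso e, fun h => h.of_iso e.symm⟩

variable {G : Type} [Group G]

/-- Bijective equivariant maps are isomorphisms. -/
noncomputable def isoOfBijectiveG {X Y : GCx G} (f : X ⟶ Y)
    (h : ∀ n, Function.Bijective (f.app n).toFun) : X ≅ Y where
  hom := f
  inv :=
    { app := fun n =>
        { toFun := (Equiv.ofBijective _ (h n)).symm
          map_smul := fun g a => by
            rw [Equiv.symm_apply_eq]
            show _ = (f.app n).toFun _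
            rw [(f.app n).map_smul]
            congr 1
            exact ((Equiv.ofBijective _ (h n)).apply_symm_apply a).symm
          map_pt := by
            rw [Equiv.symm_apply_eq]
            exact (f.app n).map_pt.symm }
      naturality := fun m n g => by
        apply BGSet.Hom.ext
        funext y
        obtain ⟨x, rfl⟩ := (h m).2 y
        show (Equiv.ofBijective _ (h n)).symm ((Y.map g).toFun ((f.app m).toFun x)) =
          (X.map g).toFun ((Equiv.ofBijective _ (h m)).symm ((f.app m).toFun x))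
        rw [Equiv.symm_apply_eq]
        have h1 : (Equiv.ofBijective _ (h m)).symm ((f.app m).toFun x) = x :=
          (Equiv.ofBijective _ (h m)).symm_apply_apply x
        rw [h1]
        exact (congrFun (congrArg BGSet.Hom.toFun (f.naturality g)) x).symm }
  hom_inv_id := by
    apply NatTrans.ext
    funext n
    apply BGSet.Hom.ext
    funext x
    exact (Equiv.ofBijective _ (h n)).symm_apply_apply x
  inv_hom_id := by
    apply NatTrans.ext
    funext n
    apply BGSet.Hom.ext
    funext x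
    exact (Equiv.ofBijective _ (h n)).apply_symm_apply x

/-- Smash products with trivial action commute with passage to fixed points. -/
noncomputable def smashSubIso (X : GCx G) (T : BSSet) (L M : Subgroup G) (hLM : L ≤ M)
    [(L.subgroupOf M).Normal] : (X.sub L M hLM).smash T ≅ (X.smash T).sub L M hLM :=
  isoOfBijectiveG
    { app := fun n =>
        { toFun := fun z => ⟨Smash.map (fun x => x.1) id rfl rfl z, fun k hk => by
            obtain ⟨x, y, rfl⟩ := Smash.exists_rep z
            show Smash.mk _ _ (k • x.1) y = Smash.mk _ _ x.1 y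
            rw [x.2 k hk]⟩
          map_smul := fun q z => by
            induction q using QuotientGroup.induction_on with | _ m
            obtain ⟨x, y, rfl⟩ := Smash.exists_rep z
            rfl
          map_pt := rfl }
      naturality := fun m n f => by
        apply BGSet.Hom.ext
        funext z
        obtain ⟨x, y, rfl⟩ := Smash.exists_rep z
        rfl }
    (by
      intro n
      constructor
      · intro z z' h
        obtain ⟨x, y, rfl⟩ := Smash.exists_rep z
        obtain ⟨x', y', rfl⟩ := Smash.exists_rep z'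
        have h' : Smash.mk (X.obj n).pt (T.obj n).point x.1 y = Smash.mk _ _ x'.1 y' :=
          congrArg Subtype.val h
        rw [Smash.mk_eq] at h'
        refine Smash.mk_eq.2 ?_
        rcases h' with ⟨h1, h2⟩ | ⟨h1, h2⟩
        · exact Or.inl ⟨Subtype.ext h1, h2⟩
        · exact Or.inr ⟨h1.imp (fun h => Subtype.ext h) id, h2.imp (fun h => Subtype.ext h) id⟩
      · rintro ⟨z, hz⟩
        obtain ⟨x, y, rfl⟩ := Smash.exists_rep z
        by_cases hw : x = (X.obj n).pt ∨ y = (T.obj n).point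
        · refine ⟨Smash.mk _ _ ((X.sub L M hLM).obj n).pt (T.obj n).point, Subtype.ext ?_⟩
          show Smash.mk (X.obj n).pt (T.obj n).point (X.obj n).pt (T.obj n).point = _
          rw [Smash.mk_eq]
          exact Or.inr ⟨Or.inl rfl, hw⟩
        · refine ⟨Smash.mk _ _ ⟨x, fun k hk => ?_⟩ y, rfl⟩
          have h := hz k hk
          change Smash.mk (X.obj n).pt (T.obj n).point (k • x) y = Smash.mk _ _ x y at h
          rw [Smash.mk_eq] at h
          rcases h with h | h
          · exact h.1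
          · exact absurd h.2 hw)

/-- A based simplicial set with trivial action. -/
def trivCx (G : Type) [Group G] (B : BSSet) : GCx G where
  obj n :=
    { carrier := B.obj n
      action := { smul := fun _ x => x, one_smul := fun _ => rfl, mul_smul := fun _ _ _ => rfl }
      pt := (B.obj n).point
      smul_pt := fun _ => rfl }
  map f := ⟨(B.map f).toFun, fun _ _ => rfl, (B.map f).map_point⟩
  map_id n := by
    apply BGSet.Hom.ext
    show (B.map (𝟙 n)).toFun = id
    rw [B.map_id]; rfl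
  map_comp f g := by
    apply BGSet.Hom.ext
    show (B.map (f ≫ g)).toFun = (B.map g).toFun ∘ (B.map f).toFun
    rw [B.map_comp]; rfl

/-- Fixed points of a trivial action. -/
noncomputable def trivFixIso (B : BSSet) (K : Subgroup G) : B ≅ (trivCx G B).fix K :=
  isoOfBijective
    { app := fun n => ⟨fun x => ⟨x, fun _ _ => rfl⟩, rfl⟩
      naturality := fun _ _ _ => rfl }
    (fun n => ⟨fun x y h => congrArg Subtype.val h, fun x => ⟨x.1, rfl⟩⟩)

/-- The conjugate subgroup `g A g⁻¹`. -/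
def conj (g : G) (A : Subgroup G) : Subgroup G := A.map (MulAut.conj g).toMonoidHom

theorem mem_conj {g x : G} {A : Subgroup G} : x ∈ conj g A ↔ g⁻¹ * x * g ∈ A := by
  unfold conj
  rw [Subgroup.mem_map]
  constructor
  · rintro ⟨a, ha, rfl⟩
    simpa [mul_assoc] using ha
  · intro h
    exact ⟨_, h, by simp [mul_assoc]⟩

/-- Fixed points of conjugate subgroups. -/
noncomputable def conjFixIso (X : GCx G) (g : G) (A : Subgroup G) :
    X.fix A ≅ X.fix (conj g A) :=
  isoOfBijective
    { app := fun n =>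
        { toFun := fun x => ⟨g • x.1, fun k hk => by
            rw [mem_conj] at hk
            have := x.2 _ hk
            rw [← mul_smul, show k * g = g * (g⁻¹ * k * g) by group, mul_smul, this]⟩
          map_point := Subtype.ext ((X.obj n).smul_pt g) }
      naturality := fun m n f => by
        apply Pointed.Hom.ext
        funext x
        exact Subtype.ext ((X.map f).map_smul g x.1).symm }
    (by
      intro n
      constructor
      · intro x y h
        apply Subtype.ext
        exact smul_left_cancel g (congrArg Subtype.val h)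
      · rintro ⟨x, hx⟩
        refine ⟨⟨g⁻¹ • x, fun k hk => ?_⟩, Subtype.ext (smul_inv_smul g x)⟩
        have h1 : g * k * g⁻¹ ∈ conj g A := by
          rw [mem_conj]
          simpa [mul_assoc] using hk
        have := hx _ h1
        rw [← mul_smul, show k * g⁻¹ = g⁻¹ * (g * k * g⁻¹) by group, mul_smul, this])

end Vale.Agent.P241.Based
end

section

set_option autoImplicit false

open CategoryTheory Opposite

namespace Vale.Agent.P241.Based

variable {G G' : Type} [Group G] [Group G']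

/-- Restriction of the action along a homomorphism. -/
def BGSet.res (φ : G' →* G) : BGSet G ⥤ BGSet G' where
  obj A :=
    { carrier := A.carrier
      action := MulAction.compHom A.carrier φ
      pt := A.pt
      smul_pt := fun g => A.smul_pt (φ g) }
  map f :=
    { toFun := f.toFun
      map_smul := fun g a => f.map_smul (φ g) a
      map_pt := f.map_pt }

/-- Restriction of complexes. -/
abbrev GCx.res (X : GCx G) (φ : G' →* G) : GCx G' := X ⋙ BGSet.res φ

/-- Fixed points of a restriction. -/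
noncomputable def resFixIso (X : GCx G) (φ : G' →* G) (A : Subgroup G') :
    (X.res φ).fix A ≅ X.fix (A.map φ) :=
  isoOfBijective
    { app := fun n =>
        { toFun := fun x => ⟨x.1, by
            rintro _ ⟨k, hk, rfl⟩
            exact x.2 k hk⟩
          map_point := rfl }
      naturality := fun _ _ _ => rfl }
    (fun n => ⟨fun x y h => Subtype.ext (congrArg (fun z => z.1) h),
      fun x => ⟨⟨x.1, fun k hk => x.2 _ ⟨k, hk, rfl⟩⟩, rfl⟩⟩)

theorem acyclic_congr (E : AcTheory) (X : GCx G) {A B : Subgroup G} (h : A = B) :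
    E.Acyclic (X.fix A) ↔ E.Acyclic (X.fix B) := by rw [h]

theorem res_bot (E : AcTheory) (X : GCx G) (φ : G' →* G) :
    E.Acyclic ((X.res φ).fix ⊥) ↔ E.Acyclic (X.fix ⊥) :=
  (acyclic_iff (resFixIso X φ ⊥)).trans (acyclic_congr E X (Subgroup.map_bot φ))

theorem res_top (E : AcTheory) (X : GCx G) (φ : G' →* G) (hφ : Function.Surjective φ) :
    E.Acyclic ((X.res φ).fix ⊤) ↔ E.Acyclic (X.fix ⊤) :=
  (acyclic_iff (resFixIso X φ ⊤)).trans (acyclic_congr E X (Subgroup.map_top_of_surjective φ hφ))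

theorem res_fin {X : GCx G} (h : IsFin (X.fix ⊥)) (φ : G' →* G) : IsFin ((X.res φ).fix ⊥) := by
  have := (h.fix ((⊥ : Subgroup G').map φ)).of_iso (resFixIso X φ ⊥).symm
  exact this

/-- Smith implications pass to quotients. -/
theorem Smith.of_surjective {E F : AcTheory} (h : Smith E F G' ⊥) (φ : G' →* G)
    (hφ : Function.Surjective φ) : Smith E F G ⊥ := fun X hX hE =>
  (res_top F X φ hφ).1 (h (X.res φ) (res_fin hX φ) ((res_bot E X φ).2 hE))

end Vale.Agent.P241.Based
end

section

set_option autoImplicit false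

open CategoryTheory Opposite Limits

namespace Vale.Agent.P241.Based

variable {G : Type} [Group G]

/-- The invariants of the inductive construction. -/
structure St (K : ℕ → AcTheory) (n : ℕ) (θ : Subgroup G → ℕ) (S : Set (Subgroup G))
    (Y : GCx G) : Prop where
  fin : IsFin (Y.fix ⊥)
  iso : ∀ m (y : Y.obj m), y ≠ (Y.obj m).pt → MulAction.stabilizer G y ∈ S
  top : ¬ (K n).Acyclic (Y.fix ⊤)
  typ : ∀ A ∈ S, ∀ j < θ A, (K j).Acyclic (Y.fix A)

theorem conj_mono {A B : Subgroup G} (h : A ≤ B) (g : G) : conj g A ≤ conj g B :=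
  Subgroup.map_mono h

theorem conj_conj (g h : G) (A : Subgroup G) : conj g (conj h A) = conj (g * h) A := by
  ext x
  rw [mem_conj, mem_conj, mem_conj]
  have : h⁻¹ * (g⁻¹ * x * g) * h = (g * h)⁻¹ * x * (g * h) := by group
  rw [this]

theorem conj_one (A : Subgroup G) : conj 1 A = A := by
  ext x
  rw [mem_conj]
  simp

theorem conj_top (g : G) : conj g (⊤ : Subgroup G) = ⊤ := by
  ext x
  rw [mem_conj]
  simp

theorem HasCyclicChain.conj {A B : Subgroup G} {s : ℕ} (h : HasCyclicChain A B s) (g : G) :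
    HasCyclicChain (Based.conj g A) (Based.conj g B) s :=
  h.map (Based.conj g) (fun _ _ hS => hS.map (MulAut.conj g))

theorem cycLen_conj_le {A : Subgroup G} {s : ℕ} (h : HasCyclicChain A ⊤ s) (g : G) :
    cycLen (conj g A) ⊤ ≤ cycLen A ⊤ := by
  have h1 := (h.cycLen).conj g
  rw [conj_top] at h1
  exact cycLen_le h1

/-- Steps lift from a quotient. -/
theorem step_liftSub {L M : Subgroup G} (hLM : L ≤ M) [(L.subgroupOf M).Normal]
    {U U' : Subgroup (M ⧸ L.subgroupOf M)} (h : Step U U') :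
    Step (liftSub L M U) (liftSub L M U') := by
  obtain ⟨h1, h2, g, hg, h3⟩ := h
  obtain ⟨g, rfl⟩ := QuotientGroup.mk_surjective g
  refine ⟨?_, ?_, g.1, ?_, ?_⟩
  · intro x hx
    obtain ⟨hm, hx⟩ := mem_liftSub.1 hx
    exact mem_liftSub.2 ⟨hm, h1 hx⟩
  · intro b hb a ha
    obtain ⟨hbm, hb⟩ := mem_liftSub.1 hb
    obtain ⟨ham, ha⟩ := mem_liftSub.1 ha
    refine mem_liftSub.2 ⟨M.mul_mem (M.mul_mem hbm ham) (M.inv_mem hbm), ?_⟩
    exact h2 _ hb _ ha
  · exact mem_liftSub.2 ⟨g.2, hg⟩
  · intro b hb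
    obtain ⟨hbm, hb⟩ := mem_liftSub.1 hb
    obtain ⟨k, hk⟩ := h3 _ hb
    refine ⟨k, mem_liftSub.2 ⟨M.mul_mem (M.inv_mem (M.zpow_mem g.2 k)) hbm, ?_⟩⟩
    exact hk

theorem liftSub_le {L M : Subgroup G} [(L.subgroupOf M).Normal]
    (V : Subgroup (M ⧸ L.subgroupOf M)) : liftSub L M V ≤ M := fun _ h => (mem_liftSub.1 h).1

/-- The projection from the lift of `V` to `V`. -/
def liftProj (L M : Subgroup G) [(L.subgroupOf M).Normal] (V : Subgroup (M ⧸ L.subgroupOf M)) :
    liftSub L M V →* V where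
  toFun u := ⟨((⟨u.1, liftSub_le V u.2⟩ : M) : M ⧸ L.subgroupOf M), (mem_liftSub.1 u.2).2⟩
  map_one' := rfl
  map_mul' _ _ := rfl

theorem liftProj_ker {L M : Subgroup G} [(L.subgroupOf M).Normal]
    (V : Subgroup (M ⧸ L.subgroupOf M)) : (liftProj L M V).ker = L.subgroupOf (liftSub L M V) := by
  ext u
  rw [MonoidHom.mem_ker, Subgroup.mem_subgroupOf]
  constructor
  · intro h
    have h' : ((⟨u.1, liftSub_le V u.2⟩ : M) : M ⧸ L.subgroupOf M) = 1 := congrArg Subtype.val h
    rw [QuotientGroup.eq_one_iff, Subgroup.mem_subgroupOf] at h'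
    exact h'
  · intro h
    apply Subtype.ext
    show ((⟨u.1, liftSub_le V u.2⟩ : M) : M ⧸ L.subgroupOf M) = 1
    rw [QuotientGroup.eq_one_iff, Subgroup.mem_subgroupOf]
    exact h

theorem liftProj_surjective {L M : Subgroup G} [(L.subgroupOf M).Normal]
    (V : Subgroup (M ⧸ L.subgroupOf M)) : Function.Surjective (liftProj L M V) := by
  rintro ⟨q, hq⟩
  obtain ⟨m, rfl⟩ := QuotientGroup.mk_surjective q
  exact ⟨⟨m.1, mem_liftSub.2 ⟨m.2, hq⟩⟩, rfl⟩

/-- The quotient of the lift of `V` is `V`. -/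
theorem lift_equiv (L M : Subgroup G) [(L.subgroupOf M).Normal]
    (V : Subgroup (M ⧸ L.subgroupOf M)) :
    ∃ _ : (L.subgroupOf (liftSub L M V)).Normal,
      Nonempty (V ≃* liftSub L M V ⧸ L.subgroupOf (liftSub L M V)) := by
  have hn : (L.subgroupOf (liftSub L M V)).Normal := by
    rw [← liftProj_ker]
    infer_instance
  exact ⟨hn, ⟨((QuotientGroup.quotientKerEquivOfSurjective (liftProj L M V)
    (liftProj_surjective V)).symm).trans
      (QuotientGroup.quotientMulEquivOfEq (liftProj_ker V))⟩⟩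

theorem liftSub_bot {L M : Subgroup G} (hLM : L ≤ M) [(L.subgroupOf M).Normal] :
    liftSub L M ⊥ = L := by
  ext x
  rw [mem_liftSub]
  constructor
  · rintro ⟨h, hx⟩
    rw [Subgroup.mem_bot, QuotientGroup.eq_one_iff] at hx
    simpa [Subgroup.mem_subgroupOf] using hx
  · intro hx
    refine ⟨hLM hx, ?_⟩
    rw [Subgroup.mem_bot, QuotientGroup.eq_one_iff]
    simpa [Subgroup.mem_subgroupOf] using hx

theorem liftSub_top {L M : Subgroup G} [(L.subgroupOf M).Normal] :
    liftSub L M ⊤ = M := by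
  ext x
  rw [mem_liftSub]
  constructor
  · rintro ⟨h, _⟩
    exact h
  · intro hx
    exact ⟨hx, Subgroup.mem_top _⟩

variable {p : ℕ} [hp : Fact p.Prime] (K : ℕ → AcTheory)

/-- One step of the construction. -/
theorem step_lemma [Finite G] (hG : IsPGroup p G) {D : ∀ (V : Type) [Group V], ℕ → ℕ → Prop}
    (hD : ∀ (V V' : Type) [Group V] [Group V'] (_ : V ≃* V') (m j : ℕ), D V m j → D V' m j)
    (hR : Realization p K D) {n : ℕ}
    {θ : Subgroup G → ℕ} (hθ : ∀ A g, θ (conj g A) ≤ θ A) {S : Set (Subgroup G)} {Y : GCx G}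
    (hY : St K n θ S Y) (hup : ∀ A ∈ S, ∀ B, A ≤ B → B ∈ S)
    (hconj : ∀ A ∈ S, ∀ g, conj g A ∈ S) (htop : ⊤ ∈ S) {L : Subgroup G} (hL : L ∉ S)
    (hmax : ∀ A, L < A → A ∈ S)
    (hlink : ∀ U : Subgroup G, L < U → ∀ _ : (L.subgroupOf U).Normal, ∀ j, θ U ≤ j →
      0 < θ L → D (U ⧸ L.subgroupOf U) (θ L - 1) j) :
    ∃ Y' : GCx G, St K n θ (S ∪ {A | ∃ g, A = conj g L}) Y' := by
  rcases Nat.eq_zero_or_pos (θ L) with h0 | hpos
  · refine ⟨Y, hY.fin, fun m y hy => Or.inl (hY.iso m y hy), hY.top, ?_⟩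
    rintro A (hA | ⟨g, rfl⟩) j hj
    · exact hY.typ A hA j hj
    · have := hθ L g
      omega
  set N : Subgroup G := Subgroup.normalizer (L : Set G) with hNdef
  have hLN : L ≤ N := Subgroup.le_normalizer
  have hlt : ∀ V : Subgroup (N ⧸ L.subgroupOf N), V ≠ ⊥ → L < liftSub L N V := by
    intro V hV
    refine lt_of_le_of_ne (le_liftSub hLN V) (fun e => hV ?_)
    rw [Subgroup.eq_bot_iff_forall]
    intro q hq
    obtain ⟨x, rfl⟩ := QuotientGroup.mk_surjective q
    have h1 : x.1 ∈ liftSub L N V := mem_liftSub.2 ⟨x.2, hq⟩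
    rw [← e] at h1
    rw [QuotientGroup.eq_one_iff, Subgroup.mem_subgroupOf]
    exact h1
  obtain ⟨T, C, i, hT, hCfin, hinj, hfree, hC⟩ := hR (N ⧸ L.subgroupOf N)
    ((hG.to_subgroup N).to_quotient _) (θ L - 1) (Y.sub L N hLN)
    ((hY.fin.fix (liftSub L N ⊥)).of_iso (subFixIso Y L N hLN ⊥).symm)
    (by
      intro k s hs
      have hs' : s.1 ≠ (Y.obj k).pt := fun e => hs (Subtype.ext e)
      have h1 := hY.iso k s.1 hs'
      have h2 : L ≤ MulAction.stabilizer G s.1 := fun l hl => s.2 l hl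
      have h3 : L < MulAction.stabilizer G s.1 := lt_of_le_of_ne h2 (fun e => hL (e ▸ h1))
      obtain ⟨x, hx1, hx2, hx3⟩ := exists_normalizing hG h3
      refine ⟨((⟨x, hx2⟩ : N) : N ⧸ L.subgroupOf N), ?_, Subtype.ext hx1⟩
      intro e
      rw [QuotientGroup.eq_one_iff, Subgroup.mem_subgroupOf] at e
      exact hx3 e)
    (by
      intro V hV j hj
      have hU : θ (liftSub L N V) ≤ j := by
        by_contra hlt'
        apply hj
        exact (hY.typ (liftSub L N V) (hmax _ (hlt V hV)) j (by omega)).of_iso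
          (subFixIso Y L N hLN V).symm
      obtain ⟨hn, ⟨e⟩⟩ := lift_equiv L N V
      exact hD _ _ e.symm _ _ (hlink (liftSub L N V) (hlt V hV) hn j hU hpos))
  have hZfin : FinG (Y.smash T) := (finG_iff.1 hY.fin).smash hT.1
  let e := smashSubIso Y T L N hLN
  let i' : (Y.smash T).sub L N hLN ⟶ C := e.inv ≫ i
  have hbij : ∀ n, Function.Bijective (e.inv.app n).toFun := by
    intro k
    have h1 : ∀ x, (e.hom.app k).toFun ((e.inv.app k).toFun x) = x := fun x =>
      congrFun (congrArg BGSet.Hom.toFun (e.inv_hom_id_app k)) x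
    have h2 : ∀ x, (e.inv.app k).toFun ((e.hom.app k).toFun x) = x := fun x =>
      congrFun (congrArg BGSet.Hom.toFun (e.hom_inv_id_app k)) x
    exact ⟨Function.LeftInverse.injective h1, Function.RightInverse.surjective h2⟩
  have hi' : ∀ n, Function.Injective (i'.app n).toFun := fun k =>
    (hinj k).comp (hbij k).1
  have hfree' : ∀ n (y : C.obj n), y ∉ Set.range (i'.app n).toFun →
      ∀ w : N ⧸ L.subgroupOf N, w • y = y → w = 1 := by
    intro k y hy
    apply hfree k y
    rintro ⟨x, hx⟩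
    obtain ⟨z, rfl⟩ := (hbij k).2 x
    exact hy ⟨z, hx⟩
  have hNmem : ∀ g : G, (∀ l ∈ L, g⁻¹ * l * g ∈ L) → g ∈ N := by
    intro g hg
    rw [hNdef, Subgroup.mem_normalizer_iff'']
    have h1 : conj g⁻¹ L ≤ L := by
      intro x hx
      rw [mem_conj] at hx
      have := hg _ hx
      simpa [mul_assoc] using this
    have h2 : conj g⁻¹ L = L := by
      apply SetLike.coe_injective
      apply Set.eq_of_subset_of_ncard_le h1
      · have : Nat.card (conj g⁻¹ L) = Nat.card L :=
          Nat.card_congr (L.equivMapOfInjective _ (MulAut.conj g⁻¹).injective).toEquiv.symm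
        rw [← Nat.card_coe_set_eq, ← Nat.card_coe_set_eq]
        exact this.ge
    intro x
    constructor
    · exact hg x
    · intro hx
      rw [← h2, mem_conj] at hx
      simpa [mul_assoc] using hx
  have hfixA : ∀ A ∈ S, ∀ g : G, ∃ k ∈ A, g⁻¹ * k * g ∉ L := by
    intro A hA g
    by_contra hcon
    push Not at hcon
    apply hL
    have h1 : A ≤ conj g L := fun k hk => mem_conj.2 (hcon k hk)
    have h2 := hconj _ (hup A hA _ h1) g⁻¹
    rw [conj_conj, inv_mul_cancel, conj_one] at h2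
    exact h2
  refine ⟨glueCx L N hLN (Y.smash T) C i', ?_, ?_, ?_, ?_⟩
  · exact finG_iff.2 (FinG.glue L N hLN i' hZfin (finG_iff.1 hCfin))
  · intro k z hz
    rcases glue_rep L N hLN (i'.app k) z with ⟨b, rfl⟩ | ⟨g, y, hy, rfl⟩
    · left
      obtain ⟨x, t, rfl⟩ := Smash.exists_rep b
      have hx : x ≠ (Y.obj k).pt := by
        rintro rfl
        apply hz
        show gl L N hLN (i'.app k) _ = gl L N hLN (i'.app k) _
        congr 1
        exact Smash.mk_eq.2 (Or.inr ⟨Or.inl rfl, Or.inl rfl⟩)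
      have ht : t ≠ (T.obj k).point := by
        rintro rfl
        apply hz
        show gl L N hLN (i'.app k) _ = gl L N hLN (i'.app k) _
        congr 1
        exact Smash.mk_eq.2 (Or.inr ⟨Or.inr rfl, Or.inl rfl⟩)
      convert hY.iso k x hx using 1
      ext a
      constructor
      · intro h
        have h0 : gl L N hLN (i'.app k) (Smash.mk (Y.obj k).pt (T.obj k).point (a • x) t) =
            gl L N hLN (i'.app k) (Smash.mk (Y.obj k).pt (T.obj k).point x t) := h
        have h1 := gl_inj L N hLN (i'.app k) (hi' k) h0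
        have h2 : Smash.mk (Y.obj k).pt (T.obj k).point (a • x) t = Smash.mk _ _ x t := h1
        rw [Smash.mk_eq] at h2
        rcases h2 with h2 | h2
        · exact h2.1
        · exact absurd h2.2 (by simp [hx, ht])
      · intro h
        have h' : a • x = x := h
        show gl L N hLN (i'.app k) (Smash.mk (Y.obj k).pt (T.obj k).point (a • x) t) = _
        rw [h']
    · right
      refine ⟨g, ?_⟩
      ext a
      rw [mem_conj]
      constructor
      · intro h
        exact gr_fixed L N hLN _ C i' hi' hfree' hy h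
      · intro h
        show gr L N hLN (i'.app k) (a * g) y = _
        have h1 := gr_mul L N hLN (i'.app k) g ⟨_, hLN h⟩ y
        have h2 : ((⟨_, hLN h⟩ : N) : N ⧸ L.subgroupOf N) = 1 := by
          rw [QuotientGroup.eq_one_iff, Subgroup.mem_subgroupOf]
          exact h
        rw [h2, one_smul] at h1
        rw [← h1]
        congr 1
        simp [mul_assoc]
  · intro h
    apply hY.top
    have h1 := (acyclic_iff (glueFixIso L N hLN _ C i' hi' hfree' ⊤ (hfixA ⊤ htop))).2 h
    exact (hT.2 G Y hY.fin ⊤ n).1 h1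
  · rintro A (hA | ⟨g, rfl⟩) j hj
    · have h1 := hY.typ A hA j hj
      exact ((hT.2 G Y hY.fin A j).2 h1).of_iso
        (glueFixIso L N hLN _ C i' hi' hfree' A (hfixA A hA))
    · have h1 := hθ L g
      have h2 := hC j (by omega)
      exact (h2.of_iso (glueFixIso' L N hLN _ C i' hi' hfree' hNmem)).of_iso (conjFixIso _ g L)

end Vale.Agent.P241.Based
end

section

set_option autoImplicit false

open CategoryTheory Opposite Limits

namespace Vale.Agent.P241.Based

variable {G : Type} [Group G] {p : ℕ} [hp : Fact p.Prime] (K : ℕ → AcTheory)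
  {D : ∀ (V : Type) [Group V], ℕ → ℕ → Prop}

theorem conj_le_iff {A B : Subgroup G} (g : G) : conj g A ≤ B ↔ A ≤ conj g⁻¹ B := by
  constructor
  · intro h
    have := conj_mono h g⁻¹
    rwa [conj_conj, inv_mul_cancel, conj_one] at this
  · intro h
    have := conj_mono h g
    rwa [conj_conj, mul_inv_cancel, conj_one] at this

/-- The inductive construction, from an arbitrary stage. -/
theorem loop [Finite G] (hG : IsPGroup p G)
    (hD : ∀ (V V' : Type) [Group V] [Group V'] (_ : V ≃* V') (m j : ℕ), D V m j → D V' m j)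
    (hR : Realization p K D) (H : Subgroup G) (n : ℕ)
    {θ : Subgroup G → ℕ} (hθ : ∀ A g, θ (conj g A) ≤ θ A)
    (hlink : ∀ L U : Subgroup G, H ≤ L → L < U → ∀ _ : (L.subgroupOf U).Normal, ∀ j, θ U ≤ j →
      0 < θ L → D (U ⧸ L.subgroupOf U) (θ L - 1) j) (k : ℕ) :
    ∀ (S : Set (Subgroup G)) (Y : GCx G), St K n θ S Y → (∀ A ∈ S, ∀ B, A ≤ B → B ∈ S) →
      (∀ A ∈ S, ∀ g, conj g A ∈ S) → ⊤ ∈ S → Sᶜ.ncard ≤ k →
      ∃ (S' : Set (Subgroup G)) (Y' : GCx G), St K n θ S' Y' ∧ H ∈ S' := by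
  induction k with
  | zero =>
    intro S Y hY hup hconj htop hk
    refine ⟨S, Y, hY, ?_⟩
    by_contra hH
    have h1 : Sᶜ.Finite := Set.toFinite _
    have h2 : Sᶜ = ∅ := (Set.ncard_eq_zero h1).1 (Nat.le_zero.1 hk)
    have h3 : H ∈ Sᶜ := hH
    rw [h2] at h3
    exact h3
  | succ k ih =>
    intro S Y hY hup hconj htop hk
    by_cases hH : H ∈ S
    · exact ⟨S, Y, hY, hH⟩
    obtain ⟨L, hHL, hL⟩ := (Set.toFinite {L : Subgroup G | H ≤ L ∧ L ∉ S}).exists_le_maximal
      (show H ∈ {L : Subgroup G | H ≤ L ∧ L ∉ S} from ⟨le_rfl, hH⟩)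
    have hLS : L ∉ S := hL.prop.2
    have hmax : ∀ A, L < A → A ∈ S := by
      intro A hA
      by_contra hAS
      exact absurd (hL.le_of_ge ⟨hHL.trans hA.le, hAS⟩ hA.le) (not_le_of_gt hA)
    obtain ⟨Y', hY'⟩ := step_lemma K hG hD hR hθ hY hup hconj htop hLS hmax
      (fun U => hlink L U hHL)
    refine ih (S ∪ {A | ∃ g, A = conj g L}) Y' hY' ?_ ?_ (Or.inl htop) ?_
    · rintro A (hA | ⟨g, rfl⟩) B hB
      · exact Or.inl (hup A hA B hB)
      · have h1 : L ≤ conj g⁻¹ B := (conj_le_iff g).1 hB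
        rcases h1.eq_or_lt with h2 | h2
        · right
          refine ⟨g, ?_⟩
          rw [h2, conj_conj, mul_inv_cancel, conj_one]
        · left
          have h3 := hconj _ (hmax _ h2) g
          rwa [conj_conj, mul_inv_cancel, conj_one] at h3
    · rintro A (hA | ⟨g, rfl⟩) g'
      · exact Or.inl (hconj A hA g')
      · exact Or.inr ⟨g' * g, conj_conj _ _ _⟩
    · have h1 : (S ∪ {A | ∃ g, A = conj g L})ᶜ ⊂ Sᶜ := by
        refine ⟨fun A hA hAS => hA (Or.inl hAS), fun h => ?_⟩
        exact h hLS (Or.inr ⟨1, (conj_one L).symm⟩)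
      have h2 := Set.ncard_lt_ncard h1 (Set.toFinite _)
      omega

/-- The construction. -/
theorem construction [Finite G] (hG : IsPGroup p G)
    (hD : ∀ (V V' : Type) [Group V] [Group V'] (_ : V ≃* V') (m j : ℕ), D V m j → D V' m j)
    (hR : Realization p K D) (H : Subgroup G)
    (n : ℕ) (B : BSSet) (hB : IsFin B) (hB0 : ∀ j < n, (K j).Acyclic B)
    (hBn : ¬ (K n).Acyclic B) {θ : Subgroup G → ℕ} (hθ : ∀ A g, θ (conj g A) ≤ θ A)
    (hθn : θ ⊤ ≤ n)
    (hlink : ∀ L U : Subgroup G, H ≤ L → L < U → ∀ _ : (L.subgroupOf U).Normal, ∀ j, θ U ≤ j →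
      0 < θ L → D (U ⧸ L.subgroupOf U) (θ L - 1) j) :
    ∃ Y : GCx G, IsFin (Y.fix ⊥) ∧ (∀ j < θ H, (K j).Acyclic (Y.fix H)) ∧
      ¬ (K n).Acyclic (Y.fix ⊤) := by
  have hY : St K n θ ({⊤} : Set (Subgroup G)) (trivCx G B) := by
    refine ⟨hB.of_iso (trivFixIso B ⊥), ?_, ?_, ?_⟩
    · intro m y _
      rw [Set.mem_singleton_iff, eq_top_iff]
      intro g _
      rfl
    · intro h
      exact hBn (h.of_iso (trivFixIso B ⊤).symm)
    · rintro A rfl j hj
      exact (hB0 j (by omega)).of_iso (trivFixIso B ⊤)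
  obtain ⟨S', Y', h1, h2⟩ := loop K hG hD hR H n hθ hlink _ {⊤} (trivCx G B) hY
    (by rintro A rfl B hB; exact top_le_iff.1 hB)
    (by rintro A rfl g; exact conj_top g) rfl le_rfl
  exact ⟨Y', h1.fin, h1.typ H h2, h1.top⟩

end Vale.Agent.P241.Based
end

section

end

section

open CategoryTheory MonoidalCategory CartesianMonoidalCategory Simplicial Opposite

namespace Vale.Agent.P241

/-- A finite pair `(X, A)`: a finite simplicial set `X` with a simplicial subset `A`. -/
structure FinPair where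
  X : SSet.{0}
  A : X.Subcomplex
  fin : X.Finite

attribute [instance] FinPair.fin

namespace FinPair

/-- A map of pairs. -/
@[ext]
structure Hom (P Q : FinPair) where
  map : P.X ⟶ Q.X
  le : P.A ≤ Q.A.preimage map

instance : Category FinPair where
  Hom := Hom
  id P := ⟨𝟙 P.X, fun _ _ h => h⟩
  comp f g := ⟨f.map ≫ g.map, fun _ _ h => g.le _ (f.le _ h)⟩

/-- The pair `(A, ∅)`. -/
def sub (P : FinPair) : FinPair := ⟨P.A.toSSet, ⊥, inferInstance⟩

/-- The pair `(X, ∅)`. -/
def tot (P : FinPair) : FinPair := ⟨P.X, ⊥, P.fin⟩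

/-- The inclusion `(A, ∅) → (X, ∅)`. -/
def incl (P : FinPair) : P.sub ⟶ P.tot := ⟨P.A.ι, bot_le⟩

/-- The inclusion `(X, ∅) → (X, A)`. -/
def quot (P : FinPair) : P.tot ⟶ P := ⟨𝟙 P.X, bot_le⟩

/-- The map `(A, ∅) → (B, ∅)` induced by a map of pairs `(X, A) → (Y, B)`. -/
def subMap {P Q : FinPair} (f : P ⟶ Q) : P.sub ⟶ Q.sub :=
  ⟨Subfunctor.lift (P.A.ι ≫ Hom.map f) (by
    rintro n _ ⟨x, rfl⟩
    exact Hom.le f n x.2), bot_le⟩

/-- The cylinder `(X × Δ[1], A × Δ[1])`. -/
def cyl (P : FinPair) : FinPair := ⟨P.X ⊗ Δ[1], P.A.prod ⊤, inferInstance⟩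

/-- The projection of the cylinder of `P` to `P`. -/
def cylProj (P : FinPair) : P.cyl ⟶ P := ⟨fst P.X Δ[1], fun _ _ h => h.1⟩

/-- `f : (X, A) → (Y, B)` is a relative isomorphism if it maps the simplices of `X` outside `A`
bijectively onto the simplices of `Y` outside `B` (equivalently, if `X / A → Y / B` is an
isomorphism). -/
def IsRelIso {P Q : FinPair} (f : P ⟶ Q) : Prop :=
  ∀ n : SimplexCategoryᵒᵖ,
    Set.BijOn ((Hom.map f).app n) (P.A.obj n)ᶜ (Q.A.obj n)ᶜ

end FinPair

open FinPair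

/-- A generalized homology theory on finite pairs: the Eilenberg-Steenrod axioms without the
dimension axiom. -/
structure HomologyTheory where
  H : ℤ → FinPair ⥤ AddCommGrpCat.{0}
  δ : ∀ (n : ℤ) (P : FinPair), (H (n + 1)).obj P ⟶ (H n).obj P.sub
  δ_natural : ∀ (n : ℤ) {P Q : FinPair} (f : P ⟶ Q),
    (H (n + 1)).map f ≫ δ n Q = δ n P ≫ (H n).map (subMap f)
  exact_tot : ∀ (n : ℤ) (P : FinPair),
    Function.Exact ((H n).map P.incl) ((H n).map P.quot)
  exact_rel : ∀ (n : ℤ) (P : FinPair),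
    Function.Exact ((H (n + 1)).map P.quot) (δ n P)
  exact_sub : ∀ (n : ℤ) (P : FinPair),
    Function.Exact (δ n P) ((H n).map P.incl)
  homotopy : ∀ (n : ℤ) (P : FinPair), IsIso ((H n).map P.cylProj)
  excision : ∀ (n : ℤ) {P Q : FinPair} (f : P ⟶ Q), IsRelIso f → IsIso ((H n).map f)

/-- `E_*(X, A) = 0`. -/
def HomologyTheory.Acyclic (E : HomologyTheory) (P : FinPair) : Prop :=
  ∀ n : ℤ, Subsingleton ((E.H n).obj P)

/-- A finite pair with an action of the group `G`. -/
structure GPair (G : Type) [Group G] where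
  X : SSet.{0}
  A : X.Subcomplex
  fin : X.Finite
  act : G →* End X
  stable : ∀ g : G, A ≤ A.preimage (act g)

attribute [instance] GPair.fin

namespace GPair

variable {G : Type} [Group G]

/-- The simplicial subset of simplices fixed by `H`. -/
def fix (P : GPair G) (H : Subgroup G) : P.X.Subcomplex where
  obj n := {x | ∀ h ∈ H, (P.act h).app n x = x}
  map {n m} i x hx h hh := by
    rw [NatTrans.naturality_apply, hx h hh]

/-- The pair of `H`-fixed points `(X^H, A^H)`. -/
def fixed (P : GPair G) (H : Subgroup G) : FinPair where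
  X := (P.fix H).toSSet
  A := P.A.preimage (P.fix H).ι
  fin := inferInstance

end GPair

/-- `Admissible E G H n r`: for every finite `G`-pair `(X, A)`, if `E_{n+r}` vanishes on the
`H`-fixed points then `E_n` vanishes on the `G`-fixed points. -/
def Admissible (E : ℕ → HomologyTheory) (G : Type) [Group G] (H : Subgroup G) (n r : ℕ) : Prop :=
  ∀ P : GPair G, (E (n + r)).Acyclic (P.fixed H) → (E n).Acyclic (P.fixed ⊤)

/-- The fixed-point loss `r_n(G, H)` of the family `E`: the least admissible `r`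
(`⊤` if there is none). -/
noncomputable def loss (E : ℕ → HomologyTheory) (G : Type) [Group G] (H : Subgroup G) (n : ℕ) :
    ℕ∞ :=
  sInf ((fun r : ℕ => (r : ℕ∞)) '' {r | Admissible E G H n r})

end Vale.Agent.P241
end

section

open CategoryTheory MonoidalCategory CartesianMonoidalCategory Simplicial Opposite

namespace Vale.Agent.P241

namespace FinPair

@[simp] lemma id_map (P : FinPair) : Hom.map (𝟙 P) = 𝟙 P.X := rfl

@[simp] lemma comp_map {P Q R : FinPair} (f : P ⟶ Q) (g : Q ⟶ R) :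
    Hom.map (f ≫ g) = Hom.map f ≫ Hom.map g := rfl

@[ext] lemma hom_ext {P Q : FinPair} {f g : P ⟶ Q} (h : Hom.map f = Hom.map g) : f = g :=
  Hom.ext h

/-- The pair `(X, ∅)`. -/
def abs (X : SSet.{0}) [hX : X.Finite] : FinPair := ⟨X, ⊥, hX⟩

/-- The map `(X, ∅) → (Y, ∅)`. -/
def absMap {X Y : SSet.{0}} [X.Finite] [Y.Finite] (f : X ⟶ Y) : abs X ⟶ abs Y :=
  ⟨f, bot_le⟩

lemma absMap_comp {X Y Z : SSet.{0}} [X.Finite] [Y.Finite] [Z.Finite] (f : X ⟶ Y) (g : Y ⟶ Z) :
    absMap f ≫ absMap g = absMap (f ≫ g) := rfl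

/-- For subcomplexes `V, U` of `S`, the pair `(U, U ∩ V)`. -/
def rel {S : SSet.{0}} [S.Finite] (U V : S.Subcomplex) : FinPair :=
  ⟨U.toSSet, V.preimage U.ι, inferInstance⟩

end FinPair

open FinPair

/-- A class of finite pairs with the closure properties of the class of acyclic pairs of a
homology theory. -/
structure AcClass (C : FinPair → Prop) : Prop where
  relIso : ∀ {P Q : FinPair} (f : P ⟶ Q), IsRelIso f → (C P ↔ C Q)
  triple : ∀ (X : SSet.{0}) [X.Finite] (A B : X.Subcomplex), A ≤ B → C (rel B A) →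
    (C ⟨X, A, inferInstance⟩ ↔ C ⟨X, B, inferInstance⟩)
  simplex : ∀ (P : FinPair) (k : ℕ), C P → C ⟨P.X ⊗ Δ[k], P.A.prod ⊤, inferInstance⟩

namespace HomologyTheory

variable (E : HomologyTheory)

lemma acyclic_iff (P : FinPair) :
    E.Acyclic P ↔ ∀ n, Function.Bijective ((E.H n).map P.incl) := by
  constructor
  · intro h n
    constructor
    · rw [injective_iff_map_eq_zero]
      intro a ha
      obtain ⟨b, rfl⟩ := (E.exact_sub n P a).1 ha
      have := h (n + 1)
      rw [Subsingleton.elim b 0, map_zero]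
    · intro b
      have := h n
      exact (E.exact_tot n P b).1 (Subsingleton.elim _ _)
  · intro h n
    obtain ⟨m, rfl⟩ : ∃ m, n = m + 1 := ⟨n - 1, by ring⟩
    refine ⟨fun x y => ?_⟩
    have key : ∀ x : (E.H (m + 1)).obj P, x = 0 := by
      intro x
      have h1 : E.δ m P x = 0 := by
        have h2 := (E.exact_sub m P (E.δ m P x)).2 ⟨x, rfl⟩
        apply (h m).1
        rw [h2, map_zero]
      obtain ⟨y, rfl⟩ := (E.exact_rel m P x).1 h1
      obtain ⟨z, rfl⟩ := (h (m + 1)).2 y
      exact (E.exact_tot (m + 1) P _).2 ⟨z, rfl⟩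
    rw [key x, key y]

/-- `f` induces an isomorphism. -/
def EIso {X Y : SSet.{0}} [X.Finite] [Y.Finite] (f : X ⟶ Y) : Prop :=
  ∀ n, Function.Bijective ((E.H n).map (absMap f))

lemma EIso.comp {X Y Z : SSet.{0}} [X.Finite] [Y.Finite] [Z.Finite] {f : X ⟶ Y} {g : Y ⟶ Z}
    (hf : E.EIso f) (hg : E.EIso g) : E.EIso (f ≫ g) := by
  intro n
  rw [← absMap_comp, Functor.map_comp, ConcreteCategory.coe_comp]
  exact (hg n).comp (hf n)

lemma EIso.of_comp_left {X Y Z : SSet.{0}} [X.Finite] [Y.Finite] [Z.Finite] {f : X ⟶ Y}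
    {g : Y ⟶ Z} (hf : E.EIso f) (hg : E.EIso (f ≫ g)) : E.EIso g := by
  intro n
  have h := hg n
  rw [← absMap_comp, Functor.map_comp, ConcreteCategory.coe_comp] at h
  exact (Function.Bijective.of_comp_iff _ (hf n)).1 h

lemma EIso.of_comp_right {X Y Z : SSet.{0}} [X.Finite] [Y.Finite] [Z.Finite] {f : X ⟶ Y}
    {g : Y ⟶ Z} (hg : E.EIso g) (h : E.EIso (f ≫ g)) : E.EIso f := by
  intro n
  have h := h n
  rw [← absMap_comp, Functor.map_comp, ConcreteCategory.coe_comp] at h
  exact (Function.Bijective.of_comp_iff' (hg n) _).1 h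

lemma EIso.of_iso {X Y : SSet.{0}} [X.Finite] [Y.Finite] (e : X ≅ Y) : E.EIso e.hom := by
  intro n
  have : IsIso (absMap e.hom) := ⟨absMap e.inv, by
    rw [absMap_comp, e.hom_inv_id]; rfl, by rw [absMap_comp, e.inv_hom_id]; rfl⟩
  exact (ConcreteCategory.isIso_iff_bijective _).1 (inferInstance : IsIso ((E.H n).map _))

/-- The isomorphism `A ≅ A ∩ B` for `A ≤ B`. -/
def preimageIso {X : SSet.{0}} {A B : X.Subcomplex} (h : A ≤ B) :
    A.toSSet ≅ (A.preimage B.ι).toSSet where
  hom := SSet.Subcomplex.lift (SSet.Subcomplex.homOfLE h) (by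
    rintro n _ ⟨x, rfl⟩
    exact x.2)
  inv := SSet.Subcomplex.lift ((A.preimage B.ι).ι ≫ B.ι) (by
    rintro n _ ⟨x, rfl⟩
    exact x.2)

lemma eIso_iff_of_le {X : SSet.{0}} [X.Finite] {A B : X.Subcomplex} (h : A ≤ B) :
    E.EIso (A.preimage B.ι).ι ↔ E.EIso (SSet.Subcomplex.homOfLE h) := by
  have h1 : (preimageIso h).hom ≫ (A.preimage B.ι).ι = SSet.Subcomplex.homOfLE h := rfl
  rw [← h1]
  constructor
  · intro h2
    exact (EIso.of_iso E (preimageIso h)).comp E h2
  · intro h2
    exact (EIso.of_iso E (preimageIso h)).of_comp_left E h2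

lemma acyclic_iff_eIso {X : SSet.{0}} [X.Finite] (A : X.Subcomplex) :
    E.Acyclic ⟨X, A, inferInstance⟩ ↔ E.EIso A.ι :=
  E.acyclic_iff _

lemma acyclic_rel_iff {X : SSet.{0}} [X.Finite] {A B : X.Subcomplex} (h : A ≤ B) :
    E.Acyclic (rel B A) ↔ E.EIso (SSet.Subcomplex.homOfLE h) :=
  (E.acyclic_iff _).trans (E.eIso_iff_of_le h)

/-- The end `0` of the cylinder. -/
noncomputable def i₀ (P : FinPair) : P ⟶ P.cyl := ⟨SSet.ι₀, fun _ _ h => ⟨h, trivial⟩⟩

/-- The end `1` of the cylinder. -/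
noncomputable def i₁ (P : FinPair) : P ⟶ P.cyl := ⟨SSet.ι₁, fun _ _ h => ⟨h, trivial⟩⟩

lemma map_i₀_eq (P : FinPair) (n : ℤ) : (E.H n).map (i₀ P) = (E.H n).map (i₁ P) := by
  have h0 : i₀ P ≫ P.cylProj = 𝟙 P := rfl
  have h1 : i₁ P ≫ P.cylProj = 𝟙 P := rfl
  have := E.homotopy n P
  rw [← cancel_mono ((E.H n).map P.cylProj), ← Functor.map_comp, ← Functor.map_comp, h0, h1]

/-- The contraction of `Δ[k]` to its vertex `0`. -/
def contr (k : ℕ) : (Δ[k] ⊗ Δ[1] : SSet.{0}) ⟶ Δ[k] where
  app m := ↾fun x => SSet.stdSimplex.objMk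
    ⟨fun i => if SSet.stdSimplex.asOrderHom x.2 i = 0 then 0 else SSet.stdSimplex.asOrderHom x.1 i,
      by
        intro i j hij
        have h1 := (SSet.stdSimplex.asOrderHom x.1).monotone hij
        have h2 := (SSet.stdSimplex.asOrderHom x.2).monotone hij
        dsimp only
        split_ifs with h3 h4 h5
        · exact le_rfl
        · exact Fin.zero_le _
        · exact absurd (le_antisymm (h2.trans h5.le) (Fin.zero_le _)) h3
        · exact h1⟩
  naturality _ _ f := rfl

/-- The vertex `0` section. -/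
noncomputable def vtx (P : FinPair) (k : ℕ) : P ⟶ ⟨P.X ⊗ Δ[k], P.A.prod ⊤, inferInstance⟩ :=
  ⟨lift (𝟙 P.X) (SSet.const (SSet.stdSimplex.obj₀Equiv.symm 0)), fun _ _ h => ⟨h, trivial⟩⟩

/-- The projection. -/
def projS (P : FinPair) (k : ℕ) : (⟨P.X ⊗ Δ[k], P.A.prod ⊤, inferInstance⟩ : FinPair) ⟶ P :=
  ⟨fst P.X Δ[k], fun _ _ h => h.1⟩

/-- The contraction homotopy. -/
def contrMap (P : FinPair) (k : ℕ) :
    (⟨P.X ⊗ Δ[k], P.A.prod ⊤, inferInstance⟩ : FinPair).cyl ⟶
      ⟨P.X ⊗ Δ[k], P.A.prod ⊤, inferInstance⟩ :=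
  ⟨(α_ P.X Δ[k] Δ[1]).hom ≫ P.X ◁ contr k, fun _ _ h => ⟨h.1.1, trivial⟩⟩

lemma i₁_contr (P : FinPair) (k : ℕ) : i₁ _ ≫ contrMap P k = 𝟙 _ := by
  apply FinPair.hom_ext
  apply CartesianMonoidalCategory.hom_ext
  · rfl
  · ext m x
    change SSet.stdSimplex.objMk _ = x.2
    apply SSet.stdSimplex.objEquiv.injective
    rw [Equiv.apply_symm_apply]
    ext i
    rfl

lemma i₀_contr (P : FinPair) (k : ℕ) : i₀ _ ≫ contrMap P k = projS P k ≫ vtx P k := by
  apply FinPair.hom_ext
  apply CartesianMonoidalCategory.hom_ext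
  · rfl
  · ext m x
    rfl

lemma acyclic_simplex (P : FinPair) (k : ℕ) (h : E.Acyclic P) :
    E.Acyclic ⟨P.X ⊗ Δ[k], P.A.prod ⊤, inferInstance⟩ := by
  intro n
  refine ⟨fun x y => ?_⟩
  have key : ∀ x : (E.H n).obj ⟨P.X ⊗ Δ[k], P.A.prod ⊤, inferInstance⟩, x = 0 := by
    intro x
    have h1 : x = (E.H n).map (i₀ _ ≫ contrMap P k) x := by
      rw [Functor.map_comp, map_i₀_eq, ← Functor.map_comp, i₁_contr, CategoryTheory.Functor.map_id]
      rfl
    rw [h1, i₀_contr, Functor.map_comp, CategoryTheory.comp_apply]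
    have := h n
    rw [Subsingleton.elim ((E.H n).map (projS P k) x) 0, map_zero]
  rw [key x, key y]

theorem acClass : AcClass E.Acyclic where
  relIso {P Q} f hf := by
    have h : ∀ n, Function.Bijective ((E.H n).map f) := fun n =>
      (ConcreteCategory.isIso_iff_bijective _).1 (E.excision n f hf)
    constructor
    · intro hP n
      have := hP n
      exact (h n).2.subsingleton
    · intro hQ n
      have := hQ n
      exact (h n).1.subsingleton
  triple X _ A B hAB h := by
    rw [acyclic_rel_iff E hAB] at h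
    rw [acyclic_iff_eIso, acyclic_iff_eIso, ← SSet.Subcomplex.homOfLE_ι hAB]
    exact ⟨fun h2 => h.of_comp_left E h2, fun h2 => h.comp E h2⟩
  simplex P k h := E.acyclic_simplex P k h

end HomologyTheory

end Vale.Agent.P241
end

section

open CategoryTheory MonoidalCategory CartesianMonoidalCategory Simplicial Opposite

namespace Vale.Agent.P241.Lite

variable (E : Homology)

/-! ### Formal consequences of the axioms -/

/-- The composite of two maps. -/
def Map.comp {X Y Z : BSS} (f : Map X Y) (g : Map Y Z) : Map X Z where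
  f x := g.f (f.f x)
  f_pt n := by rw [f.f_pt, g.f_pt]
  f_op a x := by rw [f.f_op, g.f_op]

lemma Homology.Acyclic.of_retract {X Y : BSS} (f : Map X Y) (g : Map Y X)
    (h : ∀ j, E.map j (f.comp g) = id) (hY : E.Acyclic Y) : E.Acyclic X := by
  intro j x
  have h1 : E.map j (f.comp g) x = x := by rw [h]; rfl
  rw [← h1, E.map_comp j f g (f.comp g) (fun _ _ => rfl), hY j (E.map j f x), E.map_zero]

/-- The inverse of a levelwise bijective map. -/
noncomputable def Map.inv {X Y : BSS} (f : Map X Y)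
    (hf : ∀ n, Function.Bijective (f.f (n := n))) : Map Y X where
  f {n} := (Equiv.ofBijective _ (hf n)).symm
  f_pt n := by
    rw [Equiv.symm_apply_eq]
    exact (f.f_pt n).symm
  f_op {m n} a y := by
    rw [Equiv.symm_apply_eq]
    change _ = f.f _
    rw [f.f_op]
    congr 1
    exact ((Equiv.ofBijective _ (hf n)).apply_symm_apply y).symm

lemma Homology.acyclic_iff_of_bijective {X Y : BSS} (f : Map X Y)
    (hf : ∀ n, Function.Bijective (f.f (n := n))) : E.Acyclic X ↔ E.Acyclic Y := by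
  constructor
  · apply Acyclic.of_retract E (f.inv hf) f
    intro j
    funext x
    apply E.map_id
    intro n y
    exact (Equiv.ofBijective _ (hf n)).apply_symm_apply y
  · apply Acyclic.of_retract E f (f.inv hf)
    intro j
    funext x
    apply E.map_id
    intro n y
    exact (Equiv.ofBijective _ (hf n)).symm_apply_apply y

lemma Homology.acyclic_iff_of_cofiber {A X Q : BSS} (i : Map A X) (q : Map X Q)
    (h : IsCofiber i q) (hA : E.Acyclic A) : E.Acyclic X ↔ E.Acyclic Q := by
  obtain ⟨δ, hδ⟩ := E.exact i q h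
  constructor
  · intro hX j y
    obtain ⟨j, rfl⟩ : ∃ m, j = m + 1 := ⟨j - 1, by ring⟩
    obtain ⟨x, rfl⟩ := ((hδ j).2.1 y).1 (hA j _)
    rw [hX (j + 1) x, E.map_zero]
  · intro hQ j x
    obtain ⟨a, rfl⟩ := ((hδ j).1 x).1 (hQ j _)
    rw [hA j a, E.map_zero]

/-! ### Collapsing the subcomplex of a pair -/

/-- Monotone maps as morphisms of the simplex category. -/
def mor {m n : ℕ} (a : Op m n) : (⦋m⦌ : SimplexCategory) ⟶ ⦋n⦌ := SimplexCategory.Hom.mk a

lemma mor_id (n : ℕ) : mor (Op.id n) = 𝟙 ⦋n⦌ := rfl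

lemma mor_comp {l m n : ℕ} (a : Op l m) (b : Op m n) : mor (a.comp b) = mor a ≫ mor b := rfl

open Classical in
/-- The class in `X / A` of a simplex of `X`. -/
noncomputable def cl (X : SSet.{0}) (A : X.Subcomplex) {n : SimplexCategoryᵒᵖ} (x : X.obj n) :
    Option {x : X.obj n // x ∉ A.obj n} :=
  if h : x ∈ A.obj n then none else some ⟨x, h⟩

section

variable (X : SSet.{0}) (A : X.Subcomplex) {n m : SimplexCategoryᵒᵖ}

lemma cl_of_mem {x : X.obj n} (h : x ∈ A.obj n) : cl X A x = none := dif_pos h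

lemma cl_of_not_mem {x : X.obj n} (h : x ∉ A.obj n) : cl X A x = some ⟨x, h⟩ := dif_neg h

lemma cl_eq_none {x : X.obj n} : cl X A x = none ↔ x ∈ A.obj n := by
  by_cases h : x ∈ A.obj n
  · simp [cl_of_mem X A h, h]
  · simp [cl_of_not_mem X A h, h]

lemma cl_val (x : {x : X.obj n // x ∉ A.obj n}) : cl X A x.1 = some x :=
  cl_of_not_mem X A x.2

lemma cl_eq_some {x : X.obj n} {y : {x : X.obj n // x ∉ A.obj n}} :
    cl X A x = some y ↔ x = y.1 := by
  by_cases h : x ∈ A.obj n
  · rw [cl_of_mem X A h]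
    constructor
    · intro h'
      cases h'
    · rintro rfl
      exact absurd h y.2
  · rw [cl_of_not_mem X A h, Option.some_inj, Subtype.ext_iff]

end

/-- The based simplicial set `X / A`. -/
noncomputable def collapse (X : SSet.{0}) (A : X.Subcomplex) : BSS where
  S n := Option {x : X.obj (op ⦋n⦌) // x ∉ A.obj (op ⦋n⦌)}
  pt _ := none
  op a x := x.elim none fun x => cl X A (X.map (mor a).op x.1)
  op_pt _ := rfl
  op_id {n} x := by
    cases x with
    | none => rfl
    | some x =>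
      change cl X A (X.map (mor (Op.id n)).op x.1) = _
      rw [cl_eq_some, mor_id]
      simp
  op_comp {l m n} a b x := by
    cases x with
    | none => rfl
    | some x =>
      change cl X A (X.map (mor (a.comp b)).op x.1) =
        (cl X A (X.map (mor b).op x.1)).elim none _
      rw [mor_comp, op_comp, Functor.map_comp, ConcreteCategory.comp_apply]
      by_cases h : X.map (mor b).op x.1 ∈ A.obj (op ⦋m⦌)
      · rw [cl_of_mem X A h]
        exact cl_of_mem X A (A.map _ h)
      · rw [cl_of_not_mem X A h]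
        rfl

section

variable {X Y : SSet.{0}} {A : X.Subcomplex} {B : Y.Subcomplex} {n : ℕ}

/-- The class of a simplex. -/
noncomputable def pr (A : X.Subcomplex) {n : ℕ} (x : X.obj (op ⦋n⦌)) : (collapse X A).S n :=
  cl X A x

lemma pr_eq_pt {x : X.obj (op ⦋n⦌)} : pr A x = (collapse X A).pt n ↔ x ∈ A.obj (op ⦋n⦌) :=
  cl_eq_none X A

lemma pr_eq_pr {x y : X.obj (op ⦋n⦌)} (hx : x ∉ A.obj (op ⦋n⦌)) : pr A x = pr A y ↔ x = y := by
  constructor
  · intro h
    have h1 : cl X A x = cl X A y := h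
    rw [cl_of_not_mem X A hx, eq_comm, cl_eq_some] at h1
    exact h1.symm
  · rintro rfl
    rfl

lemma eq_pr (z : (collapse X A).S n) :
    z = (collapse X A).pt n ∨ ∃ x : X.obj (op ⦋n⦌), x ∉ A.obj (op ⦋n⦌) ∧ z = pr A x := by
  cases z with
  | none => exact Or.inl rfl
  | some x => exact Or.inr ⟨x.1, x.2, (cl_val X A x).symm⟩

lemma op_pr {m n : ℕ} (a : Op m n) (x : X.obj (op ⦋n⦌)) :
    (collapse X A).op a (pr A x) = pr A (X.map (mor a).op x) := by
  by_cases h : x ∈ A.obj (op ⦋n⦌)
  · rw [pr_eq_pt.2 h, pr_eq_pt.2 (A.map _ h)]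
    rfl
  · have h1 : pr A x = (some ⟨x, h⟩ : Option {x : X.obj (op ⦋n⦌) // x ∉ A.obj (op ⦋n⦌)}) :=
      cl_of_not_mem X A h
    rw [h1]
    rfl

/-- Maps out of a collapse. -/
noncomputable def lift' (Z : BSS) (f : ∀ {n}, X.obj (op ⦋n⦌) → Z.S n)
    (hf : ∀ {n} (x : X.obj (op ⦋n⦌)), x ∈ A.obj (op ⦋n⦌) → f x = Z.pt n)
    (hop : ∀ {m n} (a : Op m n) (x : X.obj (op ⦋n⦌)), f (X.map (mor a).op x) = Z.op a (f x)) :
    Map (collapse X A) Z where
  f {n} z := Option.elim (α := {x : X.obj (op ⦋n⦌) // x ∉ A.obj (op ⦋n⦌)}) z (Z.pt n)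
    fun x => f x.1
  f_pt _ := rfl
  f_op {m n} a z := by
    cases z with
    | none => exact (Z.op_pt a).symm
    | some x =>
      change _ = Z.op a (f x.1)
      rw [← hop]
      change Option.elim (cl X A (X.map (mor a).op x.1)) _ _ = _
      by_cases h : X.map (mor a).op x.1 ∈ A.obj (op ⦋m⦌)
      · rw [cl_of_mem X A h]
        exact (hf _ h).symm
      · rw [cl_of_not_mem X A h]
        rfl

lemma lift'_pr (Z : BSS) (f : ∀ {n}, X.obj (op ⦋n⦌) → Z.S n)
    (hf : ∀ {n} (x : X.obj (op ⦋n⦌)), x ∈ A.obj (op ⦋n⦌) → f x = Z.pt n)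
    (hop : ∀ {m n} (a : Op m n) (x : X.obj (op ⦋n⦌)), f (X.map (mor a).op x) = Z.op a (f x))
    (x : X.obj (op ⦋n⦌)) : (lift' (A := A) Z f hf hop).f (pr A x) = f x := by
  by_cases h : x ∈ A.obj (op ⦋n⦌)
  · rw [pr_eq_pt.2 h, hf x h]
    rfl
  · have h1 : pr A x = (some ⟨x, h⟩ : Option {x : X.obj (op ⦋n⦌) // x ∉ A.obj (op ⦋n⦌)}) :=
      cl_of_not_mem X A h
    rw [h1]
    rfl

lemma cmap_aux1 (f : X ⟶ Y) (h : A ≤ B.preimage f) {n : ℕ} (x : X.obj (op ⦋n⦌))
    (hx : x ∈ A.obj (op ⦋n⦌)) : pr B (f.app (op ⦋n⦌) x) = (collapse Y B).pt n :=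
  pr_eq_pt.2 (h _ hx)

lemma cmap_aux2 (f : X ⟶ Y) {m n : ℕ} (a : Op m n) (x : X.obj (op ⦋n⦌)) :
    pr B (f.app (op ⦋m⦌) (X.map (mor a).op x)) =
      (collapse Y B).op a (pr B (f.app (op ⦋n⦌) x)) := by
  rw [op_pr, NatTrans.naturality_apply]

/-- The map `X / A → Y / B`. -/
noncomputable def cmap (f : X ⟶ Y) (h : A ≤ B.preimage f) : Map (collapse X A) (collapse Y B) :=
  lift' (collapse Y B) (fun {n} x => pr B (f.app (op ⦋n⦌) x)) (cmap_aux1 f h) (cmap_aux2 f)

lemma cmap_pr (f : X ⟶ Y) (h : A ≤ B.preimage f) (x : X.obj (op ⦋n⦌)) :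
    (cmap f h).f (pr A x) = pr B (f.app (op ⦋n⦌) x) :=
  lift'_pr (collapse Y B) (fun {n} x => pr B (f.app (op ⦋n⦌) x)) (cmap_aux1 f h) (cmap_aux2 f) x

end

/-- The class of pairs `(X, A)` with `X / A` acyclic. -/
def cls : FinPair → Prop := fun P => E.Acyclic (collapse P.X P.A)

lemma bijective_of_isRelIso {P Q : FinPair} (f : P ⟶ Q) (hf : FinPair.IsRelIso f) (n : ℕ) :
    Function.Bijective ((cmap (A := P.A) (B := Q.A)
      (FinPair.Hom.map f) (FinPair.Hom.le f)).f (n := n)) := by
  obtain ⟨h1, h2, h3⟩ := hf (op ⦋n⦌)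
  constructor
  · intro z w hzw
    rcases eq_pr z with rfl | ⟨x, hx, rfl⟩
    · rcases eq_pr w with rfl | ⟨y, hy, rfl⟩
      · rfl
      · rw [Map.f_pt, cmap_pr, eq_comm, pr_eq_pt] at hzw
        exact absurd hzw (h1 hy)
    · rcases eq_pr w with rfl | ⟨y, hy, rfl⟩
      · rw [Map.f_pt, cmap_pr, pr_eq_pt] at hzw
        exact absurd hzw (h1 hx)
      · rw [cmap_pr, cmap_pr, pr_eq_pr (h1 hx)] at hzw
        rw [h2 hx hy hzw]
  · intro w
    rcases eq_pr w with rfl | ⟨y, hy, rfl⟩
    · exact ⟨_, Map.f_pt _ n⟩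
    · obtain ⟨x, hx, hxy⟩ := h3 hy
      refine ⟨pr P.A x, ?_⟩
      rw [cmap_pr, hxy]

lemma isCofiber_triple (X : SSet.{0}) (A B : X.Subcomplex) (h : A ≤ B)
    (h1 : A.preimage B.ι ≤ A.preimage B.ι) (h2 : A ≤ B.preimage (𝟙 X)) :
    IsCofiber (cmap (A := A.preimage B.ι) (B := A) B.ι h1)
      (cmap (A := A) (B := B) (𝟙 X) h2) := by
  intro n
  refine ⟨?_, ?_, ?_, ?_⟩
  · intro z w hzw
    rcases eq_pr z with rfl | ⟨x, hx, rfl⟩
    · rcases eq_pr w with rfl | ⟨y, hy, rfl⟩
      · rfl
      · rw [Map.f_pt, cmap_pr, eq_comm, pr_eq_pt] at hzw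
        exact absurd hzw hy
    · rcases eq_pr w with rfl | ⟨y, hy, rfl⟩
      · rw [Map.f_pt, cmap_pr, pr_eq_pt] at hzw
        exact absurd hzw hx
      · rw [cmap_pr, cmap_pr] at hzw
        have h5 := (pr_eq_pr (A := A) (x := B.ι.app _ x) hx).1 hzw
        exact congrArg (pr _) (Subtype.ext h5)
  · intro w
    rcases eq_pr w with rfl | ⟨y, hy, rfl⟩
    · exact ⟨_, Map.f_pt _ n⟩
    · refine ⟨pr A y, ?_⟩
      rw [cmap_pr]
      rfl
  · intro z
    rcases eq_pr z with rfl | ⟨x, hx, rfl⟩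
    · exact ⟨fun _ => ⟨_, Map.f_pt _ n⟩, fun _ => Map.f_pt _ n⟩
    · rw [cmap_pr, pr_eq_pt]
      constructor
      · intro hxB
        have hxB' : x ∈ B.obj (op ⦋n⦌) := hxB
        let x' : B.toSSet.obj (op ⦋n⦌) := ⟨x, hxB'⟩
        refine ⟨pr _ x', ?_⟩
        rw [cmap_pr]
        rfl
      · rintro ⟨w, hw⟩
        rcases eq_pr w with rfl | ⟨y, hy, rfl⟩
        · rw [Map.f_pt, eq_comm, pr_eq_pt] at hw
          exact absurd hw hx
        · rw [cmap_pr, eq_comm, pr_eq_pr hx] at hw
          rw [hw]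
          exact y.2
  · intro z w hzw
    by_cases hz : (cmap (A := A) (B := B) (𝟙 X) h2).f z = (collapse X B).pt n
    · exact Or.inr hz
    · left
      rcases eq_pr z with rfl | ⟨x, hx, rfl⟩
      · exact absurd (Map.f_pt _ n) hz
      · rcases eq_pr w with rfl | ⟨y, hy, rfl⟩
        · rw [Map.f_pt] at hzw
          exact absurd hzw hz
        · rw [cmap_pr, pr_eq_pt] at hz
          rw [cmap_pr, cmap_pr, pr_eq_pr hz] at hzw
          exact congrArg (pr A) hzw

section Contraction

variable (X : SSet.{0}) (A : X.Subcomplex) (T : SSet.{0}) (v : ∀ n : SimplexCategoryᵒᵖ, T.obj n)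
  (c : ∀ n : ℕ, T.obj (op ⦋n⦌) → (Fin (n + 1) →o Bool) → T.obj (op ⦋n⦌))

/-- The section `x ↦ (x, v)`. -/
def sect (hv : ∀ (n m : SimplexCategoryᵒᵖ) (f : n ⟶ m), T.map f (v n) = v m) : X ⟶ X ⊗ T where
  app n := ↾fun x => (x, v n)
  naturality n m f := by
    ext x
    exact Prod.ext rfl (hv n m f).symm

/-- The pairing of simplices. -/
def pair {X T : SSet.{0}} {n : ℕ} (x : X.obj (op ⦋n⦌)) (t : T.obj (op ⦋n⦌)) :
    (X ⊗ T).obj (op ⦋n⦌) := (x, t)

/-- The contraction homotopy on `(X × T) / (A × T)`. -/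
noncomputable def contrH (n : ℕ) (z : (collapse (X ⊗ T) (A.prod ⊤)).S n)
    (t : Fin (n + 1) →o Bool) : (collapse (X ⊗ T) (A.prod ⊤)).S n :=
  Option.elim (α := {x : (X ⊗ T).obj (op ⦋n⦌) // x ∉ (A.prod ⊤).obj (op ⦋n⦌)}) z none
    fun x => pr (A.prod ⊤) (pair x.1.1 (c n x.1.2 t))

lemma contrH_pt (n : ℕ) (t : Fin (n + 1) →o Bool) :
    contrH X A T c n ((collapse (X ⊗ T) (A.prod ⊤)).pt n) t =
      (collapse (X ⊗ T) (A.prod ⊤)).pt n := rfl

lemma contrH_pr (n : ℕ) (x : X.obj (op ⦋n⦌)) (y : T.obj (op ⦋n⦌)) (t : Fin (n + 1) →o Bool) :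
    contrH X A T c n (pr (A.prod ⊤) (pair x y)) t = pr (A.prod ⊤) (pair x (c n y t)) := by
  by_cases h : x ∈ A.obj (op ⦋n⦌)
  · rw [pr_eq_pt.2, pr_eq_pt.2]
    · rfl
    · exact ⟨h, trivial⟩
    · exact ⟨h, trivial⟩
  · have h0 : pair x y ∉ (A.prod ⊤).obj (op ⦋n⦌) := fun h' => h h'.1
    have h1 : pr (A.prod ⊤) (pair x y) = (some ⟨pair x y, h0⟩ :
      Option {x : (X ⊗ T).obj (op ⦋n⦌) // x ∉ (A.prod ⊤).obj (op ⦋n⦌)}) :=
      cl_of_not_mem _ _ h0
    rw [h1]
    rfl

lemma homotopic_contr (hv : ∀ (n m : SimplexCategoryᵒᵖ) (f : n ⟶ m), T.map f (v n) = v m)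
    (hc : ∀ (m n : ℕ) (a : Op m n) x t,
      c m (T.map (mor a).op x) (t.comp a) = T.map (mor a).op (c n x t))
    (hc0 : ∀ n x, c n x (OrderHom.const _ false) = v (op ⦋n⦌))
    (hc1 : ∀ n x, c n x (OrderHom.const _ true) = x)
    (h1 : A.prod ⊤ ≤ A.preimage (fst X T)) (h2 : A ≤ (A.prod ⊤).preimage (sect X T v hv))
    (h3 : A.prod ⊤ ≤ (A.prod ⊤).preimage (𝟙 (X ⊗ T))) :
    Homotopic ((cmap (fst X T) h1).comp (cmap (sect X T v hv) h2)) (cmap (𝟙 (X ⊗ T)) h3) := by
  refine ⟨contrH X A T c, ?_, ?_⟩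
  · intro m n a z t
    rcases eq_pr z with rfl | ⟨⟨x, y⟩, hx, rfl⟩
    · rw [BSS.op_pt, contrH_pt, contrH_pt, BSS.op_pt]
    · change contrH X A T c m ((collapse (X ⊗ T) (A.prod ⊤)).op a (pr (A.prod ⊤) (pair x y)))
          (t.comp a) =
        (collapse (X ⊗ T) (A.prod ⊤)).op a (contrH X A T c n (pr (A.prod ⊤) (pair x y)) _)
      have h5 : (X ⊗ T).map (mor a).op (pair x y) =
        pair (X.map (mor a).op x) (T.map (mor a).op y) := rfl
      rw [op_pr, h5, contrH_pr, contrH_pr, op_pr, hc]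
      rfl
  · intro n
    refine ⟨fun t => rfl, fun z => ?_⟩
    rcases eq_pr z with rfl | ⟨⟨x, y⟩, hx, rfl⟩
    · rw [contrH_pt, contrH_pt, Map.f_pt, Map.f_pt]
      exact ⟨rfl, rfl⟩
    · change contrH X A T c n (pr (A.prod ⊤) (pair x y)) _ =
        (cmap _ h2).f ((cmap _ h1).f (pr (A.prod ⊤) (pair x y))) ∧
        contrH X A T c n (pr (A.prod ⊤) (pair x y)) _ = (cmap _ h3).f (pr (A.prod ⊤) (pair x y))
      rw [contrH_pr, contrH_pr, hc0, hc1, cmap_pr, cmap_pr, cmap_pr]
      exact ⟨rfl, rfl⟩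

lemma acyclic_contr (hv : ∀ (n m : SimplexCategoryᵒᵖ) (f : n ⟶ m), T.map f (v n) = v m)
    (hc : ∀ (m n : ℕ) (a : Op m n) x t,
      c m (T.map (mor a).op x) (t.comp a) = T.map (mor a).op (c n x t))
    (hc0 : ∀ n x, c n x (OrderHom.const _ false) = v (op ⦋n⦌))
    (hc1 : ∀ n x, c n x (OrderHom.const _ true) = x)
    (hX : E.Acyclic (collapse X A)) : E.Acyclic (collapse (X ⊗ T) (A.prod ⊤)) := by
  have h1 : A.prod ⊤ ≤ A.preimage (fst X T) := fun _ _ h => h.1
  have h2 : A ≤ (A.prod ⊤).preimage (sect X T v hv) := fun _ _ h => ⟨h, trivial⟩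
  have h3 : A.prod ⊤ ≤ (A.prod ⊤).preimage (𝟙 (X ⊗ T)) := fun _ _ h => h
  apply Homology.Acyclic.of_retract E (cmap (fst X T) h1) (cmap (sect X T v hv) h2) _ hX
  intro j
  rw [E.homotopy j _ _ (homotopic_contr X A T v c hv hc hc0 hc1 h1 h2 h3)]
  funext x
  apply E.map_id
  intro n z
  rcases eq_pr z with rfl | ⟨x, hx, rfl⟩
  · rw [Map.f_pt]
  · rw [cmap_pr]
    rfl

end Contraction

/-- The contraction of `Δ[k]`. -/
def contrS (k n : ℕ) (x : (Δ[k] : SSet.{0}).obj (op ⦋n⦌)) (t : Fin (n + 1) →o Bool) :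
    (Δ[k] : SSet.{0}).obj (op ⦋n⦌) :=
  SSet.stdSimplex.objMk
    ⟨fun i => if t i = false then 0 else SSet.stdSimplex.asOrderHom x i,
      by
        intro i j hij
        have h1 := (SSet.stdSimplex.asOrderHom x).monotone hij
        have h2 := t.monotone hij
        dsimp only
        split_ifs with h3 h4 h5
        · exact le_rfl
        · exact Fin.zero_le _
        · rw [h5] at h2
          exact absurd (le_antisymm h2 (Bool.false_le _)) h3
        · exact h1⟩

/-- The vertex `0` of `Δ[k]`, in all degrees. -/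
def vtxS (k : ℕ) (n : SimplexCategoryᵒᵖ) : (Δ[k] : SSet.{0}).obj n :=
  SSet.stdSimplex.const k 0 n

theorem acClass : AcClass (cls E) where
  relIso f hf := E.acyclic_iff_of_bijective _ (bijective_of_isRelIso f hf)
  triple X _ A B h hAB := E.acyclic_iff_of_cofiber _ _
    (isCofiber_triple X A B h (fun _ _ h => h) (fun _ _ h' => h _ h')) hAB
  simplex P k hP := by
    apply acyclic_contr E P.X P.A Δ[k] (vtxS k) (contrS k) ?_ ?_ ?_ ?_ hP
    · intro n m f
      rfl
    · intro m n a x t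
      rfl
    · intro n x
      rfl
    · intro n x
      apply SSet.stdSimplex.objEquiv.injective
      ext i
      rfl

end Vale.Agent.P241.Lite
end

section

open CategoryTheory MonoidalCategory CartesianMonoidalCategory Simplicial Opposite

namespace Vale.Agent.P241

open FinPair

lemma FinPair.IsRelIso.intro {P Q : FinPair} (f : P ⟶ Q)
    (h1 : ∀ n x, x ∉ P.A.obj n → (Hom.map f).app n x ∉ Q.A.obj n)
    (h2 : ∀ n x y, x ∉ P.A.obj n → y ∉ P.A.obj n →
      (Hom.map f).app n x = (Hom.map f).app n y → x = y)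
    (h3 : ∀ n y, y ∉ Q.A.obj n → ∃ x, x ∉ P.A.obj n ∧ (Hom.map f).app n x = y) :
    IsRelIso f :=
  fun n => ⟨fun x hx => h1 n x hx, fun x hx y hy h => h2 n x y hx hy h, fun y hy => h3 n y hy⟩

/-- The smash product of pairs: `(X, A) ∧ (Y, B) = (X × Y, A × Y ∪ X × B)`. -/
def smash (P Q : FinPair) : FinPair := ⟨P.X ⊗ Q.X, P.A.unionProd Q.A, inferInstance⟩

lemma mem_smash {P Q : FinPair} {n : SimplexCategoryᵒᵖ} (x : (smash P Q).X.obj n) :
    x ∈ (smash P Q).A.obj n ↔ x.2 ∈ Q.A.obj n ∨ x.1 ∈ P.A.obj n :=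
  SSet.Subcomplex.mem_unionProd_iff _ _ _

/-- Functoriality of the smash product in the second variable. -/
def smashMap (P : FinPair) {Q Q' : FinPair} (f : Q ⟶ Q') : smash P Q ⟶ smash P Q' :=
  ⟨P.X ◁ Hom.map f, fun n x hx => by
    rcases (mem_smash _).1 hx with h | h
    · exact (mem_smash _).2 (Or.inl (Hom.le f n h))
    · exact (mem_smash _).2 (Or.inr h)⟩

lemma isRelIso_smashMap (P : FinPair) {Q Q' : FinPair} (f : Q ⟶ Q') (hf : IsRelIso f) :
    IsRelIso (smashMap P f) := by
  refine IsRelIso.intro _ ?_ ?_ ?_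
  · rintro n ⟨x, y⟩ hx hx'
    rcases (mem_smash _).1 hx' with h | h
    · exact (hf n).1 (fun hy => hx ((mem_smash _).2 (Or.inl hy))) h
    · exact hx ((mem_smash _).2 (Or.inr h))
  · rintro n ⟨x, y⟩ ⟨x', y'⟩ hx hx' h
    have h1 : x = x' := congrArg Prod.fst h
    have h2 : (Hom.map f).app n y = (Hom.map f).app n y' := congrArg Prod.snd h
    have h3 := (hf n).2.1 (fun hy => hx ((mem_smash _).2 (Or.inl hy)))
      (fun hy => hx' ((mem_smash _).2 (Or.inl hy))) h2
    exact Prod.ext h1 h3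
  · rintro n ⟨x, y⟩ hx
    obtain ⟨z, hz, hzy⟩ := (hf n).2.2 (show y ∈ _ from fun hy => hx ((mem_smash _).2 (Or.inl hy)))
    refine ⟨(x, z), fun h => ?_, Prod.ext rfl hzy⟩
    rcases (mem_smash _).1 h with h | h
    · exact hz h
    · exact hx ((mem_smash _).2 (Or.inr h))

lemma unionProd_mono {X Y : SSet.{0}} (A : X.Subcomplex) {B B' : Y.Subcomplex} (h : B ≤ B') :
    A.unionProd B ≤ A.unionProd B' := by
  intro n x hx
  exact (SSet.Subcomplex.mem_unionProd_iff _ _ _).2
    (((SSet.Subcomplex.mem_unionProd_iff _ _ _).1 hx).imp (fun h' => h n h') id)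

/-- The comparison map used for the triple axiom. -/
def smashRel (P : FinPair) {Y : SSet.{0}} [Y.Finite] (B B' : Y.Subcomplex) :
    smash P (rel B' B) ⟶ rel (P.A.unionProd B') (P.A.unionProd B) :=
  ⟨SSet.Subcomplex.lift (P.X ◁ B'.ι) (by
    rintro n _ ⟨x, rfl⟩
    exact (SSet.Subcomplex.mem_unionProd_iff _ _ _).2 (Or.inl x.2.2)), fun n x hx => by
    rcases (mem_smash _).1 hx with h | h
    · exact (SSet.Subcomplex.mem_unionProd_iff _ _ _).2 (Or.inl h)
    · exact (SSet.Subcomplex.mem_unionProd_iff _ _ _).2 (Or.inr h)⟩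

lemma isRelIso_smashRel (P : FinPair) {Y : SSet.{0}} [Y.Finite] (B B' : Y.Subcomplex) :
    IsRelIso (smashRel P B B') := by
  refine IsRelIso.intro _ ?_ ?_ ?_
  · rintro n ⟨x, y⟩ hx hx'
    rcases (SSet.Subcomplex.mem_unionProd_iff _ _ _).1 hx' with h | h
    · exact hx ((mem_smash _).2 (Or.inl h))
    · exact hx ((mem_smash _).2 (Or.inr h))
  · rintro n ⟨x, y⟩ ⟨x', y'⟩ hx hx' h
    have h0 := congrArg Subtype.val h
    have h1 : x = x' := congrArg Prod.fst h0
    have h2 : y.1 = y'.1 := congrArg Prod.snd h0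
    exact Prod.ext h1 (Subtype.ext h2)
  · rintro n ⟨⟨x, y⟩, hxy⟩ hx
    have hx1 : ¬ (y ∈ B.obj n ∨ x ∈ P.A.obj n) := fun h =>
      hx ((SSet.Subcomplex.mem_unionProd_iff _ _ _).2 h)
    rw [not_or] at hx1
    rcases (SSet.Subcomplex.mem_unionProd_iff _ _ _).1 hxy with h | h
    · refine ⟨(x, ⟨y, h⟩), fun h' => ?_, rfl⟩
      rcases (mem_smash _).1 h' with h' | h'
      · exact hx1.1 h'
      · exact hx1.2 h'
    · exact absurd h hx1.2

/-- The associativity map for the simplex axiom. -/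
def smashAssoc (P Q : FinPair) (k : ℕ) :
    (⟨(smash P Q).X ⊗ Δ[k], (smash P Q).A.prod ⊤, inferInstance⟩ : FinPair) ⟶
      smash P ⟨Q.X ⊗ Δ[k], Q.A.prod ⊤, inferInstance⟩ :=
  ⟨(α_ P.X Q.X Δ[k]).hom, fun n x hx => by
    rcases (mem_smash _).1 hx.1 with h | h
    · exact (mem_smash _).2 (Or.inl ⟨h, trivial⟩)
    · exact (mem_smash _).2 (Or.inr h)⟩

lemma isRelIso_smashAssoc (P Q : FinPair) (k : ℕ) : IsRelIso (smashAssoc P Q k) := by
  refine IsRelIso.intro _ ?_ ?_ ?_
  · rintro n ⟨⟨x, y⟩, z⟩ hx hx'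
    rcases (mem_smash _).1 hx' with h | h
    · exact hx ⟨(mem_smash _).2 (Or.inl h.1), trivial⟩
    · exact hx ⟨(mem_smash _).2 (Or.inr h), trivial⟩
  · rintro n ⟨⟨x, y⟩, z⟩ ⟨⟨x', y'⟩, z'⟩ hx hx' h
    have h1 : x = x' := congrArg Prod.fst h
    have h2 : y = y' := congrArg (fun t => Prod.fst (Prod.snd t)) h
    have h3 : z = z' := congrArg (fun t => Prod.snd (Prod.snd t)) h
    exact Prod.ext (Prod.ext h1 h2) h3
  · rintro n ⟨x, ⟨y, z⟩⟩ hx
    refine ⟨((x, y), z), fun h => hx ?_, rfl⟩
    rcases (mem_smash _).1 h.1 with h | h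
    · exact (mem_smash _).2 (Or.inl ⟨h, trivial⟩)
    · exact (mem_smash _).2 (Or.inr h)

theorem AcClass.smashClass {C : FinPair → Prop} (hC : AcClass C) (P : FinPair) :
    AcClass (fun Q => C (smash P Q)) where
  relIso f hf := hC.relIso _ (isRelIso_smashMap P f hf)
  triple Y _ B B' hBB' h :=
    hC.triple (P.X ⊗ Y) (P.A.unionProd B) (P.A.unionProd B') (unionProd_mono _ hBB')
      ((hC.relIso _ (isRelIso_smashRel P B B')).1 h)
  simplex Q k h := (hC.relIso _ (isRelIso_smashAssoc P Q k)).1 (hC.simplex _ k h)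

end Vale.Agent.P241
end

section

open CategoryTheory MonoidalCategory CartesianMonoidalCategory Simplicial Opposite

namespace Vale.Agent.P241

open FinPair

section Cell

variable {Y : SSet.{0}} [Y.Finite] (B : Y.Subcomplex) {k : ℕ} (x : Y.nonDegenerate k)

/-- Attaching the cell `x` to `B`. -/
def attach : Y.Subcomplex := B ⊔ SSet.Subcomplex.ofSimplex x.1

omit [Y.Finite] in
variable {B x} in
lemma cell_mem {n : SimplexCategoryᵒᵖ} (t : Δ[k].obj n) :
    (SSet.yonedaEquiv.symm x.1).app n t ∈ (attach B x).obj n := by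
  refine Or.inr ?_
  rw [SSet.Subcomplex.mem_ofSimplex_obj_iff]
  exact ⟨SSet.stdSimplex.objEquiv t, rfl⟩

/-- The characteristic map of a cell as a map of pairs. -/
def cellMap (h : B.preimage (SSet.yonedaEquiv.symm x.1) = SSet.boundary k) :
    (⟨Δ[k], SSet.boundary k, inferInstance⟩ : FinPair) ⟶ rel (attach B x) B :=
  ⟨SSet.Subcomplex.lift (SSet.yonedaEquiv.symm x.1) (by
    rintro n _ ⟨t, rfl⟩
    exact cell_mem t), fun n t ht => by
      rw [← h] at ht
      exact ht⟩

lemma epi_of_notMem_boundary {m k : ℕ} (g : ⦋m⦌ ⟶ ⦋k⦌)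
    (h : SSet.stdSimplex.objEquiv.symm g ∉ (SSet.boundary.{0} k).obj (op ⦋m⦌)) : Epi g := by
  rw [SimplexCategory.epi_iff_surjective]
  by_contra hg
  exact h hg

lemma isRelIso_cellMap (h : B.preimage (SSet.yonedaEquiv.symm x.1) = SSet.boundary k) :
    IsRelIso (cellMap B x h) := by
  refine IsRelIso.intro _ ?_ ?_ ?_
  · intro n t ht ht'
    apply ht
    change t ∈ (SSet.boundary k).obj n
    rw [← h]
    exact ht'
  · rintro ⟨m⟩ t t' ht ht' htt'
    induction m using SimplexCategory.rec with | _ m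
    obtain ⟨g, rfl⟩ := SSet.stdSimplex.objEquiv.symm.surjective t
    obtain ⟨g', rfl⟩ := SSet.stdSimplex.objEquiv.symm.surjective t'
    have := epi_of_notMem_boundary g ht
    have h1 : Y.map g.op x.1 = Y.map g'.op x.1 := congrArg Subtype.val htt'
    rw [Y.unique_nonDegenerate_map (Y.map g.op x.1) g x rfl g' x h1]
  · rintro n ⟨y, hy⟩ hyB
    rcases hy with hy | hy
    · exact absurd hy hyB
    · obtain ⟨g, rfl⟩ := (SSet.Subcomplex.mem_ofSimplex_obj_iff _ _).1 hy
      refine ⟨SSet.stdSimplex.objEquiv.symm g, fun ht => hyB ?_, rfl⟩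
      change _ ∈ (SSet.boundary k).obj n at ht
      rw [← h] at ht
      exact ht

end Cell

/-- A minimal nondegenerate simplex outside `B`. -/
lemma exists_cell {Y : SSet.{0}} (B : Y.Subcomplex) (hB : B ≠ ⊤) :
    ∃ (k : ℕ) (x : Y.nonDegenerate k), x.1 ∉ B.obj _ ∧
      B.preimage (SSet.yonedaEquiv.symm x.1) = SSet.boundary k := by
  classical
  have hex : ∃ k : ℕ, ∃ x : Y.nonDegenerate k, x.1 ∉ B.obj _ := by
    by_contra hcon
    push Not at hcon
    apply hB
    rw [SSet.Subcomplex.eq_top_iff_contains_nonDegenerate]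
    intro n y hy
    exact hcon n ⟨y, hy⟩
  obtain ⟨k, ⟨x, hx⟩, hmin0⟩ : ∃ k : ℕ, (∃ x : Y.nonDegenerate k, x.1 ∉ B.obj _) ∧
      ∀ n < k, ∀ x : Y.nonDegenerate n, x.1 ∈ B.obj _ := by
    refine ⟨Nat.find hex, Nat.find_spec hex, fun n hn => ?_⟩
    have h1 := Nat.find_min hex hn
    push Not at h1
    exact h1
  refine ⟨k, x, hx, ?_⟩
  have hmin : ∀ n < k, ∀ y : Y.obj (op ⦋n⦌), y ∈ B.obj _ := by
    intro n hn y
    obtain ⟨m, f, _, z, rfl⟩ := Y.exists_nonDegenerate y
    have hm : m ≤ n := SimplexCategory.len_le_of_epi f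
    exact B.map f.op (hmin0 m (lt_of_le_of_lt hm hn) z)
  rw [SSet.stdSimplex.eq_boundary_iff]
  constructor
  · rw [SSet.Subcomplex.le_iff_contains_nonDegenerate]
    rintro n ⟨y, hy₁⟩ hy₂
    have hn : n < k := SSet.dim_lt_of_nonDegenerate (SSet.boundary.{0} k).toSSet
      ⟨⟨y, hy₂⟩, (SSet.Subcomplex.mem_nonDegenerate_iff _ ⟨y, hy₂⟩).2 hy₁⟩ k
    exact hmin n hn _
  · intro h
    apply hx
    have h1 : SSet.stdSimplex.objEquiv.symm (𝟙 ⦋k⦌) ∈
        (B.preimage (SSet.yonedaEquiv.symm x.1)).obj _ := by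
      rw [h]; trivial
    simpa using h1

lemma eq_of_delta0 {n : SimplexCategoryᵒᵖ} (a b : (Δ[0] : SSet.{0}).obj n) : a = b := by
  apply SSet.stdSimplex.objEquiv.injective
  ext i
  exact congrArg Fin.val (Subsingleton.elim (α := Fin 1) _ _)

variable {C : FinPair → Prop}

lemma AcClass.congr_top (hC : AcClass C) (h0 : C ⟨Δ[0], ⊥, inferInstance⟩)
    (Y : SSet.{0}) [Y.Finite] : C ⟨Y, ⊤, inferInstance⟩ := by
  have h1 : C (rel (⊤ : Δ[0].Subcomplex) ⊥) := by
    refine (hC.relIso (Q := ⟨Δ[0], ⊥, inferInstance⟩)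
      ⟨SSet.Subcomplex.ι _, fun n x hx => hx⟩ (IsRelIso.intro _ ?_ ?_ ?_)).2 h0
    · intro n x hx
      exact hx
    · intro n x y _ _ h
      exact Subtype.ext h
    · intro n y hy
      exact ⟨⟨y, trivial⟩, hy, rfl⟩
  have h2 : C ⟨Δ[0], ⊤, inferInstance⟩ := (hC.triple Δ[0] ⊥ ⊤ bot_le h1).1 h0
  refine (hC.relIso (P := ⟨Y, ⊤, inferInstance⟩) (Q := ⟨Δ[0], ⊤, inferInstance⟩)
    ⟨SSet.const (SSet.stdSimplex.obj₀Equiv.symm 0), fun n x hx => trivial⟩
    (IsRelIso.intro _ ?_ ?_ ?_)).2 h2
  · intro n x hx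
    exact absurd trivial hx
  · intro n x y hx
    exact absurd trivial hx
  · intro n y hy
    exact absurd trivial hy

lemma AcClass.simplex_bot (hC : AcClass C) (h0 : C ⟨Δ[0], ⊥, inferInstance⟩) (k : ℕ) :
    C ⟨Δ[k], ⊥, inferInstance⟩ := by
  refine (hC.relIso (P := ⟨Δ[0] ⊗ Δ[k], SSet.Subcomplex.prod ⊥ ⊤, inferInstance⟩)
    (Q := ⟨Δ[k], ⊥, inferInstance⟩) ⟨snd Δ[0] Δ[k], fun n x hx => hx.1⟩ (IsRelIso.intro _ ?_ ?_ ?_)).1 (hC.simplex _ k h0)
  · intro n x _ h
    exact h
  · rintro n ⟨a, x⟩ ⟨b, y⟩ _ _ h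
    exact Prod.ext (eq_of_delta0 _ _) h
  · intro n y _
    exact ⟨((SSet.const (SSet.stdSimplex.obj₀Equiv.symm 0)).app n y, y), fun h => h.1, rfl⟩

/-- A class of acyclic pairs containing the point contains every finite pair. -/
theorem AcClass.all (hC : AcClass C) (h0 : C ⟨Δ[0], ⊥, inferInstance⟩) (P : FinPair) : C P := by
  have key : ∀ (d : ℕ) (Y : SSet.{0}) [Y.Finite] [Y.HasDimensionLT d] (B : Y.Subcomplex),
      C ⟨Y, B, inferInstance⟩ := by
    intro d
    induction d using Nat.strong_induction_on with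
    | _ d ih =>
    intro Y _ _ B
    obtain ⟨N, hN⟩ : ∃ N, Set.ncard (setOf fun s : Y.N => s.simplex ∉ B.obj _) = N := ⟨_, rfl⟩
    induction N using Nat.strong_induction_on generalizing B with
    | _ N ihN =>
    by_cases hB : B = ⊤
    · rw [hB]
      exact hC.congr_top h0 Y
    obtain ⟨k, x, hx, hpre⟩ := exists_cell B hB
    have hkd : k < d := SSet.dim_lt_of_nonDegenerate Y x d
    have hle : B ≤ attach B x := le_sup_left
    have h1 : C ⟨Δ[k], SSet.boundary k, inferInstance⟩ := by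
      refine (hC.triple Δ[k] ⊥ (SSet.boundary k) bot_le ?_).1 (hC.simplex_bot h0 k)
      exact ih k hkd (SSet.boundary k).toSSet _
    have h2 : C (rel (attach B x) B) := (hC.relIso _ (isRelIso_cellMap B x hpre)).1 h1
    rw [hC.triple Y B (attach B x) hle h2]
    refine ihN _ ?_ (attach B x) rfl
    rw [← hN]
    apply Set.ncard_lt_ncard _ (Set.toFinite _)
    refine ⟨fun s hs hs' => hs (hle _ hs'), fun h => ?_⟩
    have h3 : SSet.N.mk x.1 x.2 ∈ (setOf fun s : Y.N => s.simplex ∉ B.obj _) := hx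
    exact h h3 (Or.inr (SSet.Subcomplex.mem_ofSimplex_obj x.1))
  obtain ⟨Y, B, hY⟩ := P
  obtain ⟨d, _⟩ := Y.hasDimensionLT_of_finite
  exact key d Y B

/-- The unit isomorphism for the smash product. -/
def smashUnit (P : FinPair) : smash P ⟨Δ[0], ⊥, inferInstance⟩ ⟶ P :=
  ⟨fst P.X Δ[0], fun n x hx => by
    rcases (mem_smash _).1 hx with h | h
    · exact absurd h id
    · exact h⟩

lemma isRelIso_smashUnit (P : FinPair) : IsRelIso (smashUnit P) := by
  refine IsRelIso.intro _ ?_ ?_ ?_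
  · intro n x hx hx'
    exact hx ((mem_smash _).2 (Or.inr hx'))
  · rintro n ⟨x, a⟩ ⟨y, b⟩ _ _ h
    exact Prod.ext h (eq_of_delta0 _ _)
  · intro n y hy
    refine ⟨(y, (SSet.const (SSet.stdSimplex.obj₀Equiv.symm 0)).app n y), fun h => ?_, rfl⟩
    rcases (mem_smash _).1 h with h | h
    · exact absurd h id
    · exact hy h

/-- The class of acyclic pairs is a smash ideal. -/
theorem AcClass.smash_mem (hC : AcClass C) (P : FinPair) (hP : C P) (Q : FinPair) :
    C (smash P Q) :=
  (hC.smashClass P).all ((hC.relIso _ (isRelIso_smashUnit P)).2 hP) Q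

end Vale.Agent.P241
end

section

open CategoryTheory MonoidalCategory CartesianMonoidalCategory Simplicial Opposite

namespace Vale.Agent.P241

open FinPair

/-- The power `X^S` of a simplicial set. -/
def powX (X : SSet.{0}) (S : Type) : SSet.{0} where
  obj n := S → X.obj n
  map i := ↾fun f s => X.map i (f s)
  map_id n := by
    ext f s
    simp
  map_comp i j := by
    ext f s
    simp

lemma mono_of_inj {X Y : SSet.{0}} (f : X ⟶ Y) (h : ∀ n, Function.Injective (f.app n)) :
    Mono f := by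
  rw [NatTrans.mono_iff_mono_app]
  intro n
  rw [mono_iff_injective]
  exact h n

/-- Reindexing powers along a map of index sets. -/
def powX.reindex (X : SSet.{0}) {S T : Type} (e : T → S) : powX X S ⟶ powX X T where
  app n := ↾fun f t => f (e t)
  naturality _ _ _ := rfl

instance powX_finite (X : SSet.{0}) [X.Finite] (S : Type) [Finite S] : (powX X S).Finite := by
  induction S using Finite.induction_empty_option with
  | of_equiv e ih =>
    have := ih
    have : Mono (powX.reindex X e) := mono_of_inj _ fun _ f g h => by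
      funext s
      obtain ⟨t, rfl⟩ := e.surjective s
      exact congrFun h t
    exact SSet.finite_of_mono (powX.reindex X e)
  | h_empty =>
    have : Mono (SSet.const (SSet.stdSimplex.obj₀Equiv.symm 0) : powX X PEmpty ⟶ Δ[0]) :=
      mono_of_inj _ fun _ f g h => funext fun s => s.elim
    exact SSet.finite_of_mono (SSet.const (SSet.stdSimplex.obj₀Equiv.symm 0) :
      powX X PEmpty ⟶ Δ[0])
  | h_option ih =>
    rename_i S _
    have := ih
    let ev : powX X (Option S) ⟶ X :=
      { app n := ↾fun f => f none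
        naturality _ _ _ := rfl }
    have : Mono (lift ev (powX.reindex X (some : S → Option S))) := mono_of_inj _ fun n f g h => by
      funext s
      cases s with
      | none => exact congrArg Prod.fst h
      | some s => exact congrFun (congrArg Prod.snd h) s
    exact SSet.finite_of_mono (lift ev (powX.reindex X (some : S → Option S)))

section MapPair

variable {M : Type} [Group M]

lemma GPair.act_mul (P : GPair M) (m m' : M) (n : SimplexCategoryᵒᵖ) (x : P.X.obj n) :
    (P.act (m * m')).app n x = (P.act m).app n ((P.act m').app n x) := by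
  rw [map_mul]
  rfl

lemma GPair.act_one (P : GPair M) (n : SimplexCategoryᵒᵖ) (x : P.X.obj n) :
    (P.act 1).app n x = x := by
  rw [map_one]
  rfl

lemma GPair.act_inv_act (P : GPair M) (m : M) (n : SimplexCategoryᵒᵖ) (x : P.X.obj n) :
    (P.act m⁻¹).app n ((P.act m).app n x) = x := by
  rw [← P.act_mul, inv_mul_cancel, P.act_one]

lemma GPair.act_mem_iff (P : GPair M) (m : M) (n : SimplexCategoryᵒᵖ) (x : P.X.obj n) :
    (P.act m).app n x ∈ P.A.obj n ↔ x ∈ P.A.obj n := by
  constructor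
  · intro h
    have := P.stable m⁻¹ n h
    change (P.act m⁻¹).app n ((P.act m).app n x) ∈ P.A.obj n at this
    rwa [P.act_inv_act] at this
  · intro h
    exact P.stable m n h

variable (P : GPair M) (S : Type) [MulAction M S]

/-- Equivariant maps `S → X`, as a simplicial subset of `X^S`. -/
def equivMaps : (powX P.X S).Subcomplex where
  obj n := {f | ∀ (m : M) (s : S), f (m • s) = (P.act m).app n (f s)}
  map {n n'} i f hf m s := by
    change P.X.map i (f (m • s)) = (P.act m).app n' (P.X.map i (f s))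
    rw [hf m s, NatTrans.naturality_apply]

/-- The pair of equivariant maps from `S` to `(X, A)`, relative to those hitting `A`. -/
def mapPair [Finite S] : FinPair where
  X := (equivMaps P S).toSSet
  A := { obj n := {f | ∃ s, f.1 s ∈ P.A.obj n}
         map {n n'} i f hf := by
          obtain ⟨s, hs⟩ := hf
          exact ⟨s, P.A.map i hs⟩ }
  fin := inferInstance

/-- The complement of an orbit. -/
def Rest (M : Type) [Group M] (S : Type) [MulAction M S] (s₀ : S) : Type :=
  {s : S // s ∉ MulAction.orbit M s₀}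

instance (s₀ : S) : MulAction M (Rest M S s₀) where
  smul m s := ⟨m • s.1, fun h => s.2 (by
    obtain ⟨m', hm'⟩ := h
    refine ⟨m⁻¹ * m', ?_⟩
    change (m⁻¹ * m') • s₀ = s.1
    have : m' • s₀ = m • s.1 := hm'
    rw [mul_smul, this, inv_smul_smul])⟩
  one_smul s := Subtype.ext (one_smul M s.1)
  mul_smul m m' s := Subtype.ext (mul_smul m m' s.1)

instance [Finite S] (s₀ : S) : Finite (Rest M S s₀) := Subtype.finite

variable {S}

/-- Evaluation at a point. -/
def evalAt (X : SSet.{0}) (s₀ : S) : powX X S ⟶ X where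
  app _ := ↾fun f => f s₀
  naturality _ _ _ := rfl

/-- Evaluation of equivariant maps at a point. -/
def evalFix (s₀ : S) : (equivMaps P S).toSSet ⟶ (P.fix (MulAction.stabilizer M s₀)).toSSet :=
  SSet.Subcomplex.lift ((equivMaps P S).ι ≫ evalAt P.X s₀) (by
    rintro n _ ⟨f, rfl⟩ m hm
    change (P.act m).app n (f.1 s₀) = f.1 s₀
    rw [← f.2 m s₀]
    exact congrArg f.1 hm)

/-- Restriction of equivariant maps to the complement of an orbit. -/
def restRest (s₀ : S) : (equivMaps P S).toSSet ⟶ (equivMaps P (Rest M S s₀)).toSSet :=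
  SSet.Subcomplex.lift ((equivMaps P S).ι ≫ powX.reindex P.X Subtype.val) (by
    rintro n _ ⟨f, rfl⟩ m s
    exact f.2 m s.1)

/-- The splitting map. -/
def mapSplit [Finite S] (s₀ : S) :
    mapPair P S ⟶ smash (P.fixed (MulAction.stabilizer M s₀)) (mapPair P (Rest M S s₀)) :=
  ⟨lift (evalFix P s₀) (restRest P s₀), by
    rintro n f ⟨s, hs⟩
    by_cases h : s ∈ MulAction.orbit M s₀
    · obtain ⟨m, rfl⟩ := h
      refine (mem_smash _).2 (Or.inr ?_)
      change f.1 s₀ ∈ P.A.obj n
      rw [← P.act_mem_iff m, ← f.2 m s₀]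
      exact hs
    · exact (mem_smash _).2 (Or.inl ⟨⟨s, h⟩, hs⟩)⟩

lemma isRelIso_mapSplit [Finite S] (s₀ : S) : IsRelIso (mapSplit P s₀) := by
  classical
  refine IsRelIso.intro _ ?_ ?_ ?_
  · intro n f hf hf'
    apply hf
    rcases (mem_smash _).1 hf' with ⟨s, hs⟩ | h
    · exact ⟨s.1, hs⟩
    · exact ⟨s₀, h⟩
  · intro n f f' _ _ h
    apply Subtype.ext
    funext s
    have h1 : f.1 s₀ = f'.1 s₀ := congrArg (fun t => (Prod.fst t).1) h
    have h2 : ∀ s : Rest M S s₀, f.1 s.1 = f'.1 s.1 := fun s =>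
      congrArg (fun t => (Prod.snd t).1 s) h
    by_cases hs : s ∈ MulAction.orbit M s₀
    · obtain ⟨m, rfl⟩ := hs
      change f.1 (m • s₀) = f'.1 (m • s₀)
      rw [f.2, f'.2, h1]
    · exact h2 ⟨s, hs⟩
  · rintro n ⟨x, g⟩ hxg
    let F : S → P.X.obj n := fun s =>
      if hs : s ∈ MulAction.orbit M s₀ then (P.act hs.choose).app n x.1 else g.1 ⟨s, hs⟩
    have hF0 : ∀ m : M, F (m • s₀) = (P.act m).app n x.1 := by
      intro m
      have hs : m • s₀ ∈ MulAction.orbit M s₀ := ⟨m, rfl⟩
      have h1 : F (m • s₀) = (P.act hs.choose).app n x.1 := dif_pos hs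
      have h2 : hs.choose • s₀ = m • s₀ := hs.choose_spec
      rw [h1]
      have h3 : m⁻¹ * hs.choose ∈ MulAction.stabilizer M s₀ := by
        rw [MulAction.mem_stabilizer_iff, mul_smul, h2, inv_smul_smul]
      have h4 : (P.act (m⁻¹ * hs.choose)).app n x.1 = x.1 := x.2 _ h3
      conv_rhs => rw [← h4]
      rw [← P.act_mul, mul_inv_cancel_left]
    have hF1 : ∀ s : Rest M S s₀, F s.1 = g.1 s := fun s => dif_neg s.2
    have hF : F ∈ (equivMaps P S).obj n := by
      intro m s
      by_cases hs : s ∈ MulAction.orbit M s₀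
      · obtain ⟨m', rfl⟩ := hs
        change F (m • m' • s₀) = (P.act m).app n (F (m' • s₀))
        rw [← mul_smul, hF0, hF0, P.act_mul]
      · let t : Rest M S s₀ := ⟨s, hs⟩
        have h1 : F s = g.1 t := hF1 t
        have h2 : F (m • s) = g.1 (m • t) := hF1 (m • t)
        rw [h1, h2]
        exact g.2 m t
    refine ⟨⟨F, hF⟩, ?_, ?_⟩
    · rintro ⟨s, hs⟩
      apply hxg
      by_cases h : s ∈ MulAction.orbit M s₀
      · obtain ⟨m, rfl⟩ := h
        refine (mem_smash _).2 (Or.inr ?_)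
        change F (m • s₀) ∈ _ at hs
        rw [hF0, P.act_mem_iff] at hs
        exact hs
      · refine (mem_smash _).2 (Or.inl ⟨⟨s, h⟩, ?_⟩)
        change F s ∈ _ at hs
        have h1 := hF1 ⟨s, h⟩
        change F s = _ at h1
        rwa [h1] at hs
    · refine Prod.ext ?_ ?_
      · apply Subtype.ext
        change F s₀ = x.1
        have := hF0 1
        rw [one_smul, P.act_one] at this
        exact this
      · apply Subtype.ext
        funext s
        exact hF1 s

/-- Evaluation of equivariant maps at a point, as a map of pairs, for a transitive action. -/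
def mapEval [Finite S] (s₀ : S) (hs₀ : ∀ s : S, ∃ m : M, m • s₀ = s) :
    mapPair P S ⟶ P.fixed (MulAction.stabilizer M s₀) :=
  ⟨evalFix P s₀, by
    rintro n f ⟨s, hs⟩
    obtain ⟨m, rfl⟩ := hs₀ s
    change f.1 s₀ ∈ P.A.obj n
    rw [← P.act_mem_iff m, ← f.2 m s₀]
    exact hs⟩

lemma isRelIso_mapEval [Finite S] (s₀ : S) (hs₀ : ∀ s : S, ∃ m : M, m • s₀ = s) :
    IsRelIso (mapEval P s₀ hs₀) := by
  refine IsRelIso.intro _ ?_ ?_ ?_
  · intro n f hf hf'
    exact hf ⟨s₀, hf'⟩
  · intro n f f' _ _ h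
    apply Subtype.ext
    funext s
    have h1 : f.1 s₀ = f'.1 s₀ := congrArg Subtype.val h
    obtain ⟨m, rfl⟩ := hs₀ s
    rw [f.2, f'.2, h1]
  · intro n x hx
    have hs₁ := hs₀
    choose φ hφ using hs₁
    let F : S → P.X.obj n := fun s => (P.act (φ s)).app n x.1
    have hF0 : ∀ m : M, F (m • s₀) = (P.act m).app n x.1 := by
      intro m
      have h3 : m⁻¹ * φ (m • s₀) ∈ MulAction.stabilizer M s₀ := by
        rw [MulAction.mem_stabilizer_iff, mul_smul, hφ, inv_smul_smul]
      have h4 : (P.act (m⁻¹ * φ (m • s₀))).app n x.1 = x.1 := x.2 _ h3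
      change (P.act (φ (m • s₀))).app n x.1 = _
      conv_rhs => rw [← h4]
      rw [← P.act_mul, mul_inv_cancel_left]
    have hF : F ∈ (equivMaps P S).obj n := by
      intro m s
      rw [← hφ s, ← mul_smul, hF0, hF0, P.act_mul]
    have hF2 : F s₀ = x.1 := by
      have := hF0 1
      rwa [one_smul, P.act_one] at this
    refine ⟨⟨F, hF⟩, ?_, Subtype.ext hF2⟩
    rintro ⟨s, hs⟩
    apply hx
    rw [← hφ s] at hs
    change F _ ∈ _ at hs
    rw [hF0, P.act_mem_iff] at hs
    exact hs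

/-- If the fixed points of the stabilizer are acyclic, so is the pair of equivariant maps. -/
theorem AcClass.mapPair_mem {C : FinPair → Prop} (hC : AcClass C) [Finite S] (s₀ : S)
    (h : C (P.fixed (MulAction.stabilizer M s₀))) : C (mapPair P S) :=
  (hC.relIso _ (isRelIso_mapSplit P s₀)).2 (hC.smash_mem _ h _)

end MapPair

end Vale.Agent.P241
end

section

open CategoryTheory MonoidalCategory CartesianMonoidalCategory Simplicial Opposite

namespace Vale.Agent.P241

open FinPair

section Comap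

variable {M K : Type} [Group M] [Group K]

/-- Restriction of the action along a group homomorphism. -/
def GPair.comap (φ : M →* K) (P : GPair K) : GPair M :=
  ⟨P.X, P.A, P.fin, P.act.comp φ, fun m => P.stable (φ m)⟩

lemma GPair.fix_comap (φ : M →* K) (P : GPair K) (L : Subgroup M) :
    (P.comap φ).fix L = P.fix (L.map φ) := by
  ext n x
  constructor
  · rintro hx _ ⟨m, hm, rfl⟩
    exact hx m hm
  · intro hx m hm
    exact hx (φ m) ⟨m, hm, rfl⟩

lemma GPair.fixed_comap (φ : M →* K) (P : GPair K) (L : Subgroup M) :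
    (P.comap φ).fixed L = P.fixed (L.map φ) := by
  have h : (P.comap φ).fix L = P.fix (L.map φ) := P.fix_comap φ L
  have key : ∀ B : P.X.Subcomplex, B = P.fix (L.map φ) →
      (⟨B.toSSet, P.A.preimage B.ι, inferInstance⟩ : FinPair) = P.fixed (L.map φ) := by
    rintro _ rfl
    rfl
  exact key _ h

end Comap

section Coind

variable {G : Type} [Group G] (K : Subgroup G) (P : GPair K)

/-- Right translation on equivariant maps. -/
def rightTrans (g : G) : (equivMaps P G).toSSet ⟶ (equivMaps P G).toSSet :=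
  SSet.Subcomplex.lift ((equivMaps P G).ι ≫ powX.reindex P.X (fun x : G => x * g)) (by
    rintro n _ ⟨f, rfl⟩ m s
    change f.1 ((m • s) * g) = (P.act m).app n (f.1 (s * g))
    rw [← f.2 m (s * g)]
    exact congrArg f.1 (mul_assoc _ _ _))

/-- The coinduced pair (norm). -/
def norm [Finite G] : GPair G where
  X := (equivMaps P G).toSSet
  A := (mapPair P G).A
  fin := inferInstance
  act := {
    toFun := rightTrans K P
    map_one' := by
      refine NatTrans.ext (funext fun n => ?_)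
      ext f
      apply Subtype.ext
      funext s
      exact congrArg f.1 (mul_one s)
    map_mul' g g' := by
      refine NatTrans.ext (funext fun n => ?_)
      ext f
      apply Subtype.ext
      funext s
      exact congrArg f.1 (mul_assoc s g g').symm }
  stable g := by
    rintro n f ⟨s, hs⟩
    refine ⟨s * g⁻¹, ?_⟩
    change f.1 (s * g⁻¹ * g) ∈ P.A.obj n
    rwa [inv_mul_cancel_right]

/-- The group `G` as a `K × H`-set. -/
def Bi (_K _H : Subgroup G) : Type := G

instance (H : Subgroup G) : MulAction (K × H) (Bi K H) where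
  smul m s := ((m.1 : G) * (show G from s) * (m.2 : G)⁻¹ : G)
  one_smul s := by
    have h : ∀ x : G, (((1 : K) : G) * x * (((1 : H) : G))⁻¹ : G) = x := by
      intro x
      simp
    exact h s
  mul_smul m m' s := by
    have h : ∀ x : G, (((m * m').1 : G) * x * (((m * m').2 : H) : G)⁻¹ : G) =
      ((m.1 : G) * ((m'.1 : G) * x * (m'.2 : G)⁻¹) * (m.2 : G)⁻¹ : G) := by
      intro x
      simp [mul_assoc]
    exact h s

instance [Finite G] (H : Subgroup G) : Finite (Bi K H) := inferInstanceAs (Finite G)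

lemma bi_smul_def (H : Subgroup G) (m : K × H) (s : Bi K H) :
    m • s = ((m.1 : G) * (show G from s) * (m.2 : G)⁻¹ : G) := rfl

/-- The comparison map. -/
def normFixed [Finite G] (H : Subgroup G) :
    (norm K P).fixed H ⟶ mapPair (P.comap (MonoidHom.fst K H)) (Bi K H) :=
  ⟨SSet.Subcomplex.lift (((norm K P).fix H).ι ≫ (equivMaps P G).ι) (by
    rintro n _ ⟨f, rfl⟩ m s
    change f.1.1 ((m.1 : G) * (show G from s) * (m.2 : G)⁻¹) = (P.act m.1).app n (f.1.1 s)
    have h1 := congrArg (fun t => t.1 ((m.1 : G) * (show G from s))) (f.2 _ (inv_mem m.2.2))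
    change f.1.1 ((m.1 : G) * (show G from s) * (m.2 : G)⁻¹) =
      f.1.1 ((m.1 : G) * (show G from s)) at h1
    rw [h1]
    exact f.1.2 m.1 s), by
    rintro n f ⟨s, hs⟩
    exact ⟨s, hs⟩⟩

lemma isRelIso_normFixed [Finite G] (H : Subgroup G) : IsRelIso (normFixed K P H) := by
  refine IsRelIso.intro _ ?_ ?_ ?_
  · rintro n f hf ⟨s, hs⟩
    exact hf ⟨s, hs⟩
  · intro n f f' _ _ h
    have h' := congrArg Subtype.val h
    exact Subtype.ext (Subtype.ext h')
  · intro n f hf
    have h1 : ∀ (k : K) (h : H) (s : G), f.1 ((k : G) * s * (h : G)⁻¹ : G) =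
        (P.act k).app n (f.1 s) := fun k h s => f.2 (k, h) s
    have h2 : (show G → P.X.obj n from f.1) ∈ (equivMaps P G).obj n := by
      intro k s
      have := h1 k 1 s
      rw [OneMemClass.coe_one, inv_one, mul_one] at this
      exact this
    refine ⟨⟨⟨f.1, h2⟩, ?_⟩, ?_, rfl⟩
    · intro h hh
      apply Subtype.ext
      funext s
      change f.1 (s * h) = f.1 s
      have h3 := (h1 1 (⟨h, hh⟩⁻¹) s).trans (P.act_one n _)
      rw [OneMemClass.coe_one, one_mul, InvMemClass.coe_inv, inv_inv] at h3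
      exact h3
    · rintro ⟨s, hs⟩
      exact hf ⟨s, hs⟩

lemma map_stabilizer (H : Subgroup G) (g : G) :
    (MulAction.stabilizer (K × H) (show Bi K H from g)).map (MonoidHom.fst K H) =
      (H.map (MulAut.conj g).toMonoidHom).subgroupOf K := by
  ext k
  constructor
  · rintro ⟨m, hm, rfl⟩
    have h1 : (m.1 : G) * g * (m.2 : G)⁻¹ = g := hm
    rw [Subgroup.mem_subgroupOf]
    refine ⟨m.2, m.2.2, ?_⟩
    change g * (m.2 : G) * g⁻¹ = (m.1 : G)
    rw [mul_inv_eq_iff_eq_mul] at h1
    rw [← h1]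
    group
  · intro hk
    rw [Subgroup.mem_subgroupOf] at hk
    obtain ⟨h, hh, hk⟩ := hk
    refine ⟨(k, ⟨h, hh⟩), ?_, rfl⟩
    change (k : G) * g * h⁻¹ = g
    have h2 : g * h * g⁻¹ = (k : G) := hk
    rw [← h2]
    group

variable {K P}

/-- The `H`-fixed points of the norm are acyclic as soon as those of one conjugate are. -/
theorem AcClass.norm_fixed {C : FinPair → Prop} (hC : AcClass C) [Finite G] (H : Subgroup G)
    (g : G) (h : C (P.fixed ((H.map (MulAut.conj g).toMonoidHom).subgroupOf K))) :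
    C ((norm K P).fixed H) := by
  refine (hC.relIso _ (isRelIso_normFixed K P H)).2 (hC.mapPair_mem _ (show Bi K H from g) ?_)
  rw [GPair.fixed_comap, map_stabilizer]
  exact h

/-- The `G`-fixed points of the norm are the `K`-fixed points of the given pair. -/
theorem AcClass.norm_top {C : FinPair → Prop} (hC : AcClass C) [Finite G]
    (h : C ((norm K P).fixed ⊤)) : C (P.fixed ⊤) := by
  have h1 := (hC.relIso _ (isRelIso_normFixed K P ⊤)).1 h
  have h2 : ∀ s : Bi K (⊤ : Subgroup G), ∃ m : K × (⊤ : Subgroup G),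
      m • (show Bi K (⊤ : Subgroup G) from (1 : G)) = s := by
    intro s
    refine ⟨(1, ⟨(show G from s)⁻¹, trivial⟩), ?_⟩
    rw [bi_smul_def]
    have h5 : ∀ x : G, (((1 : K) : G) * 1 * (x⁻¹)⁻¹ : G) = x := by
      intro x
      simp
    exact h5 s
  have h3 := (hC.relIso _ (isRelIso_mapEval _ _ h2)).1 h1
  rw [GPair.fixed_comap, map_stabilizer] at h3
  have h4 : ((⊤ : Subgroup G).map (MulAut.conj (1 : G)).toMonoidHom).subgroupOf K = ⊤ := by
    ext k
    simp
  rwa [h4] at h3

end Coind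

/-- **Norm inequality**, admissible form. -/
theorem Admissible.normIneq {E : ℕ → HomologyTheory} {G : Type} [Group G] [Finite G]
    {H : Subgroup G} {n r : ℕ} (h : Admissible E G H n r) (K : Subgroup G) (g : G) :
    Admissible E K ((H.map (MulAut.conj g).toMonoidHom).subgroupOf K) n r := by
  intro P hP
  exact (E n).acClass.norm_top (h (norm K P) ((E (n + r)).acClass.norm_fixed H g hP))

/-- **Norm inequality** for the fixed-point loss. -/
theorem loss_norm_le (E : ℕ → HomologyTheory) (G : Type) [Group G] [Finite G]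
    (H K : Subgroup G) (g : G) (n : ℕ) :
    loss E K ((H.map (MulAut.conj g).toMonoidHom).subgroupOf K) n ≤ loss E G H n := by
  apply sInf_le_sInf
  rintro _ ⟨r, hr, rfl⟩
  exact ⟨r, Admissible.normIneq hr K g, rfl⟩

end Vale.Agent.P241
end

section

open CategoryTheory MonoidalCategory CartesianMonoidalCategory Simplicial Opposite

namespace Vale.Agent.P241

open FinPair

section Quot

variable {G : Type} [Group G] (P : GPair G) (N : Subgroup G) [hN : N.Normal]

/-- The action of `G` on the `N`-fixed points. -/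
def actFix (g : G) : (P.fix N).toSSet ⟶ (P.fix N).toSSet :=
  SSet.Subcomplex.lift ((P.fix N).ι ≫ P.act g) (by
    rintro n _ ⟨x, rfl⟩ h hh
    change (P.act h).app n ((P.act g).app n x.1) = (P.act g).app n x.1
    rw [← P.act_mul]
    have h1 : h * g = g * (g⁻¹ * h * g⁻¹⁻¹) := by group
    have h2 : (P.act (g⁻¹ * h * g⁻¹⁻¹)).app n x.1 = x.1 := x.2 _ (hN.conj_mem h hh g⁻¹)
    rw [h1, P.act_mul, h2])

/-- The action of `G` on the `N`-fixed points, as a homomorphism. -/
def actFixHom : G →* End (P.fix N).toSSet where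
  toFun := actFix P N
  map_one' := by
    refine NatTrans.ext (funext fun n => ?_)
    ext x
    exact Subtype.ext (P.act_one n x.1)
  map_mul' g g' := by
    refine NatTrans.ext (funext fun n => ?_)
    ext x
    exact Subtype.ext (P.act_mul g g' n x.1)

/-- The `G / N`-pair of `N`-fixed points. -/
def quotPair : GPair (G ⧸ N) where
  X := (P.fix N).toSSet
  A := P.A.preimage (P.fix N).ι
  fin := inferInstance
  act := QuotientGroup.lift N (actFixHom P N) (by
    intro h hh
    refine NatTrans.ext (funext fun n => ?_)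
    ext x
    exact Subtype.ext (x.2 h hh))
  stable q := by
    induction q using QuotientGroup.induction_on with
    | H g =>
      intro n x hx
      exact P.stable g n hx

/-- The comparison of the two ways of forming the `H`-fixed points. -/
def quotFixed (H : Subgroup G) (hNH : N ≤ H) :
    P.fixed H ⟶ (quotPair P N).fixed (H.map (QuotientGroup.mk' N)) :=
  ⟨SSet.Subcomplex.lift (SSet.Subcomplex.homOfLE (fun n x hx h hh => hx h (hNH hh)) :
      (P.fix H).toSSet ⟶ (P.fix N).toSSet) (by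
    rintro n _ ⟨x, rfl⟩ _ ⟨h, hh, rfl⟩
    exact Subtype.ext (x.2 h hh)), fun n x hx => hx⟩

lemma isRelIso_quotFixed (H : Subgroup G) (hNH : N ≤ H) : IsRelIso (quotFixed P N H hNH) := by
  refine IsRelIso.intro _ ?_ ?_ ?_
  · intro n x hx hx'
    exact hx hx'
  · intro n x y _ _ h
    have h' := congrArg (fun t => t.1.1) h
    exact Subtype.ext h'
  · intro n y hy
    refine ⟨⟨y.1.1, fun h hh => ?_⟩, fun h => hy h, rfl⟩
    exact congrArg Subtype.val (y.2 (QuotientGroup.mk' N h) ⟨h, hh, rfl⟩)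

end Quot

section Admissible

variable {E : ℕ → HomologyTheory}

lemma Admissible.of_surjective {G Q : Type} [Group G] [Group Q] (φ : G →* Q)
    (hφ : Function.Surjective φ) {H : Subgroup G} {n r : ℕ} (h : Admissible E G H n r) :
    Admissible E Q (H.map φ) n r := by
  intro P hP
  have h1 := h (P.comap φ)
  rw [GPair.fixed_comap, GPair.fixed_comap, Subgroup.map_top_of_surjective φ hφ] at h1
  exact h1 hP

lemma Admissible.of_quotient {G : Type} [Group G] (N : Subgroup G) [N.Normal] {H : Subgroup G}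
    (hNH : N ≤ H) {n r : ℕ} (h : Admissible E (G ⧸ N) (H.map (QuotientGroup.mk' N)) n r) :
    Admissible E G H n r := by
  intro P hP
  have h1 := h (quotPair P N)
    ((((E (n + r)).acClass).relIso _ (isRelIso_quotFixed P N H hNH)).1 hP)
  rw [← Subgroup.map_top_of_surjective (QuotientGroup.mk' N) (QuotientGroup.mk'_surjective N)] at h1
  exact (((E n).acClass).relIso _ (isRelIso_quotFixed P N ⊤ le_top)).2 h1

/-- The loss only depends on the quotient by a normal subgroup contained in `H`. -/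
theorem loss_quotient {G : Type} [Group G] (N : Subgroup G) [N.Normal] {H : Subgroup G}
    (hNH : N ≤ H) (n : ℕ) :
    loss E (G ⧸ N) (H.map (QuotientGroup.mk' N)) n = loss E G H n := by
  unfold loss
  congr 2
  ext r
  exact ⟨fun h => Admissible.of_quotient N hNH h,
    fun h => Admissible.of_surjective _ (QuotientGroup.mk'_surjective N) h⟩

lemma Admissible.trans {G : Type} [Group G] {H K : Subgroup G} (hHK : H ≤ K) {n r s : ℕ}
    (h : Admissible E G K n r) (h' : Admissible E K (H.subgroupOf K) (n + r) s) :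
    Admissible E G H n (r + s) := by
  intro P hP
  apply h P
  have h1 := h' (P.comap K.subtype)
  rw [GPair.fixed_comap, GPair.fixed_comap] at h1
  have h2 : (⊤ : Subgroup K).map K.subtype = K := by
    ext x
    simp
  have h3 : (H.subgroupOf K).map K.subtype = H := by
    rw [Subgroup.subgroupOf_map_subtype, inf_eq_left.2 hHK]
  rw [h2, h3, add_assoc] at h1
  exact h1 hP

end Admissible

end Vale.Agent.P241
end

section

open CategoryTheory MonoidalCategory CartesianMonoidalCategory Simplicial Opposite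

namespace Vale.Agent.P241

open FinPair

/-- The Smith implication for two classes of acyclic pairs. -/
def Adm (C C' : FinPair → Prop) (G : Type) [Group G] (H : Subgroup G) : Prop :=
  ∀ P : GPair G, C (P.fixed H) → C' (P.fixed ⊤)

variable {C C' : FinPair → Prop}

theorem Adm.normIneq (hC : AcClass C) (hC' : AcClass C') {G : Type} [Group G] [Finite G]
    {H : Subgroup G} (h : Adm C C' G H) (K : Subgroup G) (g : G) :
    Adm C C' K ((H.map (MulAut.conj g).toMonoidHom).subgroupOf K) := by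
  intro P hP
  exact hC'.norm_top (h (norm K P) (hC.norm_fixed H g hP))

lemma Adm.of_surjective {G Q : Type} [Group G] [Group Q] (φ : G →* Q)
    (hφ : Function.Surjective φ) {H : Subgroup G} (h : Adm C C' G H) :
    Adm C C' Q (H.map φ) := by
  intro P hP
  have h1 := h (P.comap φ)
  rw [GPair.fixed_comap, GPair.fixed_comap, Subgroup.map_top_of_surjective φ hφ] at h1
  exact h1 hP

lemma Adm.of_quotient (hC : AcClass C) (hC' : AcClass C') {G : Type} [Group G]
    (N : Subgroup G) [N.Normal] {H : Subgroup G}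
    (hNH : N ≤ H) (h : Adm C C' (G ⧸ N) (H.map (QuotientGroup.mk' N))) : Adm C C' G H := by
  intro P hP
  have h1 := h (quotPair P N) ((hC.relIso _ (isRelIso_quotFixed P N H hNH)).1 hP)
  rw [← Subgroup.map_top_of_surjective (QuotientGroup.mk' N) (QuotientGroup.mk'_surjective N)] at h1
  exact (hC'.relIso _ (isRelIso_quotFixed P N ⊤ le_top)).2 h1

/-- The general norm inequality: pulling back along an arbitrary homomorphism. -/
theorem Adm.comap (hC : AcClass C) (hC' : AcClass C') {G L : Type} [Group G] [Finite G] [Group L]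
    {H : Subgroup G} (h : Adm C C' G H) (φ : L →* G) : Adm C C' L (H.comap φ) := by
  have h1 := h.normIneq hC hC' φ.range 1
  have h2 : (H.map (MulAut.conj (1 : G)).toMonoidHom) = H := by
    ext x
    constructor
    · rintro ⟨y, hy, rfl⟩
      simpa using hy
    · intro hx
      exact ⟨x, hx, by simp⟩
  rw [h2] at h1
  have h3 : φ.ker ≤ H.comap φ := by
    intro x hx
    rw [Subgroup.mem_comap, MonoidHom.mem_ker.1 hx]
    exact one_mem H
  apply Adm.of_quotient hC hC' φ.ker h3
  let e : φ.range →* L ⧸ φ.ker := (QuotientGroup.quotientKerEquivRange φ).symm.toMonoidHom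
  have he : Function.Surjective e := (QuotientGroup.quotientKerEquivRange φ).symm.surjective
  have h4 := h1.of_surjective e he
  have h5 : (H.subgroupOf φ.range).map e = (H.comap φ).map (QuotientGroup.mk' φ.ker) := by
    ext q
    obtain ⟨x, rfl⟩ := QuotientGroup.mk'_surjective _ q
    constructor
    · rintro ⟨y, hy, hyx⟩
      have h6 : y = QuotientGroup.quotientKerEquivRange φ (QuotientGroup.mk' φ.ker x) := by
        rw [← hyx]
        exact ((QuotientGroup.quotientKerEquivRange φ).apply_symm_apply y).symm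
      refine ⟨x, ?_, rfl⟩
      have h7 : (y : G) = φ x := by
        rw [h6]
        rfl
      change φ x ∈ H
      rw [← h7]
      exact hy
    · rintro ⟨y, hy, hyx⟩
      rw [← hyx]
      refine ⟨⟨φ y, y, rfl⟩, hy, ?_⟩
      change (QuotientGroup.quotientKerEquivRange φ).symm _ = _
      rw [MulEquiv.symm_apply_eq]
      rfl
  rwa [h5] at h4

lemma Adm.of_step (hC : AcClass C) (hC' : AcClass C') {G : Type} [Group G] {A B : Subgroup G}
    (hAB : A ≤ B) [hN : (A.subgroupOf B).Normal]
    (h : Adm C C' (B ⧸ A.subgroupOf B) ⊥) (P : GPair G)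
    (hP : C (P.fixed A)) : C' (P.fixed B) := by
  have h1 : Adm C C' B (A.subgroupOf B) := by
    apply Adm.of_quotient hC hC' (A.subgroupOf B) le_rfl
    rwa [QuotientGroup.map_mk'_self]
  have h2 := h1 (P.comap B.subtype)
  rw [GPair.fixed_comap, GPair.fixed_comap] at h2
  have h3 : (⊤ : Subgroup B).map B.subtype = B := by
    ext x
    simp
  have h4 : (A.subgroupOf B).map B.subtype = A := by
    rw [Subgroup.subgroupOf_map_subtype, inf_eq_left.2 hAB]
  rw [h3, h4] at h2
  exact h2 hP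

end Vale.Agent.P241
end

section

open CategoryTheory MonoidalCategory CartesianMonoidalCategory Simplicial Opposite

namespace Vale.Agent.P241.Lite

variable {G : Type} [Group G]

/-- The comparison of two models of the fixed points. -/
noncomputable def fixComp {X : GCx G} {H : Subgroup G} {Y Z : BSS} {i : Map Y X.toBSS}
    {k : Map Z X.toBSS} (hi : IsFix X H i) (hk : IsFix X H k) : Map Y Z where
  f {n} y := (((hk n).2 (i.f y)).1 (((hi n).2 (i.f y)).2 ⟨y, rfl⟩)).choose
  f_pt n := by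
    apply (hk n).1
    rw [(((hk n).2 (i.f (Y.pt n))).1 (((hi n).2 (i.f (Y.pt n))).2 ⟨Y.pt n, rfl⟩)).choose_spec,
      i.f_pt, k.f_pt]
  f_op {m n} a y := by
    apply (hk m).1
    rw [(((hk m).2 (i.f (Y.op a y))).1 (((hi m).2 (i.f (Y.op a y))).2 ⟨_, rfl⟩)).choose_spec,
      k.f_op, (((hk n).2 (i.f y)).1 (((hi n).2 (i.f y)).2 ⟨y, rfl⟩)).choose_spec, i.f_op]

lemma fixComp_spec {X : GCx G} {H : Subgroup G} {Y Z : BSS} {i : Map Y X.toBSS}
    {k : Map Z X.toBSS} (hi : IsFix X H i) (hk : IsFix X H k) {n : ℕ} (y : Y.S n) :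
    k.f ((fixComp hi hk).f y) = i.f y :=
  (((hk n).2 (i.f y)).1 (((hi n).2 (i.f y)).2 ⟨y, rfl⟩)).choose_spec

lemma fixAcyclic_iff (E : Homology) {X : GCx G} {H : Subgroup G} {Y : BSS} {i : Map Y X.toBSS}
    (hi : IsFix X H i) : FixAcyclic E X H ↔ E.Acyclic Y := by
  constructor
  · intro h
    exact h Y i hi
  · intro h Z k hk
    refine (E.acyclic_iff_of_bijective (fixComp hi hk) ?_).1 h
    intro n
    constructor
    · intro y y' hyy
      apply (hi n).1
      rw [← fixComp_spec hi hk, ← fixComp_spec hi hk, hyy]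
    · intro z
      refine ⟨(fixComp hk hi).f z, ?_⟩
      apply (hk n).1
      rw [fixComp_spec, fixComp_spec]

/-! ### From pairs to based complexes -/

/-- Morphisms of the simplex category as monotone maps. -/
def opOf {n m : SimplexCategoryᵒᵖ} (f : n ⟶ m) : Op m.unop.len n.unop.len := f.unop.toOrderHom

lemma act_pair_le (P : GPair G) (g : G) : P.A ≤ P.A.preimage (P.act g) := P.stable g

/-- The based complex `X / A`. -/
noncomputable def gcollapse (P : GPair G) : GCx G where
  toBSS := collapse P.X P.A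
  act g := cmap (P.act g) (act_pair_le P g)
  act_one n z := by
    rcases eq_pr z with rfl | ⟨x, hx, rfl⟩
    · rw [Map.f_pt]
    · rw [cmap_pr, P.act_one]
  act_mul g h n z := by
    rcases eq_pr z with rfl | ⟨x, hx, rfl⟩
    · rw [Map.f_pt, Map.f_pt, Map.f_pt]
    · rw [cmap_pr, cmap_pr, cmap_pr, P.act_mul]

lemma gcollapse_isFin (P : GPair G) : (gcollapse P).IsFin := by
  constructor
  · intro n
    change Finite (Option {x : P.X.obj (op ⦋n⦌) // x ∉ P.A.obj (op ⦋n⦌)})
    infer_instance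
  · obtain ⟨d, hd⟩ := P.X.hasDimensionLT_of_finite
    refine ⟨d, ?_⟩
    intro n z
    change ∃ k ≤ d, ∃ (a : Op n k) (y : (collapse P.X P.A).S k), (collapse P.X P.A).op a y = z
    rcases eq_pr z with rfl | ⟨x, hx, rfl⟩
    · exact ⟨0, Nat.zero_le _, ⟨fun _ => 0, fun _ _ _ => le_rfl⟩, _, BSS.op_pt _ _⟩
    · obtain ⟨m, f, hf, y, rfl⟩ := P.X.exists_nonDegenerate x
      refine ⟨m, ?_, opOf f.op, pr P.A y.1, ?_⟩
      · by_contra hm
        have h1 := P.X.degenerate_eq_univ_of_hasDimensionLT d m (by omega)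
        exact y.2 (h1 ▸ Set.mem_univ _)
      · rw [op_pr]
        rfl

lemma fixed_le (P : GPair G) (H : Subgroup G) :
    P.A.preimage (P.fix H).ι ≤ P.A.preimage (P.fix H).ι := le_rfl

/-- The map `X^H / A^H → X / A`. -/
noncomputable def fixMap (P : GPair G) (H : Subgroup G) :
    Map (collapse (P.fix H).toSSet (P.A.preimage (P.fix H).ι)) (collapse P.X P.A) :=
  cmap (P.fix H).ι (fixed_le P H)

lemma fixMap_pr (P : GPair G) (H : Subgroup G) {n : ℕ} (x : (P.fix H).toSSet.obj (op ⦋n⦌)) :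
    (fixMap P H).f (pr (P.A.preimage (P.fix H).ι) x) = pr P.A x.1 :=
  cmap_pr (P.fix H).ι (fixed_le P H) x

lemma isFix_aux (P : GPair G) (H : Subgroup G) (n : ℕ) :
    (∀ a b : (collapse (P.fix H).toSSet (P.A.preimage (P.fix H).ι)).S n,
      (fixMap P H).f a = (fixMap P H).f b → a = b) ∧
    ∀ x : (collapse P.X P.A).S n,
      (∀ g ∈ H, (cmap (P.act g) (act_pair_le P g)).f x = x) ↔ ∃ y, (fixMap P H).f y = x := by
  constructor
  · intro z w hzw
    rcases eq_pr z with rfl | ⟨x, hx, rfl⟩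
    · rcases eq_pr w with rfl | ⟨y, hy, rfl⟩
      · rfl
      · rw [Map.f_pt, fixMap_pr] at hzw
        exact absurd (pr_eq_pt.1 hzw.symm) hy
    · rcases eq_pr w with rfl | ⟨y, hy, rfl⟩
      · rw [Map.f_pt, fixMap_pr] at hzw
        exact absurd (pr_eq_pt.1 hzw) hx
      · rw [fixMap_pr, fixMap_pr] at hzw
        have h5 := (pr_eq_pr (A := P.A) hx).1 hzw
        exact congrArg (pr _) (Subtype.ext h5)
  · intro z
    rcases eq_pr z with rfl | ⟨x, hx, rfl⟩
    · exact ⟨fun _ => ⟨_, Map.f_pt _ n⟩, fun _ g _ => Map.f_pt _ n⟩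
    · constructor
      · intro h
        have h1 : x ∈ (P.fix H).obj (op ⦋n⦌) := by
          intro g hg
          have h2 := h g hg
          rw [cmap_pr, eq_comm, pr_eq_pr hx] at h2
          exact h2.symm
        let x' : (P.fix H).toSSet.obj (op ⦋n⦌) := ⟨x, h1⟩
        exact ⟨pr (P.A.preimage (P.fix H).ι) x', fixMap_pr P H x'⟩
      · rintro ⟨w, hw⟩ g hg
        rcases eq_pr w with rfl | ⟨y, hy, rfl⟩
        · rw [Map.f_pt] at hw
          exact absurd (pr_eq_pt.1 hw.symm) hx
        · rw [fixMap_pr] at hw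
          have h5 := (pr_eq_pr (A := P.A) hx).1 hw.symm
          rw [cmap_pr, h5]
          exact congrArg _ (y.2 g hg)

lemma isFix_collapse (P : GPair G) (H : Subgroup G) :
    IsFix (gcollapse P) H (fixMap P H) := isFix_aux P H

lemma fixAcyclic_gcollapse (E : Homology) (P : GPair G) (H : Subgroup G) :
    FixAcyclic E (gcollapse P) H ↔ cls E (P.fixed H) :=
  fixAcyclic_iff E (isFix_collapse P H)

/-! ### From based complexes to pairs -/

/-- The simplicial set of a based simplicial set. -/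
def toSS (X : BSS) : SSet.{0} where
  obj n := X.S n.unop.len
  map f := ↾(X.op (opOf f))
  map_id n := by
    ext x
    exact X.op_id x
  map_comp f g := by
    ext x
    exact X.op_comp _ _ x

/-- The base point. -/
def ptSub (X : BSS) : (toSS X).Subcomplex where
  obj n := {x | x = X.pt n.unop.len}
  map {n m} f x hx := by
    have hx' : x = X.pt _ := hx
    subst hx'
    exact X.op_pt (opOf f)

lemma toSS_finite (X : BSS) (hX : X.IsFin) : (toSS X).Finite := by
  obtain ⟨h1, d, hd⟩ := hX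
  have : (toSS X).HasDimensionLT (d + 1) := by
    constructor
    intro n hn
    ext x
    simp only [Set.top_eq_univ, Set.mem_univ, iff_true]
    obtain ⟨k, hk, a, y, hy⟩ := hd n x
    exact ⟨k, by omega, SimplexCategory.Hom.mk a, y, hy⟩
  refine SSet.finite_of_hasDimensionLT _ (d + 1) fun i _ => ?_
  have : Finite ((toSS X).obj (op ⦋i⦌)) := h1 i
  infer_instance

/-- A map of based simplicial sets as a map of simplicial sets. -/
def toSSMap {X Y : BSS} (f : Map X Y) : toSS X ⟶ toSS Y where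
  app n := ↾fun x => f.f x
  naturality n m g := by
    ext x
    exact f.f_op _ x

/-- The pair of a based complex. -/
def toPair (X : GCx G) (hX : X.IsFin) : GPair G where
  X := toSS X.toBSS
  A := ptSub X.toBSS
  fin := toSS_finite _ hX
  act :=
    { toFun := fun g => toSSMap (X.act g)
      map_one' := by
        apply NatTrans.ext
        funext n
        ext x
        exact X.act_one _ x
      map_mul' := fun g h => by
        apply NatTrans.ext
        funext n
        ext x
        exact X.act_mul g h _ x }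
  stable g n x hx := by
    change (X.act g).f x = _
    have hx' : x = X.pt _ := hx
    rw [hx', Map.f_pt]

/-- The underlying simplex. -/
def valS (X : GCx G) (hX : X.IsFin) (H : Subgroup G) {n : ℕ}
    (x : ((toPair X hX).fixed H).X.obj (op ⦋n⦌)) : X.S n := x.1

lemma valS_pt (X : GCx G) (hX : X.IsFin) (H : Subgroup G) {n : ℕ}
    (x : ((toPair X hX).fixed H).X.obj (op ⦋n⦌))
    (hx : x ∈ ((toPair X hX).fixed H).A.obj (op ⦋n⦌)) : valS X hX H x = X.pt n := hx

lemma valS_op (X : GCx G) (hX : X.IsFin) (H : Subgroup G) {m n : ℕ} (a : Op m n)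
    (x : ((toPair X hX).fixed H).X.obj (op ⦋n⦌)) :
    valS X hX H (((toPair X hX).fixed H).X.map (mor a).op x) = X.op a (valS X hX H x) := rfl

/-- The fixed points of `toPair X` inside `X`. -/
noncomputable def fixIncl (X : GCx G) (hX : X.IsFin) (H : Subgroup G) :
    Map (collapse ((toPair X hX).fixed H).X ((toPair X hX).fixed H).A) X.toBSS :=
  lift' X.toBSS (valS X hX H) (valS_pt X hX H) (valS_op X hX H)

lemma fixIncl_pr (X : GCx G) (hX : X.IsFin) (H : Subgroup G) {n : ℕ}
    (x : ((toPair X hX).fixed H).X.obj (op ⦋n⦌)) :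
    (fixIncl X hX H).f (pr ((toPair X hX).fixed H).A x) = x.1 :=
  lift'_pr X.toBSS (valS X hX H) (valS_pt X hX H) (valS_op X hX H) x

lemma isFix_fixIncl (X : GCx G) (hX : X.IsFin) (H : Subgroup G) :
    IsFix X H (fixIncl X hX H) := by
  intro n
  constructor
  · intro z w hzw
    rcases eq_pr z with rfl | ⟨x, hx, rfl⟩
    · rcases eq_pr w with rfl | ⟨y, hy, rfl⟩
      · rfl
      · rw [Map.f_pt, fixIncl_pr] at hzw
        exact absurd hzw.symm hy
    · rcases eq_pr w with rfl | ⟨y, hy, rfl⟩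
      · rw [Map.f_pt, fixIncl_pr] at hzw
        exact absurd hzw hx
      · rw [fixIncl_pr, fixIncl_pr] at hzw
        exact congrArg (pr _) (Subtype.ext hzw)
  · intro x
    constructor
    · intro h
      let x' : ((toPair X hX).fixed H).X.obj (op ⦋n⦌) := ⟨x, h⟩
      exact ⟨pr _ x', fixIncl_pr X hX H x'⟩
    · rintro ⟨w, hw⟩ g hg
      rcases eq_pr w with rfl | ⟨y, hy, rfl⟩
      · rw [Map.f_pt] at hw
        rw [← hw, Map.f_pt]
      · rw [fixIncl_pr] at hw
        rw [← hw]
        exact y.2 g hg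

lemma fixAcyclic_toPair (E : Homology) (X : GCx G) (hX : X.IsFin) (H : Subgroup G) :
    FixAcyclic E X H ↔ cls E ((toPair X hX).fixed H) :=
  fixAcyclic_iff E (isFix_fixIncl X hX H)

theorem smith_iff_adm (E F : Homology) (H : Subgroup G) :
    Smith E F H ↔ Adm (cls E) (cls F) G H := by
  constructor
  · intro h P hP
    rw [← fixAcyclic_gcollapse] at hP ⊢
    exact h _ (gcollapse_isFin P) hP
  · intro h X hX hE
    rw [fixAcyclic_toPair E X hX] at hE
    rw [fixAcyclic_toPair F X hX]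
    exact h _ hE

end Vale.Agent.P241.Lite
end

section

namespace Vale.Agent.P241

/-- There is a chain `A = c 0 ⊲ c 1 ⊲ ... ⊲ c s = B` with cyclic quotients. -/
def HasCyclicChain {G : Type} [Group G] (A B : Subgroup G) (s : ℕ) : Prop :=
  ∃ c : ℕ → Subgroup G, c 0 = A ∧ c s = B ∧ ∀ i < s, c i ≤ c (i + 1) ∧
    ∃ _ : ((c i).subgroupOf (c (i + 1))).Normal,
      IsCyclic (c (i + 1) ⧸ (c i).subgroupOf (c (i + 1)))

/-- The least length `ℓ(B, A)` of such a chain. -/
noncomputable def cycLen {G : Type} [Group G] (A B : Subgroup G) : ℕ :=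
  sInf {s | HasCyclicChain A B s}

end Vale.Agent.P241
end

section

namespace Vale.Agent.P241

variable {G : Type} [Group G]

lemma hasCyclicChain_cons {H K L : Subgroup G} {s : ℕ} (hHK : H ≤ K)
    [h : (H.subgroupOf K).Normal] (h' : IsCyclic (K ⧸ H.subgroupOf K))
    (hK : HasCyclicChain K L s) : HasCyclicChain H L (s + 1) := by
  obtain ⟨c, h0, hs, hc⟩ := hK
  refine ⟨fun i => Nat.casesOn i H c, rfl, hs, ?_⟩
  intro i hi
  cases i with
  | zero =>
    subst h0
    exact ⟨hHK, h, h'⟩
  | succ i => exact hc i (by omega)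

lemma exists_step {p : ℕ} [hp : Fact p.Prime] [Finite G] (hG : IsPGroup p G) {H : Subgroup G}
    {k : ℕ} (hk : H.index = p ^ (k + 1)) :
    ∃ K : Subgroup G, H ≤ K ∧ (∃ _ : (H.subgroupOf K).Normal, IsCyclic (K ⧸ H.subgroupOf K)) ∧
      K.index = p ^ k := by
  obtain ⟨a, ha⟩ := (hG.to_subgroup H).exists_card_eq
  have hcard : Nat.card G = p ^ (a + (k + 1)) := by
    rw [← H.card_mul_index, hk, ha, ← pow_add]
  obtain ⟨K, hK, hHK⟩ := Sylow.exists_subgroup_card_pow_succ (p := p) (n := a) (G := G)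
    (by rw [hcard]; exact pow_dvd_pow p (by omega)) ha
  have hp0 : 0 < p := hp.out.pos
  have hKi : K.index = p ^ k := by
    have h1 := K.card_mul_index
    rw [hK, hcard] at h1
    have h2 : p ^ (a + 1) * K.index = p ^ (a + 1) * p ^ k := by
      rw [h1, ← pow_add]
      congr 1
      ring
    exact Nat.eq_of_mul_eq_mul_left (pow_pos hp0 _) h2
  have hrel : (H.subgroupOf K).index = p := by
    have h1 := (H.subgroupOf K).card_mul_index
    have h2 : Nat.card (H.subgroupOf K) = Nat.card H :=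
      Nat.card_congr (Subgroup.subgroupOfEquivOfLe hHK).toEquiv
    rw [h2, ha, hK, pow_succ] at h1
    exact Nat.eq_of_mul_eq_mul_left (pow_pos hp0 _) h1
  have hnorm : (H.subgroupOf K).Normal := by
    apply Subgroup.normal_of_index_eq_minFac_card
    rw [hrel, hK, Nat.Prime.pow_minFac hp.out (by omega)]
  refine ⟨K, hHK, ⟨hnorm, ?_⟩, hKi⟩
  apply isCyclic_of_prime_card (p := p)
  rw [← hrel]
  rfl

lemma hasCyclicChain_of_index {p : ℕ} [Fact p.Prime] [Finite G] (hG : IsPGroup p G) (k : ℕ) :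
    ∀ H : Subgroup G, H.index = p ^ k → HasCyclicChain H ⊤ k := by
  induction k with
  | zero =>
    intro H hH
    rw [pow_zero, Subgroup.index_eq_one] at hH
    exact ⟨fun _ => H, rfl, hH, fun i hi => absurd hi (by omega)⟩
  | succ k ih =>
    intro H hH
    obtain ⟨K, hHK, ⟨h1, h2⟩, hK⟩ := exists_step hG hH
    exact hasCyclicChain_cons hHK h2 (ih K hK)

lemma cycLen_le_of_index {p : ℕ} [Fact p.Prime] [Finite G] (hG : IsPGroup p G) {k : ℕ}
    {H : Subgroup G} (hH : H.index = p ^ k) : cycLen H (⊤ : Subgroup G) ≤ k :=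
  Nat.sInf_le (hasCyclicChain_of_index hG k H hH)

lemma exists_index_eq {p : ℕ} [hp : Fact p.Prime] [Finite G] (hG : IsPGroup p G)
    (H : Subgroup G) : ∃ k, H.index = p ^ k := by
  obtain ⟨a, ha⟩ := hG.exists_card_eq
  obtain ⟨k, -, hk⟩ := (Nat.dvd_prime_pow hp.out).1 (ha ▸ H.index_dvd_card)
  exact ⟨k, hk⟩

lemma cycLen_mem {p : ℕ} [Fact p.Prime] [Finite G] (hG : IsPGroup p G) (H : Subgroup G) :
    HasCyclicChain H ⊤ (cycLen H (⊤ : Subgroup G)) := by
  obtain ⟨k, hk⟩ := exists_index_eq hG H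
  exact Nat.sInf_mem (s := {s | HasCyclicChain H ⊤ s}) ⟨k, hasCyclicChain_of_index hG k H hk⟩

lemma le_rank_of_card {p k : ℕ} [hp : Fact p.Prime] {V : Type} [Group V] [Finite V]
    (h1 : ∀ x : V, x ^ p = 1) (h2 : ∀ x y : V, x * y = y * x) (h3 : Nat.card V = p ^ k) :
    k ≤ Group.rank V := by
  let _ : CommGroup V := { (inferInstance : Group V) with mul_comm := h2 }
  have h4 : Nat.card V ∣ p ^ Group.rank V := card_dvd_exponent_pow_rank' V h1
  rw [h3] at h4
  exact (Nat.pow_dvd_pow_iff_le_right hp.out.one_lt).1 h4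

end Vale.Agent.P241
end

section

namespace Vale.Agent.P241.Lite

variable {K : ℕ → Homology} {G : Type} [Group G]

lemma Smith.loss_le {H : Subgroup G} {n r : ℕ} (h : Smith (K (n + r)) (K n) H) :
    loss K n H ≤ r :=
  iInf₂_le r h

lemma le_loss {H : Subgroup G} {n : ℕ} {m : ℕ∞}
    (h : ∀ r : ℕ, Smith (K (n + r)) (K n) H → m ≤ r) : m ≤ loss K n H :=
  le_iInf₂ h

/-- The norm inequality. -/
theorem Smith.comap {E F : Homology} [Finite G] {H : Subgroup G} (h : Smith E F H)
    {L : Type} [Group L] (φ : L →* G) : Smith E F (H.comap φ) := by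
  rw [smith_iff_adm] at h ⊢
  exact h.comap (acClass E) (acClass F) φ

theorem Smith.of_surjective {E F : Homology} {H : Subgroup G} (h : Smith E F H)
    {Q : Type} [Group Q] (φ : G →* Q) (hφ : Function.Surjective φ) : Smith E F (H.map φ) := by
  rw [smith_iff_adm] at h ⊢
  exact h.of_surjective φ hφ

theorem loss_comap_le [Finite G] {L : Type} [Group L] (φ : L →* G) (H : Subgroup G) (n : ℕ) :
    loss K n (H.comap φ) ≤ loss K n H :=
  le_loss fun _ h => (h.comap φ).loss_le

theorem Smith.of_chain {p : ℕ} (hcyc : CyclicSmith p K) [Finite G] (hG : IsPGroup p G)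
    {H : Subgroup G} {s : ℕ} (hs : HasCyclicChain H ⊤ s) (n : ℕ) :
    Smith (K (n + s)) (K n) H := by
  rw [smith_iff_adm]
  obtain ⟨c, h0, hsc, hc⟩ := hs
  intro P hP
  have key : ∀ i ≤ s, cls (K (n + (s - i))) (P.fixed (c i)) := by
    intro i
    induction i with
    | zero =>
      intro _
      rw [h0]
      exact hP
    | succ i ih =>
      intro hi
      have h1 := ih (by omega)
      obtain ⟨hle, hN, hcy⟩ := hc i (by omega)
      have h2 : n + (s - i) = (n + (s - (i + 1))) + 1 := by omega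
      rw [h2] at h1
      have h3 := hcyc _ ((hG.to_subgroup _).to_quotient _) hcy (n + (s - (i + 1)))
      rw [smith_iff_adm] at h3
      exact Adm.of_step (acClass _) (acClass _) hle h3 P h1
  have h1 := key s le_rfl
  rw [hsc, Nat.sub_self, Nat.add_zero] at h1
  exact h1

theorem loss_le_cycLen {p : ℕ} [Fact p.Prime] (hcyc : CyclicSmith p K) [Finite G]
    (hG : IsPGroup p G) (H : Subgroup G) (n : ℕ) : loss K n H ≤ cycLen H ⊤ :=
  (Smith.of_chain hcyc hG (P241.cycLen_mem hG H) n).loss_le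

theorem rank_le_loss {p : ℕ} (hab : AbelianValues p K) [Finite G] {H : Subgroup G} (n : ℕ)
    {L V : Type} [Group L] [CommGroup V] [Finite V] (hV : IsPGroup p V) (φ : L →* G)
    (ψ : L →* V) (hψ : Function.Surjective ψ) (h : ∀ x, φ x ∈ H → ψ x = 1) :
    Group.rank V ≤ loss K n H := by
  apply le_loss
  intro r hr
  have h1 := (hr.comap φ).of_surjective ψ hψ
  have h2 : (H.comap φ).map ψ = ⊥ := by
    rw [eq_bot_iff]
    rintro _ ⟨x, hx, rfl⟩
    exact h x hx
  rw [h2] at h1
  have h3 := h1.loss_le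
  rwa [hab V hV n] at h3

theorem loss_eq {p : ℕ} [Fact p.Prime] (hcyc : CyclicSmith p K) (hab : AbelianValues p K)
    [Finite G] (hG : IsPGroup p G) {H : Subgroup G} (n : ℕ)
    {L V : Type} [Group L] [CommGroup V] [Finite V] (hV : IsPGroup p V) (φ : L →* G)
    (ψ : L →* V) (hψ : Function.Surjective ψ) (h : ∀ x, φ x ∈ H → ψ x = 1)
    (hind : H.index = p ^ Group.rank V) :
    loss K n H = cycLen H ⊤ ∧ cycLen H ⊤ = Group.rank V := by
  have h1 := rank_le_loss hab n hV φ ψ hψ h
  have h2 := loss_le_cycLen hcyc hG H n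
  have h3 : cycLen H ⊤ ≤ Group.rank V := P241.cycLen_le_of_index hG hind
  have h4 : Group.rank V ≤ cycLen H ⊤ := by exact_mod_cast h1.trans h2
  have h5 : cycLen H ⊤ = Group.rank V := le_antisymm h3 h4
  refine ⟨le_antisymm h2 ?_, h5⟩
  rw [h5]
  exact h1

end Vale.Agent.P241.Lite
end

section

namespace Vale.Agent.P241

/-- `G` has a cyclic normal subgroup with cyclic quotient. -/
def Metacyc (G : Type*) [Group G] : Prop :=
  ∃ (N : Subgroup G) (_ : N.Normal), IsCyclic N ∧ IsCyclic (G ⧸ N)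

lemma isCyclic_quotient_comap {A B : Type*} [Group A] [Group B] (f : A →* B) (N : Subgroup B)
    [N.Normal] (h : IsCyclic (B ⧸ N)) : IsCyclic (A ⧸ N.comap f) := by
  let g : A ⧸ N.comap f →* B ⧸ N := QuotientGroup.map _ _ f le_rfl
  apply isCyclic_of_injective g
  rw [injective_iff_map_eq_one]
  intro a
  induction a using QuotientGroup.induction_on with
  | H a =>
    intro h1
    change ((f a : B) : B ⧸ N) = 1 at h1
    rw [QuotientGroup.eq_one_iff] at h1 ⊢
    exact h1

lemma metacyc_of_gen {G : Type*} [Group G] {a b : G} (h : Subgroup.closure {a, b} = ⊤)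
    (ha : (Subgroup.zpowers a).Normal) : Metacyc G := by
  refine ⟨Subgroup.zpowers a, ha, inferInstance, ?_⟩
  have h1 : ∀ q : G ⧸ Subgroup.zpowers a, q ∈ Subgroup.zpowers (b : G ⧸ Subgroup.zpowers a) := by
    intro q
    induction q using QuotientGroup.induction_on with
    | H g =>
      have h2 : g ∈ Subgroup.closure {a, b} := h ▸ Subgroup.mem_top g
      induction h2 using Subgroup.closure_induction with
      | mem x hx =>
        rcases hx with rfl | rfl
        · have : ((x : G) : G ⧸ Subgroup.zpowers x) = 1 := by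
            rw [QuotientGroup.eq_one_iff]
            exact Subgroup.mem_zpowers x
          rw [this]
          exact Subgroup.one_mem _
        · exact Subgroup.mem_zpowers _
      | one => exact Subgroup.one_mem _
      | mul x y _ _ hx hy => exact Subgroup.mul_mem _ hx hy
      | inv x _ hx => exact Subgroup.inv_mem _ hx
  exact ⟨⟨_, h1⟩⟩

section

variable {p : ℕ} [hp : Fact p.Prime] {G : Type} [Group G] [Finite G]

/-- A nontrivial normal subgroup of a finite `p`-group contains a central element of order `p`. -/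
lemma exists_central (hG : IsPGroup p G) {N : Subgroup G} [hN : N.Normal] (hN1 : N ≠ ⊥) :
    ∃ z ∈ N, z ∈ Subgroup.center G ∧ orderOf z = p := by
  have h1 : p ∣ Nat.card N := by
    rcases (hG.to_subgroup N).card_eq_or_dvd with h | h
    · exact absurd (Subgroup.card_eq_one.1 h) hN1
    · exact h
  have h2 : IsPGroup p (ConjAct G) := hG
  have h3 : (1 : N) ∈ MulAction.fixedPoints (ConjAct G) N := by
    intro g
    exact smul_one g
  obtain ⟨b, hb, hb1⟩ := h2.exists_fixed_point_of_prime_dvd_card_of_fixed_point N h1 h3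
  have hbc : (b : G) ∈ Subgroup.center G := by
    rw [Subgroup.mem_center_iff]
    intro g
    have h4 := hb (ConjAct.toConjAct g)
    have h5 := congrArg Subtype.val h4
    rw [ConjAct.Subgroup.val_conj_smul, ConjAct.toConjAct_smul] at h5
    rw [mul_inv_eq_iff_eq_mul] at h5
    exact h5
  have hM : (N ⊓ Subgroup.center G) ≠ ⊥ := by
    intro h
    have h4 : (b : G) ∈ N ⊓ Subgroup.center G := ⟨b.2, hbc⟩
    rw [h, Subgroup.mem_bot] at h4
    exact hb1 (Subtype.ext h4.symm)
  have h6 : p ∣ Nat.card (N ⊓ Subgroup.center G : Subgroup G) := by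
    rcases (hG.to_subgroup (N ⊓ Subgroup.center G)).card_eq_or_dvd with h | h
    · exact absurd (Subgroup.card_eq_one.1 h) hM
    · exact h
  obtain ⟨z, hz⟩ := exists_prime_orderOf_dvd_card' p h6
  refine ⟨z.1, z.2.1, z.2.2, ?_⟩
  rw [← hz, Subgroup.orderOf_coe]

omit [Finite G] in
lemma mem_zpowers_zpow (hG : IsPGroup p G) (g : G) {k : ℤ} (hk : ¬ (p : ℤ) ∣ k) :
    g ∈ Subgroup.zpowers (g ^ k) := by
  obtain ⟨m, hm⟩ := IsPGroup.iff_orderOf.1 hG g
  have h1 : IsCoprime k ((p : ℤ) ^ m) := by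
    apply IsCoprime.pow_right
    rw [isCoprime_comm, Prime.coprime_iff_not_dvd (Nat.prime_iff_prime_int.1 hp.out)]
    exact hk
  obtain ⟨u, v, huv⟩ := h1
  rw [Subgroup.mem_zpowers_iff]
  refine ⟨u, ?_⟩
  have h2 : g ^ (p ^ m) = 1 := by rw [← hm]; exact pow_orderOf_eq_one g
  have h3 : g ^ ((p : ℤ) ^ m) = 1 := by
    rw [← h2]
    exact_mod_cast zpow_natCast g (p ^ m)
  calc (g ^ k) ^ u = g ^ (u * k) := by rw [← zpow_mul, mul_comm]
    _ = g ^ (u * k) * (g ^ ((p : ℤ) ^ m)) ^ v := by rw [h3, one_zpow, mul_one]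
    _ = g ^ (u * k + v * (p : ℤ) ^ m) := by rw [← zpow_mul, ← zpow_add, mul_comm v]
    _ = g := by rw [huv, zpow_one]

/-- Blackburn's step. -/
lemma metacyc_of_quotient (hG : IsPGroup p G) {z : G} (hz : z ∈ Subgroup.center G)
    (hzp : orderOf z = p) (hzc : z ∈ commutator G) (hne : ¬ commutator G ≤ Subgroup.zpowers z)
    [hn : (Subgroup.zpowers z).Normal] (h : Metacyc (G ⧸ Subgroup.zpowers z)) : Metacyc G := by
  obtain ⟨N, hN, hNc, hq⟩ := h
  set π := QuotientGroup.mk' (Subgroup.zpowers z) with hπ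
  by_cases hA : IsCyclic (N.comap π)
  · exact ⟨N.comap π, inferInstance, hA, isCyclic_quotient_comap π N hq⟩
  exfalso
  have hzcomm : ∀ g, g * z = z * g := Subgroup.mem_center_iff.1 hz
  obtain ⟨⟨n0, hn0⟩, hgen⟩ := hNc.exists_generator
  obtain ⟨a, rfl⟩ := QuotientGroup.mk'_surjective _ n0
  have ha : a ∈ N.comap π := hn0
  have hform : ∀ x ∈ N.comap π, ∃ i j : ℤ, x = a ^ i * z ^ j := by
    intro x hx
    obtain ⟨i, hi⟩ := Subgroup.mem_zpowers_iff.1 (hgen ⟨π x, hx⟩)
    have hi' : π (a ^ i) = π x := by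
      rw [map_zpow]
      exact congrArg Subtype.val hi
    have h2 : a ^ (-i) * x ∈ Subgroup.zpowers z := by
      rw [← QuotientGroup.eq_one_iff]
      change π (a ^ (-i) * x) = 1
      rw [map_mul, ← hi', ← map_mul, zpow_neg, inv_mul_cancel, map_one]
    obtain ⟨j, hj⟩ := Subgroup.mem_zpowers_iff.1 h2
    exact ⟨i, j, by rw [hj, zpow_neg, mul_inv_cancel_left]⟩
  have hza : z ∉ Subgroup.zpowers a := by
    intro h
    apply hA
    refine ⟨⟨a, ha⟩, ?_⟩
    rintro ⟨x, hx⟩
    obtain ⟨i, j, rfl⟩ := hform x hx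
    obtain ⟨k, hk⟩ := Subgroup.mem_zpowers_iff.1 h
    refine ⟨i + k * j, Subtype.ext ?_⟩
    change a ^ (i + k * j) = _
    rw [zpow_add, zpow_mul, hk]
  have hzz : ∀ (j : ℤ) (g : G), z ^ j * g = g * z ^ j := by
    intro j g
    have : Commute z g := (hzcomm g).symm
    exact this.zpow_left j
  have hcomm : ∀ x ∈ N.comap π, ∀ y ∈ N.comap π, x * y = y * x := by
    intro x hx y hy
    obtain ⟨i, j, rfl⟩ := hform x hx
    obtain ⟨k, l, rfl⟩ := hform y hy
    calc a ^ i * z ^ j * (a ^ k * z ^ l) = a ^ i * (z ^ j * a ^ k) * z ^ l := by group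
      _ = a ^ (i + k) * z ^ (j + l) := by rw [hzz]; group
      _ = a ^ k * (z ^ l * a ^ i) * z ^ j := by rw [hzz]; group
      _ = a ^ k * z ^ l * (a ^ i * z ^ j) := by group
  have hpow : ∀ x ∈ N.comap π, x ^ p ∈ Subgroup.zpowers a := by
    intro x hx
    obtain ⟨i, j, rfl⟩ := hform x hx
    have h2 : Commute (a ^ i) (z ^ j) := (hzz j (a ^ i)).symm
    have h3 : (z ^ j) ^ p = 1 := by
      rw [← zpow_natCast, ← zpow_mul, mul_comm, zpow_mul, zpow_natCast, ← hzp, pow_orderOf_eq_one,
        one_zpow]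
    rw [h2.mul_pow, h3, mul_one, ← zpow_natCast, ← zpow_mul]
    exact Subgroup.zpow_mem_zpowers a _
  -- the generator of the quotient
  have hq' := isCyclic_quotient_comap π N hq
  obtain ⟨b', hb'⟩ := hq'.exists_generator
  obtain ⟨b, rfl⟩ := QuotientGroup.mk'_surjective _ b'
  have hbform : ∀ g : G, ∃ (k : ℕ), ∃ x ∈ N.comap π, g = b ^ k * x := by
    intro g
    obtain ⟨k, hk⟩ := mem_powers_iff_mem_zpowers.2 (hb' (QuotientGroup.mk' (N.comap π) g))
    replace hk : (QuotientGroup.mk' (N.comap π)) b ^ k = QuotientGroup.mk' (N.comap π) g := hk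
    refine ⟨k, (b ^ k)⁻¹ * g, ?_, by group⟩
    rw [← QuotientGroup.eq_one_iff]
    change QuotientGroup.mk' (N.comap π) ((b ^ k)⁻¹ * g) = 1
    rw [map_mul, map_inv, map_pow, hk, inv_mul_cancel]
  set g := b * a * b⁻¹ * a⁻¹ with hg
  have hbn : ∀ x ∈ N.comap π, b * x * b⁻¹ ∈ N.comap π := fun x hx =>
    (inferInstance : (N.comap π).Normal).conj_mem x hx b
  have hgA : g ∈ N.comap π := Subgroup.mul_mem _ (hbn a ha) (Subgroup.inv_mem _ ha)
  have hstar : ∀ x ∈ N.comap π, ∃ i : ℤ, b * x * b⁻¹ = g ^ i * x := by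
    intro x hx
    obtain ⟨i, j, rfl⟩ := hform x hx
    refine ⟨i, ?_⟩
    have h2 : b * a * b⁻¹ = g * a := by rw [hg]; group
    have h3 : Commute g a := hcomm g hgA a ha
    calc b * (a ^ i * z ^ j) * b⁻¹ = b * a ^ i * (z ^ j * b⁻¹) := by group
      _ = b * a ^ i * b⁻¹ * z ^ j := by rw [hzz]; group
      _ = (b * a * b⁻¹) ^ i * z ^ j := by rw [conj_zpow]
      _ = g ^ i * (a ^ i * z ^ j) := by rw [h2, h3.mul_zpow, mul_assoc]
  set D := Subgroup.zpowers g with hD
  have hDA : D ≤ N.comap π := by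
    rw [hD, Subgroup.zpowers_le]
    exact hgA
  have hDb : ∀ x ∈ D, b * x * b⁻¹ ∈ D := by
    intro x hx
    obtain ⟨i, hi⟩ := hstar x (hDA hx)
    rw [hi]
    exact Subgroup.mul_mem _ (Subgroup.zpow_mem_zpowers g i) hx
  have hDbk : ∀ (k : ℕ), ∀ x ∈ D, b ^ k * x * (b ^ k)⁻¹ ∈ D := by
    intro k
    induction k with
    | zero => intro x hx; simpa using hx
    | succ k ih =>
      intro x hx
      have h2 : b ^ (k + 1) * x * (b ^ (k + 1))⁻¹ = b ^ k * (b * x * b⁻¹) * (b ^ k)⁻¹ := by
        rw [pow_succ]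
        group
      rw [h2]
      exact ih _ (hDb x hx)
  have hDn : D.Normal := by
    constructor
    intro x hx h
    obtain ⟨k, y, hy, rfl⟩ := hbform h
    have h2 : b ^ k * y * x * (b ^ k * y)⁻¹ = b ^ k * (y * x * y⁻¹) * (b ^ k)⁻¹ := by group
    rw [h2, hcomm y hy x (hDA hx), mul_inv_cancel_right]
    exact hDbk k x hx
  have hcb : ∀ x ∈ N.comap π, Commute (b : G ⧸ D) (x : G ⧸ D) := by
    intro x hx
    obtain ⟨i, hi⟩ := hstar x hx
    have h2 : b * x = g ^ i * (x * b) := by
      rw [← mul_assoc, ← hi]; group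
    change (((b * x : G)) : G ⧸ D) = ((x * b : G) : G ⧸ D)
    rw [h2, QuotientGroup.mk_mul]
    have h3 : ((g ^ i : G) : G ⧸ D) = 1 := by
      rw [QuotientGroup.eq_one_iff]
      exact Subgroup.zpow_mem_zpowers g i
    rw [h3, one_mul]
  have hcx : ∀ x ∈ N.comap π, ∀ y ∈ N.comap π, Commute (x : G ⧸ D) (y : G ⧸ D) := by
    intro x hx y hy
    change (((x * y : G)) : G ⧸ D) = ((y * x : G) : G ⧸ D)
    rw [hcomm x hx y hy]
  have hGD : commutator G ≤ D := by
    rw [commutator_def, Subgroup.commutator_le]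
    intro g1 _ g2 _
    obtain ⟨k, x, hx, rfl⟩ := hbform g1
    obtain ⟨l, y, hy, rfl⟩ := hbform g2
    have h2 : Commute ((b ^ k * x : G) : G ⧸ D) ((b ^ l * y : G) : G ⧸ D) := by
      rw [QuotientGroup.mk_mul, QuotientGroup.mk_mul, QuotientGroup.mk_pow, QuotientGroup.mk_pow]
      have h3 : Commute ((b : G ⧸ D) ^ k) ((b : G ⧸ D) ^ l) := Commute.pow_pow_self _ _ _
      have h4 : Commute ((b : G ⧸ D) ^ k) (y : G ⧸ D) := (hcb y hy).pow_left k
      have h5 : Commute (x : G ⧸ D) ((b : G ⧸ D) ^ l) := ((hcb x hx).pow_left l).symm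
      exact (h3.mul_right h4).mul_left (h5.mul_right (hcx x hx y hy))
    rw [← QuotientGroup.eq_one_iff]
    change (QuotientGroup.mk' D) _ = 1
    rw [map_commutatorElement]
    exact commutatorElement_eq_one_iff_commute.2 h2
  obtain ⟨k, hk⟩ := Subgroup.mem_zpowers_iff.1 (hGD hzc)
  by_cases hpk : (p : ℤ) ∣ k
  · obtain ⟨k', rfl⟩ := hpk
    apply hza
    rw [← hk, mul_comm, zpow_mul, zpow_natCast]
    exact hpow _ (Subgroup.zpow_mem _ hgA k')
  · apply hne
    refine hGD.trans ?_
    rw [hD, Subgroup.zpowers_le, ← hk]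
    exact mem_zpowers_zpow hG g hpk

end

end Vale.Agent.P241
end

section

namespace Vale.Agent.P241

/-- `G` has a section which is an abelian `p`-group of rank at least `r`. -/
def Sec (p : ℕ) (G : Type) [Group G] (r : ℕ) : Prop :=
  ∃ (L V : Type) (_ : Group L) (_ : CommGroup V) (_ : Finite V) (φ : L →* G) (ψ : L →* V),
    IsPGroup p V ∧ Function.Surjective ψ ∧ (∀ x, φ x = 1 → ψ x = 1) ∧ r ≤ Group.rank V

/-- `G` has a nonabelian quotient of order `p ^ 3` and exponent `p`. -/
def HeisQ (p : ℕ) (G : Type) [Group G] : Prop :=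
  ∃ (Q : Type) (_ : Group Q) (_ : Finite Q) (ψ : G →* Q), Function.Surjective ψ ∧
    Nat.card Q = p ^ 3 ∧ (∀ x : Q, x ^ p = 1) ∧ ¬ ∀ x y : Q, x * y = y * x

lemma Sec.of_surjective {p r : ℕ} {G Q : Type} [Group G] [Group Q] (f : G →* Q)
    (hf : Function.Surjective f) (h : Sec p Q r) : Sec p G r := by
  obtain ⟨L, V, _, _, _, φ, ψ, h1, h2, h3, h4⟩ := h
  refine ⟨(φ.comp (MonoidHom.fst L G)).eqLocus (f.comp (MonoidHom.snd L G)), V, inferInstance,
    inferInstance, inferInstance, (MonoidHom.snd L G).comp (Subgroup.subtype _),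
    (ψ.comp (MonoidHom.fst L G)).comp (Subgroup.subtype _), h1, ?_, ?_, h4⟩
  · intro v
    obtain ⟨l, rfl⟩ := h2 v
    obtain ⟨g, hg⟩ := hf (φ l)
    exact ⟨⟨(l, g), hg.symm⟩, rfl⟩
  · rintro ⟨⟨l, g⟩, hx⟩ hg
    change g = 1 at hg
    subst hg
    have h5 : φ l = f 1 := hx
    rw [map_one] at h5
    exact h3 l h5

lemma HeisQ.of_surjective {p : ℕ} {G Q : Type} [Group G] [Group Q] (f : G →* Q)
    (hf : Function.Surjective f) (h : HeisQ p Q) : HeisQ p G := by
  obtain ⟨R, _, _, ψ, h1, h2⟩ := h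
  exact ⟨R, inferInstance, inferInstance, ψ.comp f, h1.comp hf, h2⟩

section

variable {p : ℕ} [hp : Fact p.Prime] {G : Type} [Group G]

lemma sec_of_comm {x y z : G} (hxy : Commute x y) (hxz : Commute x z) (hyz : Commute y z)
    (h : ∀ i j k : ℤ, x ^ i * y ^ j * z ^ k = 1 → (p : ℤ) ∣ i ∧ (p : ℤ) ∣ j ∧ (p : ℤ) ∣ k) :
    Sec p G 3 := by
  let V := Multiplicative (ZMod p) × Multiplicative (ZMod p) × Multiplicative (ZMod p)
  let L := Multiplicative ℤ × Multiplicative ℤ × Multiplicative ℤ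
  let φ : L →* G := MonoidHom.mk' (fun t => x ^ (t.1.toAdd) * y ^ (t.2.1.toAdd) *
    z ^ (t.2.2.toAdd)) (by
      rintro ⟨i, j, k⟩ ⟨i', j', k'⟩
      change x ^ (i.toAdd + i'.toAdd) * y ^ (j.toAdd + j'.toAdd) * z ^ (k.toAdd + k'.toAdd) =
        x ^ i.toAdd * y ^ j.toAdd * z ^ k.toAdd * (x ^ i'.toAdd * y ^ j'.toAdd * z ^ k'.toAdd)
      simp only [zpow_add]
      have h1 : Commute (y ^ j.toAdd) (x ^ i'.toAdd) := (hxy.zpow_zpow _ _).symm
      have h2 : Commute (z ^ k.toAdd) (x ^ i'.toAdd) := (hxz.zpow_zpow _ _).symm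
      have h3 : Commute (z ^ k.toAdd) (y ^ j'.toAdd) := (hyz.zpow_zpow _ _).symm
      generalize x ^ i.toAdd = a at *
      generalize x ^ i'.toAdd = a' at *
      generalize y ^ j.toAdd = b at *
      generalize y ^ j'.toAdd = b' at *
      generalize z ^ k.toAdd = c at *
      generalize z ^ k'.toAdd = c' at *
      calc a * a' * (b * b') * (c * c') = a * (a' * b) * (b' * c) * c' := by group
        _ = a * (b * a') * (c * b') * c' := by rw [h1.eq, h3.eq]
        _ = a * b * (a' * c) * b' * c' := by group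
        _ = a * b * (c * a') * b' * c' := by rw [h2.eq]
        _ = a * b * c * (a' * b' * c') := by group)
  let q : Multiplicative ℤ →* Multiplicative (ZMod p) :=
    AddMonoidHom.toMultiplicative (Int.castAddHom (ZMod p))
  have hq : Function.Surjective q := by
    intro v
    obtain ⟨i, hi⟩ := ZMod.intCast_surjective v.toAdd
    exact ⟨Multiplicative.ofAdd i, congrArg Multiplicative.ofAdd hi⟩
  have hq1 : ∀ i, (p : ℤ) ∣ i.toAdd → q i = 1 := by
    intro i hi
    change Multiplicative.ofAdd (((i.toAdd : ℤ)) : ZMod p) = 1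
    rw [(ZMod.intCast_zmod_eq_zero_iff_dvd _ _).2 hi]
    rfl
  let ψ : L →* V := q.prodMap (q.prodMap q)
  have hVp : ∀ v : V, v ^ p = 1 := by
    rintro ⟨a, b, c⟩
    have : ∀ a : Multiplicative (ZMod p), a ^ p = 1 := by
      intro a
      have h1 : p • a.toAdd = 0 := by simp
      exact congrArg Multiplicative.ofAdd h1
    exact Prod.ext (this a) (Prod.ext (this b) (this c))
  have hcard : Nat.card V = p ^ 3 := by
    have : Nat.card (Multiplicative (ZMod p)) = p := by
      rw [Nat.card_congr Multiplicative.toAdd]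
      simp
    simp only [V, Nat.card_prod, this]
    ring
  refine ⟨L, V, inferInstance, inferInstance, inferInstance, φ, ψ, ?_, ?_, ?_, ?_⟩
  · exact IsPGroup.of_card hcard
  · rintro ⟨a, b, c⟩
    obtain ⟨a, rfl⟩ := hq a
    obtain ⟨b, rfl⟩ := hq b
    obtain ⟨c, rfl⟩ := hq c
    exact ⟨(a, b, c), rfl⟩
  · rintro ⟨a, b, c⟩ h1
    obtain ⟨h2, h3, h4⟩ := h _ _ _ h1
    exact Prod.ext (hq1 a h2) (Prod.ext (hq1 b h3) (hq1 c h4))
  · exact le_rank_of_card hVp (fun x y => mul_comm x y) hcard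

/-- Without a section of rank `3`, the group is generated modulo commutators by two elements. -/
lemma exists_two_gens [Finite G] (hG : IsPGroup p G) (h : ¬ Sec p G 3) :
    ∃ a b : G, ∀ g : G, ∃ x ∈ Subgroup.closure {a, b}, ∃ y ∈ commutator G, g = x * y := by
  have : Finite (Abelianization G) := inferInstanceAs (Finite (G ⧸ commutator G))
  have h1 : Group.rank (Abelianization G) ≤ 2 := by
    by_contra h2
    apply h
    refine ⟨G, Abelianization G, inferInstance, inferInstance, inferInstance, MonoidHom.id G,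
      Abelianization.of, ?_, QuotientGroup.mk'_surjective _, ?_, by omega⟩
    · exact hG.to_quotient _
    · rintro x rfl
      exact map_one _
  obtain ⟨S, hS, hS'⟩ := Group.rank_spec (Abelianization G)
  have h2 : ∃ u v : Abelianization G, (S : Set (Abelianization G)) ⊆ {u, v} := by
    classical
    rw [← hS] at h1
    interval_cases h3 : S.card
    · rw [Finset.card_eq_zero] at h3
      subst h3
      exact ⟨1, 1, by simp⟩
    · obtain ⟨u, rfl⟩ := Finset.card_eq_one.1 h3
      exact ⟨u, u, by simp⟩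
    · obtain ⟨u, v, -, rfl⟩ := Finset.card_eq_two.1 h3
      exact ⟨u, v, by simp⟩
  obtain ⟨u, v, huv⟩ := h2
  obtain ⟨a, ha⟩ := QuotientGroup.mk'_surjective _ u
  obtain ⟨b, hb⟩ := QuotientGroup.mk'_surjective _ v
  refine ⟨a, b, fun g => ?_⟩
  have h3 : (Abelianization.of g) ∈ (Subgroup.closure {a, b}).map (Abelianization.of (G := G)) := by
    rw [MonoidHom.map_closure]
    have h4 : (Abelianization.of : G →* _) '' {a, b} = {u, v} := by
      rw [Set.image_pair, ← ha, ← hb]
      rfl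
    rw [h4]
    have h5 : (⊤ : Subgroup (Abelianization G)) ≤ Subgroup.closure {u, v} := by
      rw [← hS']
      exact Subgroup.closure_mono huv
    exact h5 (Subgroup.mem_top _)
  obtain ⟨x, hx, hxg⟩ := h3
  refine ⟨x, hx, x⁻¹ * g, ?_, by group⟩
  rw [← Abelianization.ker_of, MonoidHom.mem_ker, map_mul, map_inv, hxg, inv_mul_cancel]

end

end Vale.Agent.P241
end

section

namespace Vale.Agent.P241

open scoped commutatorElement

/-- `c` is central of order `p` and generates the commutator subgroup. -/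
structure CData (p : ℕ) {G : Type} [Group G] (c : G) : Prop where
  central : ∀ g, g * c = c * g
  pow : c ^ p = 1
  ne : c ≠ 1
  comm : commutator G ≤ Subgroup.zpowers c
  mem : c ∈ commutator G

namespace CData

variable {p : ℕ} [hp : Fact p.Prime] {G : Type} [Group G] {c : G}

omit hp in
lemma zc (h : CData p c) (k : ℤ) (g : G) : c ^ k * g = g * c ^ k := by
  have : Commute c g := (h.central g).symm
  exact this.zpow_left k

omit hp in
lemma swap (h : CData p c) (x y : G) : ∃ k : ℤ, y * x = c ^ k * (x * y) := by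
  have h1 : ⁅y, x⁆ ∈ commutator G :=
    Subgroup.commutator_mem_commutator (Subgroup.mem_top _) (Subgroup.mem_top _)
  obtain ⟨k, hk⟩ := Subgroup.mem_zpowers_iff.1 (h.comm h1)
  refine ⟨k, ?_⟩
  rw [hk, commutatorElement_def]
  group

omit hp in
lemma normal_of_le (h : CData p c) {N : Subgroup G} (hN : c ∈ N) : N.Normal := by
  constructor
  intro n hn g
  have h1 : ⁅g, n⁆ ∈ commutator G :=
    Subgroup.commutator_mem_commutator (Subgroup.mem_top _) (Subgroup.mem_top _)
  have h2 : Subgroup.zpowers c ≤ N := by rwa [Subgroup.zpowers_le]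
  have h3 : g * n * g⁻¹ = ⁅g, n⁆ * n := by rw [commutatorElement_def]; group
  rw [h3]
  exact N.mul_mem (h2 (h.comm h1)) hn

omit hp in
lemma metacyc (h : CData p c) {x y : G} (hxy : Subgroup.closure {x, y} = ⊤)
    (hc : c ∈ Subgroup.zpowers x) : Metacyc G :=
  metacyc_of_gen hxy (h.normal_of_le hc)

omit hp in
lemma eq_top (h : CData p c) {H : Subgroup G} (hH : H ⊔ Subgroup.zpowers c = ⊤) : H = ⊤ := by
  have hn : (Subgroup.zpowers c).Normal := h.normal_of_le (Subgroup.mem_zpowers c)
  have h1 : ∀ g : G, ∃ x ∈ H, ∃ j : ℤ, g = x * c ^ j := by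
    intro g
    have h2 : g ∈ H ⊔ Subgroup.zpowers c := hH ▸ Subgroup.mem_top g
    rw [Subgroup.mem_sup_of_normal_right] at h2
    obtain ⟨x, hx, y, hy, rfl⟩ := h2
    obtain ⟨j, rfl⟩ := Subgroup.mem_zpowers_iff.1 hy
    exact ⟨x, hx, j, rfl⟩
  have h2 : commutator G ≤ H := by
    rw [commutator_def, Subgroup.commutator_le]
    intro g1 _ g2 _
    obtain ⟨x, hx, i, rfl⟩ := h1 g1
    obtain ⟨y, hy, j, rfl⟩ := h1 g2
    have h3 : ⁅x * c ^ i, y * c ^ j⁆ = ⁅x, y⁆ := by
      rw [commutatorElement_def, commutatorElement_def]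
      calc x * c ^ i * (y * c ^ j) * (x * c ^ i)⁻¹ * (y * c ^ j)⁻¹
          = x * (c ^ i * (y * c ^ j * c ^ (-i))) * x⁻¹ * (c ^ (-j) * y⁻¹) := by group
        _ = x * y * (c ^ j * x⁻¹) * (c ^ (-j) * y⁻¹) := by rw [h.zc i]; group
        _ = x * y * x⁻¹ * y⁻¹ := by rw [h.zc j]; group
    rw [h3, commutatorElement_def]
    exact H.mul_mem (H.mul_mem (H.mul_mem hx hy) (H.inv_mem hx)) (H.inv_mem hy)
  rw [eq_top_iff, ← hH, sup_le_iff, Subgroup.zpowers_le]
  exact ⟨le_rfl, h2 h.mem⟩

omit hp in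
lemma form (h : CData p c) {a b : G} (hab : Subgroup.closure {a, b} = ⊤) (g : G) :
    ∃ i j k : ℤ, g = a ^ i * b ^ j * c ^ k := by
  have h1 : g ∈ Subgroup.closure {a, b} := hab ▸ Subgroup.mem_top g
  induction h1 using Subgroup.closure_induction with
  | mem x hx =>
    rcases hx with rfl | rfl
    · exact ⟨1, 0, 0, by simp⟩
    · exact ⟨0, 1, 0, by simp⟩
  | one => exact ⟨0, 0, 0, by simp⟩
  | mul x y _ _ hx hy =>
    obtain ⟨i, j, k, rfl⟩ := hx
    obtain ⟨i', j', k', rfl⟩ := hy
    obtain ⟨l, hl⟩ := h.swap (a ^ i') (b ^ j)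
    refine ⟨i + i', j + j', l + k + k', ?_⟩
    calc a ^ i * b ^ j * c ^ k * (a ^ i' * b ^ j' * c ^ k')
        = a ^ i * b ^ j * (c ^ k * (a ^ i' * b ^ j')) * c ^ k' := by group
      _ = a ^ i * (b ^ j * a ^ i') * b ^ j' * c ^ k * c ^ k' := by rw [h.zc k]; group
      _ = a ^ i * (c ^ l * (a ^ i' * b ^ j)) * b ^ j' * c ^ k * c ^ k' := by rw [hl]
      _ = a ^ i * (c ^ l * (a ^ i' * b ^ j * b ^ j')) * c ^ k * c ^ k' := by group
      _ = a ^ (i + i') * b ^ (j + j') * c ^ (l + k + k') := by rw [h.zc l]; group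
  | inv x _ hx =>
    obtain ⟨i, j, k, rfl⟩ := hx
    obtain ⟨l, hl⟩ := h.swap (a ^ (-i)) (b ^ (-j))
    refine ⟨-i, -j, l - k, ?_⟩
    calc (a ^ i * b ^ j * c ^ k)⁻¹ = c ^ (-k) * (b ^ (-j) * a ^ (-i)) := by group
      _ = c ^ (-k) * c ^ l * (a ^ (-i) * b ^ (-j)) := by rw [hl]; group
      _ = c ^ (l - k) * (a ^ (-i) * b ^ (-j)) := by group
      _ = a ^ (-i) * b ^ (-j) * c ^ (l - k) := by rw [h.zc (l - k)]

lemma gen_left (hG : IsPGroup p G) (h : CData p c) {a b : G}
    (hab : Subgroup.closure {a, b} = ⊤) {i j : ℤ} (hi : ¬ (p : ℤ) ∣ i) :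
    Subgroup.closure {a ^ i * b ^ j, b} = ⊤ := by
  apply h.eq_top
  set H := Subgroup.closure {a ^ i * b ^ j, b} ⊔ Subgroup.zpowers c
  have hb : b ∈ H := Subgroup.mem_sup_left (Subgroup.subset_closure (by simp))
  have hx : a ^ i * b ^ j ∈ H := Subgroup.mem_sup_left (Subgroup.subset_closure (by simp))
  have hai : a ^ i ∈ H := by
    have := H.mul_mem hx (H.zpow_mem hb (-j))
    rwa [zpow_neg, mul_inv_cancel_right] at this
  have ha : a ∈ H := by
    have h1 : Subgroup.zpowers (a ^ i) ≤ H := by rwa [Subgroup.zpowers_le]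
    exact h1 (mem_zpowers_zpow hG a hi)
  rw [eq_top_iff, ← hab, Subgroup.closure_le]
  rintro x (rfl | rfl)
  · exact ha
  · exact hb

lemma gen_right (hG : IsPGroup p G) (h : CData p c) {a b : G}
    (hab : Subgroup.closure {a, b} = ⊤) {i j : ℤ} (hj : ¬ (p : ℤ) ∣ j) :
    Subgroup.closure {a ^ i * b ^ j, a} = ⊤ := by
  apply h.eq_top
  set H := Subgroup.closure {a ^ i * b ^ j, a} ⊔ Subgroup.zpowers c
  have ha : a ∈ H := Subgroup.mem_sup_left (Subgroup.subset_closure (by simp))
  have hx : a ^ i * b ^ j ∈ H := Subgroup.mem_sup_left (Subgroup.subset_closure (by simp))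
  have hbj : b ^ j ∈ H := by
    have := H.mul_mem (H.zpow_mem ha (-i)) hx
    rwa [zpow_neg, inv_mul_cancel_left] at this
  have hb : b ∈ H := by
    have h1 : Subgroup.zpowers (b ^ j) ≤ H := by rwa [Subgroup.zpowers_le]
    exact h1 (mem_zpowers_zpow hG b hj)
  rw [eq_top_iff, ← hab, Subgroup.closure_le]
  rintro x (rfl | rfl)
  · exact ha
  · exact hb

lemma metacyc_of_pow (hG : IsPGroup p G) (h : CData p c) {a b : G}
    (hab : Subgroup.closure {a, b} = ⊤) {i j : ℤ} (hij : ¬ ((p : ℤ) ∣ i ∧ (p : ℤ) ∣ j))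
    (hc : c ∈ Subgroup.zpowers (a ^ i * b ^ j)) : Metacyc G := by
  by_cases hi : (p : ℤ) ∣ i
  · exact h.metacyc (gen_right hG h hab fun hj => hij ⟨hi, hj⟩) hc
  · exact h.metacyc (gen_left hG h hab hi) hc

omit hp in
lemma not_comm (h : CData p c) {a b : G} (hab : Subgroup.closure {a, b} = ⊤) : ¬ Commute a b := by
  intro h1
  apply h.ne
  have h2 : ∀ x y : G, x * y = y * x := by
    intro x y
    obtain ⟨i, j, k, rfl⟩ := h.form hab x
    obtain ⟨i', j', k', rfl⟩ := h.form hab y
    have e1 : ∀ i j i' j' : ℤ, Commute (a ^ i * b ^ j) (a ^ i' * b ^ j') := fun i j i' j' =>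
      ((Commute.zpow_zpow_self a i i').mul_right (h1.zpow_zpow i j')).mul_left
        ((h1.symm.zpow_zpow j i').mul_right (Commute.zpow_zpow_self b j j'))
    have e2 : ∀ (k : ℤ) (g : G), Commute g (c ^ k) := fun k g => (h.zc k g).symm
    exact ((e1 i j i' j').mul_right (e2 _ _)).mul_left ((e2 _ _).symm)
  have h3 : commutator G ≤ ⊥ := by
    rw [commutator_def, Subgroup.commutator_le]
    intro g1 _ g2 _
    rw [Subgroup.mem_bot, commutatorElement_eq_one_iff_commute]
    exact h2 g1 g2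
  exact Subgroup.mem_bot.1 (h3 h.mem)

omit hp in
/-- Remove the common power of `p` from two integers. -/
lemma exists_prime_pow (hp : p.Prime) {i j : ℤ} (hij : ¬ (i = 0 ∧ j = 0)) :
    ∃ (r : ℕ) (i' j' : ℤ), i = p ^ r * i' ∧ j = p ^ r * j' ∧ ¬ ((p : ℤ) ∣ i' ∧ (p : ℤ) ∣ j') := by
  have h0 : Int.gcd i j ≠ 0 := by
    rw [Ne, Int.gcd_eq_zero_iff]
    exact hij
  obtain ⟨r, g', hg', hg⟩ := Nat.exists_eq_pow_mul_and_not_dvd h0 p hp.ne_one
  have h1 : ((p ^ r : ℕ) : ℤ) ∣ i := (Int.natCast_dvd_natCast.2 (hg ▸ dvd_mul_right _ _)).trans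
    (Int.gcd_dvd_left i j)
  have h2 : ((p ^ r : ℕ) : ℤ) ∣ j := (Int.natCast_dvd_natCast.2 (hg ▸ dvd_mul_right _ _)).trans
    (Int.gcd_dvd_right i j)
  obtain ⟨i', rfl⟩ := h1
  obtain ⟨j', rfl⟩ := h2
  refine ⟨r, i', j', by push_cast; rfl, by push_cast; rfl, ?_⟩
  rintro ⟨h3, h4⟩
  apply hg'
  have h5 : ((p : ℤ)) ∣ Int.gcd i' j' := Int.dvd_coe_gcd h3 h4
  have h6 : p ∣ Int.gcd i' j' := by exact_mod_cast h5
  rw [Int.gcd_mul_left, Int.natAbs_natCast] at hg
  have h7 : Int.gcd i' j' = g' := Nat.eq_of_mul_eq_mul_left (pow_pos hp.pos r) hg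
  rwa [h7] at h6

end CData

end Vale.Agent.P241
end

section

namespace Vale.Agent.P241

open scoped commutatorElement

namespace CData

section Two

variable {G : Type} [Group G] {c : G}

/-- For `p = 2` two generators satisfy `y x = c x y`. -/
lemma swap_two (h : CData 2 c) {x y : G} (hxy : Subgroup.closure {x, y} = ⊤) :
    y * x = c * (x * y) := by
  obtain ⟨k, hk⟩ := h.swap x y
  have hc2 : c ^ (2 : ℤ) = 1 := by exact_mod_cast h.pow
  rcases Int.even_or_odd k with ⟨m, rfl⟩ | ⟨m, rfl⟩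
  · exfalso
    apply h.not_comm hxy
    rw [← two_mul, zpow_mul, hc2, one_zpow, one_mul] at hk
    exact hk.symm
  · rwa [zpow_add, zpow_mul, hc2, one_zpow, one_mul, zpow_one] at hk

lemma swap_zpow_left (h : CData 2 c) {x y : G} (hxy : y * x = c * (x * y)) (w : ℤ) :
    y ^ w * x = c ^ w * (x * y ^ w) := by
  have h1 : x⁻¹ * y * x = c * y := by
    rw [mul_assoc, hxy, ← mul_assoc c, ← h.central x, mul_assoc, inv_mul_cancel_left]
  have h2 : x⁻¹ * y ^ w * x = c ^ w * y ^ w := by
    have h3 : (x⁻¹ * y * x⁻¹⁻¹) ^ w = x⁻¹ * y ^ w * x⁻¹⁻¹ := conj_zpow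
    rw [inv_inv] at h3
    rw [← h3, h1]
    have h4 : Commute c y := (h.central y).symm
    exact h4.mul_zpow w
  calc y ^ w * x = x * (x⁻¹ * y ^ w * x) := by group
    _ = (x * c ^ w) * y ^ w := by rw [h2]; group
    _ = c ^ w * (x * y ^ w) := by rw [← h.zc w]; group

lemma swap_zpow (h : CData 2 c) {x y : G} (hxy : y * x = c * (x * y)) (u w : ℤ) :
    y ^ w * x ^ u = c ^ (u * w) * (x ^ u * y ^ w) := by
  have h1 := h.swap_zpow_left hxy w
  have h2 : y ^ w * x * (y ^ w)⁻¹ = c ^ w * x := by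
    rw [h1]; group
  have h3 : y ^ w * x ^ u * (y ^ w)⁻¹ = c ^ (w * u) * x ^ u := by
    rw [← conj_zpow, h2, (show Commute (c ^ w) x from h.zc w x).mul_zpow, ← zpow_mul]
  calc y ^ w * x ^ u = y ^ w * x ^ u * (y ^ w)⁻¹ * y ^ w := by group
    _ = c ^ (u * w) * (x ^ u * y ^ w) := by rw [h3, mul_comm w u, mul_assoc]

lemma sq_two (h : CData 2 c) {x y : G} (hxy : y * x = c * (x * y)) (u w : ℤ) :
    (x ^ u * y ^ w) * (x ^ u * y ^ w) = c ^ (u * w) * (x ^ (2 * u) * y ^ (2 * w)) := by
  calc (x ^ u * y ^ w) * (x ^ u * y ^ w) = x ^ u * (y ^ w * x ^ u) * y ^ w := by group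
    _ = x ^ u * c ^ (u * w) * (x ^ u * y ^ w * y ^ w) := by rw [h.swap_zpow hxy]; group
    _ = c ^ (u * w) * (x ^ (2 * u) * y ^ (2 * w)) := by
      rw [← h.zc, mul_assoc, two_mul, two_mul, zpow_add, zpow_add]
      group

lemma pow_even (h : CData 2 c) {k : ℤ} (hk : Even k) : c ^ k = 1 := by
  obtain ⟨m, rfl⟩ := hk
  have hc2 : c ^ (2 : ℤ) = 1 := by exact_mod_cast h.pow
  rw [← two_mul, zpow_mul, hc2, one_zpow]

lemma pow_odd (h : CData 2 c) {k : ℤ} (hk : Odd k) : c ^ k = c := by
  obtain ⟨m, rfl⟩ := hk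
  have hc2 : c ^ (2 : ℤ) = 1 := by exact_mod_cast h.pow
  rw [zpow_add, zpow_mul, hc2, one_zpow, one_mul, zpow_one]

lemma dichotomy (hG : IsPGroup 2 G) (hS : ¬ Sec 2 G 3) (h : CData 2 c) {x y : G}
    (hxy : Subgroup.closure {x, y} = ⊤) :
    (∃ u w : ℤ, c = x ^ (2 * u) * y ^ (2 * w)) ∨ ∃ t : ℤ, x ^ (2 : ℤ) = y ^ (2 * t) := by
  have hsw := h.swap_two hxy
  have h1 : Commute (x ^ (2 : ℤ)) y := by
    have h2 := h.swap_zpow hsw 2 1
    rw [zpow_one, h.pow_even (by norm_num), one_mul] at h2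
    exact h2.symm
  have h3 : Commute (x ^ (2 : ℤ)) c := h.central _
  have h4 : Commute y c := h.central _
  by_contra hcon
  push Not at hcon
  obtain ⟨hc1, hc2⟩ := hcon
  apply hS
  refine sec_of_comm h1 h3 h4 ?_
  intro i j k hijk
  have hj : (2 : ℤ) ∣ j := by
    by_contra hj
    apply h.not_comm hxy
    have h5 : y ^ j = (x ^ (2 : ℤ)) ^ (-i) * c ^ (-k) := by
      calc y ^ j = ((x ^ (2 : ℤ)) ^ i)⁻¹ * ((x ^ (2 : ℤ)) ^ i * y ^ j * c ^ k) * (c ^ k)⁻¹ := by
            group
        _ = _ := by rw [hijk]; group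
    have h6 : Commute x (y ^ j) := by
      rw [h5]
      exact (((Commute.refl x).zpow_right 2).zpow_right _).mul_right (h.zc _ _).symm
    obtain ⟨m, hm⟩ := Subgroup.mem_zpowers_iff.1 (mem_zpowers_zpow (p := 2) hG y (k := j) hj)
    rw [← hm]
    exact h6.zpow_right m
  obtain ⟨w, rfl⟩ := hj
  have h7 : x ^ (2 * i) * y ^ (2 * w) * c ^ k = 1 := by rw [zpow_mul x]; exact hijk
  have hk : (2 : ℤ) ∣ k := by
    by_contra hk
    rw [h.pow_odd (by rwa [← Int.not_even_iff_odd, even_iff_two_dvd])] at h7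
    apply hc1 i w
    have h8 : c * c = 1 := by rw [← sq]; exact h.pow
    calc c = (x ^ (2 * i) * y ^ (2 * w) * c) * c := by rw [h7, one_mul]
      _ = _ := by rw [mul_assoc, h8, mul_one]
  rw [h.pow_even (even_iff_two_dvd.2 hk), mul_one] at h7
  refine ⟨?_, ⟨w, rfl⟩, hk⟩
  by_contra hi
  obtain ⟨m, hm⟩ := Subgroup.mem_zpowers_iff.1
    (mem_zpowers_zpow (p := 2) hG (x ^ (2 : ℤ)) (k := i) hi)
  apply hc2 (-w * m)
  rw [← hm, ← zpow_mul x, mul_eq_one_iff_eq_inv.1 h7, ← zpow_neg, ← zpow_mul]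
  congr 1
  ring

lemma metacyc_two_aux (hG : IsPGroup 2 G) (hS : ¬ Sec 2 G 3) (h : CData 2 c) {x y : G}
    (hxy : Subgroup.closure {x, y} = ⊤) {u w : ℤ} (hc : c = x ^ (2 * u) * y ^ (2 * w)) :
    Metacyc G := by
  have hyx : Subgroup.closure {y, x} = ⊤ := by rwa [Set.pair_comm]
  have hsw := h.swap_two hxy
  have huw : ¬ (u = 0 ∧ w = 0) := by
    rintro ⟨rfl, rfl⟩
    apply h.ne
    rw [hc]
    simp
  obtain ⟨r, u', w', rfl, rfl, huw'⟩ := exists_prime_pow (p := 2) Nat.prime_two huw
  push_cast at hc huw'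
  have hx2 : ∀ (k : ℤ) (g : G), Commute (x ^ (2 * k)) g := by
    intro k g
    obtain ⟨i, j, l, rfl⟩ := h.form hxy g
    have e1 : Commute (x ^ (2 * k)) (x ^ i) := Commute.zpow_zpow_self x _ _
    have e2 : Commute (x ^ (2 * k)) (y ^ j) := by
      have h2 := h.swap_zpow hsw (2 * k) j
      rw [h.pow_even ⟨k * j, by ring⟩, one_mul] at h2
      exact h2.symm
    exact (e1.mul_right e2).mul_right (h.zc _ _).symm
  have hz := h.sq_two hsw u' w'
  set z := x ^ u' * y ^ w' with hzdef
  have hzz : z ^ (2 : ℤ) = z * z := by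
    rw [zpow_ofNat, sq]
  have hpow : (z ^ (2 : ℤ)) ^ ((2 : ℤ) ^ r) = c ^ (u' * w' * 2 ^ r + 1) := by
    rw [hzz, hz]
    have e3 : Commute (c ^ (u' * w')) (x ^ (2 * u') * y ^ (2 * w')) := h.zc _ _
    have e4 : Commute (x ^ (2 * u')) (y ^ (2 * w')) := hx2 _ _
    rw [e3.mul_zpow, e4.mul_zpow, ← zpow_mul, ← zpow_mul, ← zpow_mul, zpow_add, zpow_one]
    congr 1
    rw [hc]
    congr 2 <;> ring
  by_cases hodd : Odd (u' * w' * 2 ^ r)
  · -- then `r = 0` and both are odd
    have hr : r = 0 := by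
      by_contra hr
      rw [← Int.not_even_iff_odd] at hodd
      exact hodd ((Int.even_pow.2 ⟨even_two, hr⟩).mul_left _)
    subst hr
    rw [pow_zero, mul_one] at hodd hpow
    rw [zpow_one, h.pow_even hodd.add_one] at hpow
    obtain ⟨hu, hw⟩ := Int.odd_mul.1 hodd
    have hw2 : ¬ (2 : ℤ) ∣ w' := by rwa [← even_iff_two_dvd, Int.not_even_iff_odd]
    have hzx : Subgroup.closure {z, x} = ⊤ := gen_right (p := 2) hG h hxy hw2
    have hxz : Subgroup.closure {x, z} = ⊤ := by rwa [Set.pair_comm]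
    rcases h.dichotomy hG hS hxz with ⟨u'', w'', h1⟩ | ⟨t, h1⟩
    · rw [zpow_mul z, hpow, one_zpow, mul_one] at h1
      exact h.metacyc hxy (h1 ▸ Subgroup.zpow_mem_zpowers x _)
    · rw [zpow_mul, hpow, one_zpow] at h1
      rw [zpow_mul x, h1, one_zpow, one_mul] at hc
      refine h.metacyc hyx ?_
      have : y ^ (2 * (2 ^ 0 * w')) ∈ Subgroup.zpowers y := Subgroup.zpow_mem_zpowers y _
      rwa [← hc] at this
  · rw [h.pow_odd (Int.not_odd_iff_even.1 hodd).add_one, ← zpow_mul] at hpow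
    refine h.metacyc_of_pow (p := 2) hG hxy huw' ?_
    have : z ^ ((2 : ℤ) * 2 ^ r) ∈ Subgroup.zpowers z := Subgroup.zpow_mem_zpowers z _
    rwa [hpow] at this

lemma metacyc_two (hG : IsPGroup 2 G) (hS : ¬ Sec 2 G 3) (h : CData 2 c) {x y : G}
    (hxy : Subgroup.closure {x, y} = ⊤) : Metacyc G := by
  have hyx : Subgroup.closure {y, x} = ⊤ := by rwa [Set.pair_comm]
  have hsw := h.swap_two hxy
  rcases h.dichotomy hG hS hxy with ⟨u, w, h1⟩ | ⟨t, h1⟩
  · exact h.metacyc_two_aux hG hS hxy h1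
  rcases h.dichotomy hG hS hyx with ⟨u, w, h2⟩ | ⟨s, h2⟩
  · exact h.metacyc_two_aux hG hS hyx h2
  -- we may assume that `t` is odd
  have key : ∀ t : ℤ, Odd t → x ^ (2 : ℤ) = y ^ (2 * t) → Metacyc G := by
    intro t ht h3
    have h4 := h.sq_two hsw 1 (-t)
    rw [mul_one, h3, one_mul, h.pow_odd ht.neg, ← zpow_add, mul_neg, add_neg_cancel, zpow_zero,
      mul_one] at h4
    refine h.metacyc_of_pow (p := 2) hG hxy (i := 1) (j := -t) ?_ ?_
    · rintro ⟨h5, -⟩
      norm_num at h5
    · rw [← h4]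
      exact Subgroup.mul_mem _ (Subgroup.mem_zpowers _) (Subgroup.mem_zpowers _)
  rcases Int.even_or_odd t with ⟨t', rfl⟩ | ht
  · have h5 : (x ^ (2 : ℤ)) ^ (1 - 2 * (s * t')) = 1 := by
      rw [zpow_sub, zpow_one]
      have h6 : (x ^ (2 : ℤ)) ^ (2 * (s * t')) = x ^ (2 : ℤ) := by
        calc (x ^ (2 : ℤ)) ^ (2 * (s * t')) = (x ^ (2 * s)) ^ (2 * t') := by
              rw [← zpow_mul, ← zpow_mul]; congr 1; ring
          _ = x ^ (2 : ℤ) := by rw [← h2, ← zpow_mul, h1]; congr 1; ring
      rw [h6, mul_inv_cancel]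
    have h7 : x ^ (2 : ℤ) = 1 := by
      have h8 : ¬ ((2 : ℕ) : ℤ) ∣ 1 - 2 * (s * t') := by
        push_cast
        omega
      have h9 := mem_zpowers_zpow (p := 2) hG (x ^ (2 : ℤ)) h8
      rw [h5, Subgroup.mem_zpowers_iff] at h9
      obtain ⟨m, hm⟩ := h9
      rw [← hm, one_zpow]
    refine key 1 odd_one ?_
    rw [mul_one, h2, h7, zpow_mul, h7, one_zpow]
  · exact key t ht h1

end Two

section Odd

variable {p : ℕ} [hp : Fact p.Prime] {G : Type} [Group G] {c : G}

omit hp in
lemma pow_swap (h : CData p c) {x y : G} {k : ℤ} (hk : y * x = c ^ k * (x * y)) (n : ℕ) :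
    y ^ n * x = c ^ (k * n) * (x * y ^ n) := by
  induction n with
  | zero => simp
  | succ n ih =>
    calc y ^ (n + 1) * x = y * (y ^ n * x) := by rw [pow_succ']; group
      _ = (y * c ^ (k * n)) * (x * y ^ n) := by rw [ih]; group
      _ = c ^ (k * n) * (y * x) * y ^ n := by rw [← h.zc]; group
      _ = c ^ (k * (n + 1 : ℕ)) * (x * y ^ (n + 1)) := by
        rw [hk, pow_succ']
        push_cast
        rw [mul_add, zpow_add, mul_one]
        group

omit hp in
lemma mul_pow' (h : CData p c) {x y : G} {k : ℤ} (hk : y * x = c ^ k * (x * y)) (n : ℕ) :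
    (x * y) ^ n = c ^ (k * (n.choose 2 : ℕ)) * (x ^ n * y ^ n) := by
  induction n with
  | zero => simp
  | succ n ih =>
    calc (x * y) ^ (n + 1) = (x * y) ^ n * (x * y) := pow_succ _ _
      _ = c ^ (k * (n.choose 2 : ℕ)) * (x ^ n * (y ^ n * x) * y) := by rw [ih]; group
      _ = c ^ (k * (n.choose 2 : ℕ)) * ((x ^ n * c ^ (k * n)) * (x * y ^ n * y)) := by
        rw [h.pow_swap hk]; group
      _ = c ^ (k * (n.choose 2 : ℕ)) * (c ^ (k * n) * x ^ n * (x * y ^ n * y)) := by
        rw [← h.zc]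
      _ = c ^ (k * ((n + 1).choose 2 : ℕ)) * (x ^ (n + 1) * y ^ (n + 1)) := by
        rw [Nat.choose_succ_succ' n 1, Nat.choose_one_right]
        push_cast
        rw [mul_add, add_comm, zpow_add, pow_succ, pow_succ]
        group

lemma mul_pow_p (h : CData p c) (hp2 : p ≠ 2) (x y : G) : (x * y) ^ p = x ^ p * y ^ p := by
  obtain ⟨k, hk⟩ := h.swap x y
  rw [h.mul_pow' hk]
  have h1 : p ∣ p.choose 2 := Nat.Prime.dvd_choose_self hp.out two_ne_zero
    (lt_of_le_of_ne hp.out.two_le hp2.symm)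
  obtain ⟨m, hm⟩ := h1
  have h2 : c ^ (k * (p.choose 2 : ℕ)) = 1 := by
    rw [hm]
    push_cast
    rw [show k * ((p : ℤ) * m) = p * (k * m) by ring, zpow_mul, zpow_natCast, h.pow, one_zpow]
  rw [h2, one_mul]

/-- The `p`-th power map. -/
def powHom (h : CData p c) (hp2 : p ≠ 2) : G →* G :=
  MonoidHom.mk' (fun x => x ^ p) (h.mul_pow_p hp2)

lemma mul_pow_pow (h : CData p c) (hp2 : p ≠ 2) (r : ℕ) (x y : G) :
    (x * y) ^ p ^ r = x ^ p ^ r * y ^ p ^ r := by
  induction r with
  | zero => simp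
  | succ r ih => rw [pow_succ, pow_mul, pow_mul, pow_mul, ih, h.mul_pow_p hp2]

lemma metacyc_or_heis [Finite G] (hG : IsPGroup p G) (h : CData p c) (hp2 : p ≠ 2) {a b : G}
    (hab : Subgroup.closure {a, b} = ⊤) : Metacyc G ∨ HeisQ p G := by
  by_cases hc : c ∈ (h.powHom hp2).range
  · left
    obtain ⟨x, hx⟩ := hc
    change x ^ p = c at hx
    obtain ⟨i, j, k, rfl⟩ := h.form hab x
    have h1 : c = (a ^ i * b ^ j) ^ p := by
      rw [← hx, h.mul_pow_p hp2, ← zpow_natCast (c ^ k), ← zpow_mul, mul_comm k, zpow_mul,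
        zpow_natCast, h.pow, one_zpow, mul_one]
    have hij : ¬ (i = 0 ∧ j = 0) := by
      rintro ⟨rfl, rfl⟩
      apply h.ne
      rw [h1]
      simp
    obtain ⟨r, i', j', rfl, rfl, hij'⟩ := exists_prime_pow hp.out hij
    refine h.metacyc_of_pow hG hab hij' ?_
    have h2 : a ^ ((p : ℤ) ^ r * i') * b ^ ((p : ℤ) ^ r * j') = (a ^ i' * b ^ j') ^ p ^ r := by
      rw [h.mul_pow_pow hp2, ← zpow_natCast, ← zpow_natCast, ← zpow_mul, ← zpow_mul]
      push_cast
      rw [mul_comm, mul_comm ((p : ℤ) ^ r) j', mul_comm i']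
    rw [h1, h2, ← pow_mul]
    exact Subgroup.npow_mem_zpowers _ _
  · right
    have hn : (h.powHom hp2).range.Normal := by
      constructor
      rintro _ ⟨x, rfl⟩ g
      exact ⟨g * x * g⁻¹, conj_pow⟩
    set R := (h.powHom hp2).range with hR
    have hexp : ∀ q : G ⧸ R, q ^ p = 1 := by
      intro q
      induction q using QuotientGroup.induction_on with
      | H g =>
        rw [← QuotientGroup.mk_pow, QuotientGroup.eq_one_iff]
        exact ⟨g, rfl⟩
    have hnc : ¬ ∀ x y : G ⧸ R, x * y = y * x := by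
      intro h1
      apply hc
      have h2 : commutator G ≤ R := by
        rw [commutator_def, Subgroup.commutator_le]
        intro g1 _ g2 _
        rw [← QuotientGroup.eq_one_iff]
        change QuotientGroup.mk' R _ = 1
        rw [map_commutatorElement, commutatorElement_eq_one_iff_commute]
        exact h1 _ _
      exact h2 h.mem
    have hmod : ∀ (x : G) (k : ℤ), ∃ i : Fin p, ((x ^ k : G) : G ⧸ R) = ((x : G ⧸ R)) ^ (i : ℕ) := by
      intro x k
      have hp0 : (0 : ℤ) < p := by exact_mod_cast hp.out.pos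
      refine ⟨⟨(k % p).toNat, ?_⟩, ?_⟩
      · have := Int.emod_lt_of_pos k hp0
        have := Int.emod_nonneg k hp0.ne'
        omega
      · have h1 : ((k % p).toNat : ℤ) = k % p := Int.toNat_of_nonneg (Int.emod_nonneg k hp0.ne')
        change _ = (x : G ⧸ R) ^ (k % p).toNat
        rw [← zpow_natCast, h1, QuotientGroup.mk_zpow]
        conv_lhs => rw [← Int.emod_add_mul_ediv k p, zpow_add, zpow_mul, zpow_natCast, hexp,
          one_zpow, mul_one]
    have hsurj : Function.Surjective (fun t : Fin p × Fin p × Fin p =>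
        (a : G ⧸ R) ^ (t.1 : ℕ) * (b : G ⧸ R) ^ (t.2.1 : ℕ) * (c : G ⧸ R) ^ (t.2.2 : ℕ)) := by
      intro q
      induction q using QuotientGroup.induction_on with
      | H g =>
        obtain ⟨i, j, k, rfl⟩ := h.form hab g
        obtain ⟨i', hi'⟩ := hmod a i
        obtain ⟨j', hj'⟩ := hmod b j
        obtain ⟨k', hk'⟩ := hmod c k
        refine ⟨(i', j', k'), ?_⟩
        rw [QuotientGroup.mk_mul, QuotientGroup.mk_mul, hi', hj', hk']
    have hle : Nat.card (G ⧸ R) ≤ p ^ 3 := by
      have h1 := Nat.card_le_card_of_surjective _ hsurj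
      simp only [Nat.card_prod, Nat.card_fin] at h1
      calc _ ≤ _ := h1
        _ = p ^ 3 := by ring
    obtain ⟨m, hm⟩ := IsPGroup.iff_card.1 (hG.to_quotient R)
    have hm3 : m ≤ 3 := by
      rw [hm] at hle
      exact (Nat.pow_le_pow_iff_right hp.out.one_lt).1 hle
    have hm' : m = 3 := by
      interval_cases m
      · exfalso
        apply hnc
        rw [pow_zero, Nat.card_eq_one_iff_unique] at hm
        have := hm.1
        intro x y
        exact Subsingleton.elim _ _
      · exfalso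
        apply hnc
        rw [pow_one] at hm
        have := isCyclic_of_prime_card hm
        intro x y
        exact (IsCyclic.commGroup).mul_comm x y
      · exfalso
        have := IsPGroup.isMulCommutative_of_card_eq_prime_sq hm
        exact hnc this.is_comm.comm
      · rfl
    exact ⟨G ⧸ R, inferInstance, inferInstance, QuotientGroup.mk' R, QuotientGroup.mk'_surjective R,
      hm' ▸ hm, hexp, hnc⟩

end Odd

end CData

end Vale.Agent.P241
end

section

namespace Vale.Agent.P241

open scoped commutatorElement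

theorem trichotomy_aux {p : ℕ} [hp : Fact p.Prime] (n : ℕ) : ∀ (G : Type) [Group G] [Finite G],
    IsPGroup p G → Nat.card G ≤ n → Metacyc G ∨ Sec p G 3 ∨ HeisQ p G := by
  induction n with
  | zero =>
    intro G _ _ _ h
    exact absurd h (by have := Nat.card_pos (α := G); omega)
  | succ n ih =>
    intro G _ _ hG hn
    by_cases hS : Sec p G 3
    · exact Or.inr (Or.inl hS)
    by_cases hH : HeisQ p G
    · exact Or.inr (Or.inr hH)
    left
    obtain ⟨a, b, hab⟩ := exists_two_gens hG hS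
    by_cases hc : commutator G = ⊥
    · have h1 : Subgroup.closure {a, b} = ⊤ := by
        rw [eq_top_iff]
        intro g _
        obtain ⟨x, hx, y, hy, rfl⟩ := hab g
        rw [hc, Subgroup.mem_bot] at hy
        rwa [hy, mul_one]
      refine metacyc_of_gen h1 ⟨fun n hn g => ?_⟩
      have h2 : ⁅g, n⁆ ∈ commutator G :=
        Subgroup.commutator_mem_commutator (Subgroup.mem_top _) (Subgroup.mem_top _)
      rw [hc, Subgroup.mem_bot, commutatorElement_eq_one_iff_mul_comm] at h2
      rwa [h2, mul_inv_cancel_right]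
    · obtain ⟨z, hz, hzc, hzo⟩ := exists_central hG hc
      have hzn : (Subgroup.zpowers z).Normal := by
        refine ⟨fun n hn g => ?_⟩
        obtain ⟨k, rfl⟩ := Subgroup.mem_zpowers_iff.1 hn
        have h1 : Commute g z := Subgroup.mem_center_iff.1 hzc g
        rw [(h1.zpow_right k).eq, mul_inv_cancel_right]
        exact hn
      have hz1 : z ≠ 1 := by
        rintro rfl
        rw [orderOf_one] at hzo
        exact hp.out.one_lt.ne hzo
      by_cases hle : commutator G ≤ Subgroup.zpowers z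
      · have hC : CData p z :=
          ⟨Subgroup.mem_center_iff.1 hzc, hzo ▸ pow_orderOf_eq_one z, hz1, hle, hz⟩
        have h1 : Subgroup.closure {a, b} = ⊤ := by
          apply hC.eq_top
          rw [eq_top_iff]
          intro g _
          obtain ⟨x, hx, y, hy, rfl⟩ := hab g
          exact Subgroup.mul_mem_sup hx (hle hy)
        by_cases h2 : p = 2
        · subst h2
          exact hC.metacyc_two hG hS h1
        · exact (hC.metacyc_or_heis hG h2 h1).resolve_right hH
      · have hcard : Nat.card (G ⧸ Subgroup.zpowers z) ≤ n := by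
          have h1 := Subgroup.card_eq_card_quotient_mul_card_subgroup (Subgroup.zpowers z)
          rw [Nat.card_zpowers, hzo] at h1
          have h2 : 0 < Nat.card (G ⧸ Subgroup.zpowers z) := Nat.card_pos
          have h3 := hp.out.two_le
          nlinarith
        rcases ih (G ⧸ Subgroup.zpowers z) (hG.to_quotient _) hcard with h | h | h
        · exact metacyc_of_quotient hG hzc hzo hz hle h
        · exact absurd (h.of_surjective _ (QuotientGroup.mk'_surjective _)) hS
        · exact absurd (h.of_surjective _ (QuotientGroup.mk'_surjective _)) hH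

/-- Every finite `p`-group is metacyclic, or has an abelian section of rank `3`, or has a
nonabelian quotient of order `p ^ 3` and exponent `p`. -/
theorem trichotomy {p : ℕ} [hp : Fact p.Prime] (G : Type) [Group G] [Finite G]
    (hG : IsPGroup p G) : Metacyc G ∨ Sec p G 3 ∨ HeisQ p G :=
  trichotomy_aux _ G hG le_rfl

theorem cyclic_or_sec_aux {p : ℕ} [hp : Fact p.Prime] (n : ℕ) : ∀ (G : Type) [Group G] [Finite G],
    IsPGroup p G → Nat.card G ≤ n → IsCyclic G ∨ Sec p G 2 := by
  induction n with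
  | zero =>
    intro G _ _ _ h
    exact absurd h (by have := Nat.card_pos (α := G); omega)
  | succ n ih =>
    intro G _ _ hG hn
    have : Finite (Abelianization G) := inferInstanceAs (Finite (G ⧸ commutator G))
    by_cases h : Sec p G 2
    · exact Or.inr h
    left
    by_cases hc : commutator G = ⊥
    · have h1 : Group.rank (Abelianization G) ≤ 1 := by
        by_contra h2
        apply h
        refine ⟨G, Abelianization G, inferInstance, inferInstance, inferInstance, MonoidHom.id G,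
          Abelianization.of, ?_, QuotientGroup.mk'_surjective _, ?_, by omega⟩
        · exact hG.to_quotient _
        · rintro x rfl
          exact map_one _
      have h2 : IsCyclic (Abelianization G) := by
        obtain ⟨S, hS, hS'⟩ := Group.rank_spec (Abelianization G)
        have h3 : ∃ u : Abelianization G, (S : Set (Abelianization G)) ⊆ {u} := by
          rw [← hS] at h1
          rcases Nat.le_one_iff_eq_zero_or_eq_one.1 h1 with h3 | h3
          · rw [Finset.card_eq_zero] at h3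
            subst h3
            exact ⟨1, by simp⟩
          · obtain ⟨u, rfl⟩ := Finset.card_eq_one.1 h3
            exact ⟨u, by simp⟩
        obtain ⟨u, hu⟩ := h3
        refine ⟨u, fun x => ?_⟩
        have h4 : (⊤ : Subgroup (Abelianization G)) ≤ Subgroup.zpowers u := by
          rw [← hS', Subgroup.closure_le]
          intro y hy
          rw [Set.mem_singleton_iff.1 (hu hy)]
          exact Subgroup.mem_zpowers u
        exact h4 (Subgroup.mem_top x)
      exact isCyclic_of_injective (Abelianization.of (G := G)) (by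
        rw [← MonoidHom.ker_eq_bot_iff, Abelianization.ker_of, hc])
    · exfalso
      obtain ⟨z, hz, hzc, hzo⟩ := exists_central hG hc
      have hzn : (Subgroup.zpowers z).Normal := by
        refine ⟨fun n hn g => ?_⟩
        obtain ⟨k, rfl⟩ := Subgroup.mem_zpowers_iff.1 hn
        have h1 : Commute g z := Subgroup.mem_center_iff.1 hzc g
        rw [(h1.zpow_right k).eq, mul_inv_cancel_right]
        exact hn
      have hcard : Nat.card (G ⧸ Subgroup.zpowers z) ≤ n := by
        have h1 := Subgroup.card_eq_card_quotient_mul_card_subgroup (Subgroup.zpowers z)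
        rw [Nat.card_zpowers, hzo] at h1
        have h2 : 0 < Nat.card (G ⧸ Subgroup.zpowers z) := Nat.card_pos
        have h3 := hp.out.two_le
        nlinarith
      rcases ih (G ⧸ Subgroup.zpowers z) (hG.to_quotient _) hcard with h1 | h1
      · apply hc
        have h2 := commutative_of_cyclic_center_quotient (QuotientGroup.mk' (Subgroup.zpowers z))
          (by rw [QuotientGroup.ker_mk', Subgroup.zpowers_le]; exact hzc)
        rw [commutator_def, eq_bot_iff, Subgroup.commutator_le]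
        intro g1 _ g2 _
        rw [Subgroup.mem_bot, commutatorElement_eq_one_iff_mul_comm]
        exact h2 g1 g2
      · exact h (h1.of_surjective _ (QuotientGroup.mk'_surjective _))

/-- A noncyclic finite `p`-group has an abelian section of rank `2`. -/
theorem cyclic_or_sec {p : ℕ} [hp : Fact p.Prime] (G : Type) [Group G] [Finite G]
    (hG : IsPGroup p G) : IsCyclic G ∨ Sec p G 2 :=
  cyclic_or_sec_aux _ G hG le_rfl

end Vale.Agent.P241
end

section

namespace Vale.Agent.P241

/-- One step of a cyclic chain. -/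
def Step {G : Type} [Group G] (A B : Subgroup G) : Prop :=
  A ≤ B ∧ ∃ _ : (A.subgroupOf B).Normal, IsCyclic (B ⧸ A.subgroupOf B)

lemma hasCyclicChain_iff {G : Type} [Group G] {A B : Subgroup G} {s : ℕ} :
    HasCyclicChain A B s ↔ ∃ c : ℕ → Subgroup G, c 0 = A ∧ c s = B ∧ ∀ i < s, Step (c i) (c (i + 1)) :=
  Iff.rfl

section

variable {G G' : Type} [Group G] [Group G']

lemma Step.comap (f : G' →* G) {A B : Subgroup G} (h : Step A B) :
    Step (A.comap f) (B.comap f) := by
  obtain ⟨h1, h2, h3⟩ := h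
  let f' : B.comap f →* B := (f.comp (B.comap f).subtype).codRestrict B (fun x => x.2)
  have h4 : (A.comap f).subgroupOf (B.comap f) = (A.subgroupOf B).comap f' := by
    ext x
    rfl
  refine ⟨Subgroup.comap_mono h1, ?_⟩
  rw [h4]
  exact ⟨inferInstance, isCyclic_quotient_comap f' _ h3⟩

lemma Step.map (f : G →* G') {A B : Subgroup G} (h : Step A B) :
    Step (A.map f) (B.map f) := by
  obtain ⟨h1, h2, h3⟩ := h
  let f' : B →* B.map f := (f.comp B.subtype).codRestrict (B.map f) (fun x => ⟨x, x.2, rfl⟩)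
  have hf' : Function.Surjective f' := by
    rintro ⟨_, x, hx, rfl⟩
    exact ⟨⟨x, hx⟩, rfl⟩
  have h4 : (A.map f).subgroupOf (B.map f) = (A.subgroupOf B).map f' := by
    ext ⟨x, hx⟩
    constructor
    · rintro ⟨a, ha, hax⟩
      exact ⟨⟨a, h1 ha⟩, ha, Subtype.ext hax⟩
    · rintro ⟨⟨a, ha'⟩, ha, hax⟩
      exact ⟨a, ha, congrArg Subtype.val hax⟩
  have h5 : ((A.map f).subgroupOf (B.map f)).Normal := by
    rw [h4]
    exact h2.map f' hf'
  refine ⟨Subgroup.map_mono h1, h5, ?_⟩
  let q : B ⧸ A.subgroupOf B →* B.map f ⧸ (A.map f).subgroupOf (B.map f) :=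
    QuotientGroup.map _ _ f' (by rw [h4]; exact Subgroup.le_comap_map _ _)
  refine isCyclic_of_surjective q ?_
  intro y
  obtain ⟨y, rfl⟩ := QuotientGroup.mk'_surjective _ y
  obtain ⟨x, rfl⟩ := hf' y
  exact ⟨QuotientGroup.mk' _ x, rfl⟩

lemma HasCyclicChain.comap (f : G' →* G) {A B : Subgroup G} {s : ℕ} (h : HasCyclicChain A B s) :
    HasCyclicChain (A.comap f) (B.comap f) s := by
  obtain ⟨c, h0, h1, h2⟩ := h
  subst h0 h1
  exact ⟨fun i => (c i).comap f, rfl, rfl, fun i hi => (show Step _ _ from h2 i hi).comap f⟩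

/-- A chain obtained by gluing two chains. -/
lemma HasCyclicChain.append {A B C : Subgroup G} {s t : ℕ} (h : HasCyclicChain A B s)
    (h' : HasCyclicChain B C t) : HasCyclicChain A C (s + t) := by
  obtain ⟨c, h0, h1, h2⟩ := h
  obtain ⟨d, h0', h1', h2'⟩ := h'
  refine ⟨fun i => if i ≤ s then c i else d (i - s), ?_, ?_, ?_⟩
  · simp [h0]
  · by_cases ht : t = 0
    · subst ht
      rw [h1'.symm.trans h0'] at *
      simp [h1]
    · have : ¬ s + t ≤ s := by omega
      simp only [this, if_false]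
      rw [Nat.add_sub_cancel_left, h1']
  · intro i hi
    change Step _ _
    by_cases h3 : i + 1 ≤ s
    · have h4 : i ≤ s := by omega
      simp only [h3, h4, if_true]
      exact h2 i (by omega)
    · by_cases h4 : i ≤ s
      · have h5 : i = s := by omega
        subst h5
        simp only [h3, if_true, if_false, le_refl]
        rw [h1, ← h0', Nat.add_sub_cancel_left]
        exact h2' 0 (by omega)
      · simp only [h3, h4, if_false]
        have h5 : i + 1 - s = (i - s) + 1 := by omega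
        rw [h5]
        exact h2' (i - s) (by omega)

end

section

variable {p : ℕ} [hp : Fact p.Prime] {G : Type} [Group G]

/-- In a cyclic `p`-group any two elements are comparable. -/
lemma mem_zpowers_or (hG : IsPGroup p G) [IsCyclic G] (x y : G) :
    x ∈ Subgroup.zpowers y ∨ y ∈ Subgroup.zpowers x := by
  obtain ⟨t, ht⟩ := IsCyclic.exists_generator (α := G)
  obtain ⟨i, rfl⟩ := Subgroup.mem_zpowers_iff.1 (ht x)
  obtain ⟨j, rfl⟩ := Subgroup.mem_zpowers_iff.1 (ht y)
  by_cases h0 : i = 0 ∧ j = 0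
  · left
    rw [h0.1, zpow_zero]
    exact Subgroup.one_mem _
  obtain ⟨r, i', j', rfl, rfl, h⟩ := CData.exists_prime_pow hp.out h0
  have key : ∀ (i j : ℤ), ¬ (p : ℤ) ∣ j →
      t ^ ((p : ℤ) ^ r * i) ∈ Subgroup.zpowers (t ^ ((p : ℤ) ^ r * j)) := by
    intro i j hj
    rw [zpow_mul, zpow_mul]
    exact Subgroup.zpow_mem _ (mem_zpowers_zpow hG _ hj) i
  by_cases hj : (p : ℤ) ∣ j'
  · exact Or.inr (key j' i' fun hi => h ⟨hi, hj⟩)
  · exact Or.inl (key i' j' hj)

lemma Step.gap [Finite G] (hG : IsPGroup p G) {A B : Subgroup G} (h : Step A B) {g W : G}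
    (hg : g ∈ B) (hW : W ∈ B) {N : ℕ} (hN : g ^ N = 1) (hWN : W ^ N ∉ A) (hc : Commute g W) :
    ∃ n : ℤ, g * W ^ n ∈ A := by
  obtain ⟨h1, h2, h3⟩ := h
  have hQ : IsPGroup p (B ⧸ A.subgroupOf B) := (hG.to_subgroup B).to_quotient _
  rcases mem_zpowers_or hQ (QuotientGroup.mk' (A.subgroupOf B) ⟨g, hg⟩)
    (QuotientGroup.mk' (A.subgroupOf B) ⟨W, hW⟩) with h4 | h4
  · obtain ⟨n, hn⟩ := Subgroup.mem_zpowers_iff.1 h4
    refine ⟨-n, ?_⟩
    have h5 : (⟨g, hg⟩ : B) * ⟨W, hW⟩ ^ (-n) ∈ A.subgroupOf B := by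
      rw [← QuotientGroup.ker_mk' (A.subgroupOf B), MonoidHom.mem_ker, map_mul, map_zpow, ← hn,
        ← zpow_add, add_neg_cancel, zpow_zero]
    exact h5
  · exfalso
    obtain ⟨n, hn⟩ := Subgroup.mem_zpowers_iff.1 h4
    apply hWN
    have h5 : (⟨W, hW⟩ : B) ^ N ∈ A.subgroupOf B := by
      rw [← QuotientGroup.ker_mk' (A.subgroupOf B), MonoidHom.mem_ker, map_pow, ← hn,
        ← zpow_natCast, ← zpow_mul, mul_comm, zpow_mul, zpow_natCast, ← map_pow]
      have h6 : (⟨g, hg⟩ : B) ^ N = 1 := Subtype.ext hN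
      rw [h6, map_one, one_zpow]
    exact h5

/-- A cyclic chain in `G × C`, with `C` a large cyclic group, gives a shorter one in `G`. -/
theorem chain_prod [Finite G] (hG : IsPGroup p G) {C : Type} [Group C] [Finite C]
    (hC : IsPGroup p C) (w : C) {β k : ℕ} (hβ : Nat.card G = p ^ β) (hw : orderOf w = p ^ k)
    {H : Subgroup G} {s : ℕ} (hk : s * β < k)
    (h : HasCyclicChain (H.prod (⊥ : Subgroup C)) ⊤ s) :
    ∃ s', s' + 1 = s ∧ HasCyclicChain H ⊤ s' := by
  obtain ⟨c, h0, hs, hc⟩ := hasCyclicChain_iff.1 h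
  have hGC : IsPGroup p (G × C) := by
    intro x
    obtain ⟨i, hi⟩ := hG x.1
    obtain ⟨j, hj⟩ := hC x.2
    refine ⟨i + j, Prod.ext ?_ ?_⟩
    · rw [Prod.pow_fst, pow_add, pow_mul, hi, one_pow]; rfl
    · rw [Prod.pow_snd, pow_add, mul_comm, pow_mul, hj, one_pow]; rfl
  -- the level at which `c i` meets `C`
  let P : ℕ → ℕ → Prop := fun i a => ((1 : G), w) ^ p ^ a ∈ c i
  have hP : ∀ i, ∃ a, P i a := fun i => ⟨k, by
    change ((1 : G), w) ^ p ^ k ∈ c i
    have : ((1 : G), w) ^ p ^ k = 1 := by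
      rw [Prod.pow_mk, one_pow, ← hw, pow_orderOf_eq_one]; rfl
    rw [this]
    exact Subgroup.one_mem _⟩
  classical
  let a : ℕ → ℕ := fun i => Nat.find (hP i)
  have ha : ∀ i, P i (a i) := fun i => Nat.find_spec (hP i)
  have ha' : ∀ i b, P i b → a i ≤ b := fun i b hb => Nat.find_min' (hP i) hb
  have ha0 : k ≤ a 0 := by
    have h1 := ha 0
    change ((1 : G), w) ^ p ^ (a 0) ∈ c 0 at h1
    rw [h0, Prod.pow_mk, Subgroup.mem_prod] at h1
    have h2 : w ^ p ^ (a 0) = 1 := h1.2
    have h3 := orderOf_dvd_of_pow_eq_one h2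
    rw [hw] at h3
    exact (Nat.pow_dvd_pow_iff_le_right hp.out.one_lt).1 h3
  have has : a s = 0 := by
    have := ha' s 0 (by change _ ∈ c s; rw [hs]; exact Subgroup.mem_top _)
    omega
  have hex : ∃ i < s, a (i + 1) + β < a i := by
    by_contra hcon
    push Not at hcon
    have h1 : ∀ i ≤ s, a 0 ≤ a i + i * β := by
      intro i
      induction i with
      | zero => intro _; simp
      | succ i ih =>
        intro hi
        have h2 := ih (by omega)
        have h3 := hcon i (by omega)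
        calc a 0 ≤ a i + i * β := h2
          _ ≤ a (i + 1) + β + i * β := by omega
          _ = a (i + 1) + (i + 1) * β := by ring
    have h2 := h1 s le_rfl
    omega
  obtain ⟨i, his, hi⟩ := hex
  set W : G × C := ((1 : G), w) ^ p ^ (a (i + 1)) with hWdef
  have hWB : W ∈ c (i + 1) := ha (i + 1)
  have hWA : W ^ p ^ β ∉ c i := by
    intro h1
    rw [hWdef, ← pow_mul, ← pow_add] at h1
    have := ha' i _ h1
    omega
  have hW1 : W.1 = 1 := by rw [hWdef, Prod.pow_mk, one_pow]
  have hcomm : ∀ g : G, Commute ((g, 1) : G × C) W := by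
    intro g
    refine Prod.ext ?_ ?_
    · change g * W.1 = W.1 * g
      rw [hW1]; simp
    · change 1 * W.2 = W.2 * 1
      simp
  -- the map `(g, n) ↦ (g, W ^ n)`
  let f : G × Multiplicative ℤ →* G × C :=
    MonoidHom.mk' (fun t => (t.1, 1) * W ^ t.2.toAdd) (by
      rintro ⟨g, n⟩ ⟨g', n'⟩
      change ((g * g', 1) : G × C) * W ^ (n.toAdd + n'.toAdd) =
        ((g, 1) * W ^ n.toAdd) * ((g', 1) * W ^ n'.toAdd)
      rw [zpow_add]
      have h1 : ((g', 1) : G × C) * W ^ n.toAdd = W ^ n.toAdd * (g', 1) :=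
        (hcomm g').zpow_right _
      have h2 : ((g * g', 1) : G × C) = (g, 1) * (g', 1) := by simp
      rw [h2]
      calc _ = ((g, 1) : G × C) * ((g', 1) * W ^ n.toAdd) * W ^ n'.toAdd := by
            simp only [mul_assoc]
        _ = _ := by rw [h1]; simp only [mul_assoc])
  let D : ℕ → Subgroup G := fun j => ((c j).comap f).map (MonoidHom.fst G (Multiplicative ℤ))
  let D' : ℕ → Subgroup G := fun j => (c (i + 1 + j)).comap (MonoidHom.inl G C)
  have hD : HasCyclicChain (D 0) (D i) i := hasCyclicChain_iff.2 ⟨D, rfl, rfl, fun j hj =>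
    ((hc j (by omega)).comap f).map _⟩
  have hD' : HasCyclicChain (D' 0) (D' (s - (i + 1))) (s - (i + 1)) :=
    hasCyclicChain_iff.2 ⟨D', rfl, rfl, fun j hj => (hc (i + 1 + j) (by omega)).comap _⟩
  have hD0 : D 0 = H := by
    ext g
    constructor
    · rintro ⟨⟨g', n⟩, hn, rfl⟩
      change ((g', 1) : G × C) * W ^ n.toAdd ∈ c 0 at hn
      rw [h0, Subgroup.mem_prod] at hn
      have h1 := hn.1
      rw [Prod.fst_mul, Prod.pow_fst] at h1
      rw [hW1, one_zpow, mul_one] at h1
      exact h1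
    · intro hg
      refine ⟨(g, 1), ?_, rfl⟩
      change ((g, 1) : G × C) * W ^ (0 : ℤ) ∈ c 0
      rw [h0, zpow_zero, mul_one]
      exact ⟨hg, Subgroup.one_mem _⟩
  have hDi : D i = D' 0 := by
    ext g
    constructor
    · rintro ⟨⟨g', n⟩, hn, rfl⟩
      change ((g', 1) : G × C) * W ^ n.toAdd ∈ c i at hn
      change ((g', 1) : G × C) ∈ c (i + 1)
      have h1 := Subgroup.mul_mem _ ((hc i his).1 hn) (Subgroup.zpow_mem _ hWB (-n.toAdd))
      rwa [zpow_neg, mul_inv_cancel_right] at h1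
    · intro hg
      change ((g, 1) : G × C) ∈ c (i + 1) at hg
      have h1 : ((g, 1) : G × C) ^ p ^ β = 1 := by
        rw [Prod.pow_mk, ← hβ, pow_card_eq_one', one_pow]; rfl
      obtain ⟨n, hn⟩ := (hc i his).gap hGC hg hWB h1 hWA (hcomm g)
      exact ⟨(g, Multiplicative.ofAdd n), hn, rfl⟩
  have hDs : D' (s - (i + 1)) = ⊤ := by
    change (c (i + 1 + (s - (i + 1)))).comap _ = ⊤
    have : i + 1 + (s - (i + 1)) = s := by omega
    rw [this, hs, Subgroup.comap_top]
  refine ⟨i + (s - (i + 1)), by omega, ?_⟩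
  rw [← hD0, ← hDs]
  refine HasCyclicChain.append hD ?_
  rw [hDi]
  exact hD'

end

end Vale.Agent.P241
end

section

set_option autoImplicit false

namespace Vale.Agent.P241.F

namespace HomSylowAux

variable {p : ℕ} {G S : Type} [Group G] [Group S]

/-- The conjugate of `ρ` by `x` has values in `P`. -/
def InP (P : Subgroup S) (ρ : G →* S) (x : S) : Prop := ∀ g, x⁻¹ * ρ g * x ∈ P

theorem exists_inP [Fact p.Prime] [Finite S] (hG : IsPGroup p G) (P : Sylow p S) (ρ : G →* S) :
    ∃ x, InP (P : Subgroup S) ρ x := by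
  have h1 : IsPGroup p ρ.range := hG.of_surjective ρ.rangeRestrict ρ.rangeRestrict_surjective
  obtain ⟨Q, hQ⟩ := h1.exists_le_sylow
  obtain ⟨x, hx⟩ := MulAction.exists_smul_eq S P Q
  refine ⟨x, fun g => ?_⟩
  have h2 : ρ g ∈ (Q : Subgroup S) := hQ ⟨g, rfl⟩
  rw [← hx, Sylow.smul_def, Sylow.pointwise_smul_def] at h2
  rw [Subgroup.mem_pointwise_smul_iff_inv_smul_mem] at h2
  rw [← map_inv, MulAut.smul_def, MulAut.conj_apply, inv_inv] at h2
  exact h2

theorem inP_conj (P : Subgroup S) (ρ : G →* S) (x y : S) :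
    InP P ((MulAut.conj x).toMonoidHom.comp ρ) y ↔ InP P ρ (x⁻¹ * y) := by
  unfold InP
  refine forall_congr' fun g => ?_
  have h : y⁻¹ * ((MulAut.conj x).toMonoidHom.comp ρ) g * y =
      (x⁻¹ * y)⁻¹ * ρ g * (x⁻¹ * y) := by
    rw [MonoidHom.comp_apply, MulEquiv.coe_toMonoidHom, MulAut.conj_apply]
    group
  rw [h]

/-- The number of `x` such that the conjugate of `ρ` by `x` has values in `P`. -/
noncomputable def cc (P : Subgroup S) (ρ : G →* S) : ℕ := Nat.card {x : S // InP P ρ x}

theorem cc_conj (P : Subgroup S) (ρ : G →* S) (x : S) :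
    cc P ((MulAut.conj x).toMonoidHom.comp ρ) = cc P ρ := by
  unfold cc
  refine Nat.card_congr ((Equiv.mulLeft x⁻¹).subtypeEquiv fun y => ?_)
  exact inP_conj P ρ x y

theorem inP_iff (P : Subgroup S) (φ : G →* S) (x : S) :
    InP P φ x ↔ ∀ g, φ g • (x : S ⧸ P) = x := by
  unfold InP
  refine forall_congr' fun g => ?_
  have h1 : φ g • (x : S ⧸ P) = ((φ g * x : S) : S ⧸ P) := rfl
  rw [h1, eq_comm, QuotientGroup.eq, mul_assoc]

theorem cc_eq [Finite S] (P : Subgroup S) (φ : G →* S) :
    cc P φ = Nat.card P * Nat.card {q : S ⧸ P // ∀ g : G, φ g • q = q} := by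
  unfold cc
  have e := QuotientGroup.preimageMkEquivSubgroupProdSet P {q : S ⧸ P | ∀ g : G, φ g • q = q}
  have h1 : Nat.card {x : S // InP P φ x} =
      Nat.card (QuotientGroup.mk ⁻¹' {q : S ⧸ P | ∀ g : G, φ g • q = q} : Set S) :=
    Nat.card_congr (Equiv.subtypeEquivRight fun x => inP_iff P φ x)
  rw [h1, Nat.card_congr e, Nat.card_prod]
  rfl

end HomSylowAux

/-- Sums over homomorphisms into a finite group and into its Sylow subgroup. -/
theorem sum_hom_sylow {p : ℕ} [Fact p.Prime] {G S : Type} [Group G] [Finite G] [Group S] [Finite S]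
    (hG : IsPGroup p G) (P : Sylow p S) {L : Type} [Field L] [CharZero L] (F : (G →* S) → L)
    (hF : ∀ (ρ : G →* S) (x : S), F ((MulAut.conj x).toMonoidHom.comp ρ) = F ρ) :
    ∑ᶠ ρ : G →* S, F ρ = (Nat.card S : L) * ∑ᶠ φ : G →* P,
      F ((P : Subgroup S).subtype.comp φ) / ((Nat.card P : L) *
        (Nat.card {q : S ⧸ (P : Subgroup S) // ∀ g : G, (φ g : S) • q = q} : L)) := by
  classical
  have hfin1 : Finite (G →* S) := DFunLike.finite _
  have hfin2 : Finite (G →* P) := DFunLike.finite _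
  have : Fintype (G →* S) := Fintype.ofFinite _
  have : Fintype (G →* P) := Fintype.ofFinite _
  have : Fintype S := Fintype.ofFinite _
  have hcc0 : ∀ ρ : G →* S, (HomSylowAux.cc (P : Subgroup S) ρ : L) ≠ 0 := by
    intro ρ
    obtain ⟨x, hx⟩ := HomSylowAux.exists_inP hG P ρ
    have : Nonempty {x : S // HomSylowAux.InP (P : Subgroup S) ρ x} := ⟨⟨x, hx⟩⟩
    exact Nat.cast_ne_zero.2 Nat.card_pos.ne'
  have hcc : ∀ φ : G →* P, (Nat.card P : L) *
      (Nat.card {q : S ⧸ (P : Subgroup S) // ∀ g : G, (φ g : S) • q = q} : L) =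
        (HomSylowAux.cc (P : Subgroup S) ((P : Subgroup S).subtype.comp φ) : L) := by
    intro φ
    rw [HomSylowAux.cc_eq, Nat.cast_mul]
    rfl
  simp only [hcc]
  rw [finsum_eq_sum_of_fintype, finsum_eq_sum_of_fintype]
  have h1 : ∀ ρ : G →* S, F ρ = ∑ x : S, if HomSylowAux.InP (P : Subgroup S) ρ x then
      F ρ / (HomSylowAux.cc (P : Subgroup S) ρ : L) else 0 := by
    intro ρ
    rw [← Finset.sum_filter, Finset.sum_const, nsmul_eq_mul]
    have h2 : (Finset.univ.filter fun x : S => HomSylowAux.InP (P : Subgroup S) ρ x).card =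
        HomSylowAux.cc (P : Subgroup S) ρ := by
      rw [HomSylowAux.cc, Nat.card_eq_fintype_card, Fintype.card_subtype]
    rw [h2, mul_div_cancel₀ _ (hcc0 ρ)]
  rw [Finset.sum_congr rfl fun ρ _ => h1 ρ, Finset.sum_comm]
  have h2 : ∀ x : S, (∑ ρ : G →* S, if HomSylowAux.InP (P : Subgroup S) ρ x then
      F ρ / (HomSylowAux.cc (P : Subgroup S) ρ : L) else 0) =
      ∑ φ : G →* P, F ((P : Subgroup S).subtype.comp φ) /
        (HomSylowAux.cc (P : Subgroup S) ((P : Subgroup S).subtype.comp φ) : L) := by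
    intro x
    rw [← Finset.sum_filter]
    symm
    refine Finset.sum_bij (fun φ _ => (MulAut.conj x).toMonoidHom.comp
      ((P : Subgroup S).subtype.comp φ)) ?_ ?_ ?_ ?_
    · intro φ _
      rw [Finset.mem_filter]
      refine ⟨Finset.mem_univ _, ?_⟩
      rw [HomSylowAux.inP_conj, inv_mul_cancel]
      intro g
      rw [inv_one, one_mul, mul_one]
      exact (φ g).2
    · intro φ _ φ' _ h
      ext g
      have h3 := DFunLike.congr_fun h g
      simp only [MonoidHom.comp_apply, MulEquiv.coe_toMonoidHom, MulAut.conj_apply] at h3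
      exact mul_left_cancel (mul_right_cancel h3)
    · intro ρ hρ
      have hρ' := (Finset.mem_filter.1 hρ).2
      refine ⟨((MulAut.conj x⁻¹).toMonoidHom.comp ρ).codRestrict (P : Subgroup S) fun g => ?_,
        Finset.mem_univ _, ?_⟩
      · have := hρ' g
        rw [MonoidHom.comp_apply, MulEquiv.coe_toMonoidHom, MulAut.conj_apply, inv_inv]
        exact this
      · ext g
        simp only [MonoidHom.comp_apply, MulEquiv.coe_toMonoidHom, MulAut.conj_apply,
          Subgroup.coe_subtype, MonoidHom.codRestrict_apply]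
        group
    · intro φ _
      rw [hF, HomSylowAux.cc_conj]
  rw [Finset.sum_congr rfl fun x _ => h2 x, Finset.sum_const, Finset.card_univ, nsmul_eq_mul,
    Nat.card_eq_fintype_card]

end Vale.Agent.P241.F
end

section

set_option autoImplicit false

namespace Vale.Agent.P241.F

open Finset PowerSeries

/-- Euler operator `X d/dX` -/
noncomputable def psE (F : PowerSeries ℚ) : PowerSeries ℚ := X * PowerSeries.derivative ℚ F

theorem psE_coeff (F : PowerSeries ℚ) (n : ℕ) : coeff n (psE F) = n * coeff n F := by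
  unfold psE
  cases n with
  | zero => simp
  | succ n =>
    rw [coeff_succ_X_mul, coeff_derivative]
    push_cast
    ring

theorem psE_mul (F G : PowerSeries ℚ) : psE (F * G) = psE F * G + F * psE G := by
  unfold psE
  rw [Derivation.leibniz, smul_eq_mul, smul_eq_mul]
  ring

theorem psE_one_add (G : PowerSeries ℚ) : psE (1 + G) = psE G := by
  unfold psE
  rw [map_add]
  simp

theorem psE_pow (G : PowerSeries ℚ) (i : ℕ) :
    psE (G ^ (i + 1)) = ((i + 1 : ℕ) : PowerSeries ℚ) * (G ^ i * psE G) := by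
  unfold psE
  rw [derivative_pow]
  simp only [Nat.add_sub_cancel]
  ring

/-- coefficients of norm at most `t` -/
def psB (p : ℕ) (t : ℚ) (F : PowerSeries ℚ) : Prop := ∀ n, padicNorm p (coeff n F) ≤ t

theorem psB_mul {p : ℕ} [Fact p.Prime] {s t : ℚ} (hs : 0 ≤ s) (ht : 0 ≤ t)
    {F G : PowerSeries ℚ} (hF : psB p s F) (hG : psB p t G) : psB p (s * t) (F * G) := by
  intro n
  rw [coeff_mul]
  refine padicNorm.sum_le' (fun x _ => ?_) (mul_nonneg hs ht)
  rw [padicNorm.mul]
  exact mul_le_mul (hF _) (hG _) (padicNorm.nonneg _) hs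

theorem psB_pow {p : ℕ} [Fact p.Prime] {t : ℚ} (ht : 0 ≤ t)
    {F : PowerSeries ℚ} (hF : psB p t F) (i : ℕ) : psB p (t ^ i) (F ^ i) := by
  induction i with
  | zero =>
    intro n
    rw [pow_zero, pow_zero, coeff_one]
    split_ifs
    · rw [padicNorm.one]
    · rw [padicNorm.zero]; norm_num
  | succ i ih =>
    rw [pow_succ, pow_succ]
    exact psB_mul (pow_nonneg ht i) ht ih hF

/-- the inverse of an integral series with constant term `1` is integral -/
theorem psB_inv {p : ℕ} [Fact p.Prime] {F : PowerSeries ℚ} (hF : psB p 1 F)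
    (h1 : constantCoeff F = 1) : psB p 1 F⁻¹ := by
  have h0 : constantCoeff F ≠ 0 := by rw [h1]; exact one_ne_zero
  have hmul : F * F⁻¹ = 1 := PowerSeries.mul_inv_cancel F h0
  intro n
  induction n using Nat.strong_induction_on with
  | _ n ih =>
    have h2 : coeff n (F * F⁻¹) = coeff n (1 : PowerSeries ℚ) := by rw [hmul]
    rw [coeff_mul, Finset.Nat.sum_antidiagonal_eq_sum_range_succ_mk,
      Finset.sum_range_succ'] at h2
    simp only [Nat.sub_zero, coeff_zero_eq_constantCoeff_apply] at h2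
    rw [h1, one_mul] at h2
    have h3 : coeff n F⁻¹ = coeff n (1 : PowerSeries ℚ) -
        ∑ k ∈ range n, coeff (k + 1) F * coeff (n - (k + 1)) F⁻¹ := by linarith
    rw [h3]
    refine (padicNorm.sub).trans (max_le ?_ ?_)
    · rw [coeff_one]
      split_ifs
      · rw [padicNorm.one]
      · rw [padicNorm.zero]; norm_num
    · refine padicNorm.sum_le' (fun k hk => ?_) zero_le_one
      rw [padicNorm.mul]
      have h4 := hF (k + 1)
      have h5 := ih (n - (k + 1)) (by
        have := mem_range.1 hk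
        omega)
      calc padicNorm p (coeff (k + 1) F) * padicNorm p (coeff (n - (k + 1)) F⁻¹)
          ≤ 1 * 1 := mul_le_mul h4 h5 (padicNorm.nonneg _) zero_le_one
        _ = 1 := one_mul 1

theorem ps_norm_succ (p : ℕ) [hp : Fact p.Prime] (i : ℕ) :
    (padicNorm p ((i + 1 : ℕ) : ℚ))⁻¹ ≤ (p : ℚ) ^ i := by
  have h0 : ((i + 1 : ℕ) : ℚ) ≠ 0 := by exact_mod_cast Nat.succ_ne_zero i
  have hp1 : (1 : ℚ) < p := by exact_mod_cast hp.out.one_lt
  rw [padicNorm.eq_zpow_of_nonzero h0, zpow_neg, inv_inv, padicValRat.of_nat, zpow_natCast]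
  refine pow_le_pow_right₀ hp1.le ?_
  have h1 : p ^ padicValNat p (i + 1) ≤ i + 1 :=
    Nat.le_of_dvd (Nat.succ_pos i) pow_padicValNat_dvd
  have h2 : padicValNat p (i + 1) < p ^ padicValNat p (i + 1) :=
    Nat.lt_pow_self hp.out.one_lt
  omega

theorem ps_lemma (p : ℕ) [Fact p.Prime] (k : ℕ) (a a' : ℕ → ℚ) (c c' : ℕ → ℤ)
    (h0 : a 0 = 1) (h0' : a' 0 = 1)
    (h : ∀ n < p ^ k, ((n + 1 : ℕ) : ℚ) * a (n + 1) =
      ∑ m ∈ Finset.range (n + 1), (c (m + 1) : ℚ) * a (n - m))
    (h' : ∀ n < p ^ k, ((n + 1 : ℕ) : ℚ) * a' (n + 1) =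
      ∑ m ∈ Finset.range (n + 1), (c' (m + 1) : ℚ) * a' (n - m))
    (hint : ∀ n ≤ p ^ k, ∃ b u v : ℤ, ¬ (p : ℤ) ∣ b ∧ b * a n = u ∧ b * (a n - a' n) = p * v) :
    (p : ℤ) ^ (k + 1) ∣ c (p ^ k) - c' (p ^ k) := by
  have hp : Fact p.Prime := inferInstance
  have hp0 : (0 : ℚ) < p := by exact_mod_cast hp.out.pos
  have hp1 : (1 : ℚ) < p := by exact_mod_cast hp.out.one_lt
  set N := p ^ k with hN
  have hNpos : 0 < N := pow_pos hp.out.pos k
  -- norms
  have hnorm : ∀ n ≤ N, padicNorm p (a n) ≤ 1 ∧ padicNorm p (a n - a' n) ≤ (p : ℚ)⁻¹ := by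
    intro n hn
    obtain ⟨b, u, v, hb, hu, hv⟩ := hint n hn
    have hb1 : padicNorm p (b : ℚ) = 1 := (padicNorm.int_eq_one_iff b).2 hb
    constructor
    · have : padicNorm p ((b : ℚ) * a n) ≤ 1 := by rw [hu]; exact padicNorm.of_int u
      rwa [padicNorm.mul, hb1, one_mul] at this
    · have : padicNorm p ((b : ℚ) * (a n - a' n)) ≤ (p : ℚ)⁻¹ := by
        rw [hv, padicNorm.mul, padicNorm.padicNorm_p_of_prime]
        calc (p : ℚ)⁻¹ * padicNorm p v ≤ (p : ℚ)⁻¹ * 1 :=
              mul_le_mul_of_nonneg_left (padicNorm.of_int v) (by positivity)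
          _ = (p : ℚ)⁻¹ := mul_one _
      rwa [padicNorm.mul, hb1, one_mul] at this
  -- the series
  set A : PowerSeries ℚ := PowerSeries.mk fun n => if n ≤ N then a n else 0 with hA
  set A' : PowerSeries ℚ := PowerSeries.mk fun n => if n ≤ N then a' n else 0 with hA'
  set C : PowerSeries ℚ := PowerSeries.mk fun n => if n = 0 then 0 else (c n : ℚ) with hC
  set C' : PowerSeries ℚ := PowerSeries.mk fun n => if n = 0 then 0 else (c' n : ℚ) with hC'
  have hrel : ∀ (b : ℕ → ℚ) (d : ℕ → ℤ),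
      (∀ n < N, ((n + 1 : ℕ) : ℚ) * b (n + 1) =
        ∑ m ∈ Finset.range (n + 1), (d (m + 1) : ℚ) * b (n - m)) →
      (X : PowerSeries ℚ) ^ (N + 1) ∣ psE (PowerSeries.mk fun n => if n ≤ N then b n else 0) -
        (PowerSeries.mk fun n => if n = 0 then 0 else (d n : ℚ)) *
          (PowerSeries.mk fun n => if n ≤ N then b n else 0) := by
    intro b d hb
    rw [X_pow_dvd_iff]
    intro m hm
    rw [map_sub, psE_coeff, coeff_mul, Finset.Nat.sum_antidiagonal_eq_sum_range_succ_mk,
      Finset.sum_range_succ']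
    simp only [coeff_mk, if_true, zero_mul, add_zero]
    cases m with
    | zero => simp
    | succ n =>
      have hn : n < N := by omega
      rw [if_pos (by omega : n + 1 ≤ N), hb n hn, sub_eq_zero]
      refine sum_congr rfl fun i hi => ?_
      have hi' := mem_range.1 hi
      rw [if_neg (by omega), if_pos (by omega), Nat.add_sub_add_right]
  have hr1 := hrel a c h
  have hr2 := hrel a' c' h'
  rw [← hA, ← hC] at hr1
  rw [← hA', ← hC'] at hr2
  have hA'0 : constantCoeff A' = 1 := by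
    rw [← coeff_zero_eq_constantCoeff_apply, hA', coeff_mk, if_pos (Nat.zero_le _), h0']
  have hA0 : constantCoeff A = 1 := by
    rw [← coeff_zero_eq_constantCoeff_apply, hA, coeff_mk, if_pos (Nat.zero_le _), h0]
  have hinv : A' * A'⁻¹ = 1 :=
    PowerSeries.mul_inv_cancel A' (by rw [hA'0]; exact one_ne_zero)
  have hA'int : psB p 1 A' := by
    intro n
    rw [hA', coeff_mk]
    split_ifs with hn
    · have h1 := hnorm n hn
      have : a' n = a n - (a n - a' n) := by ring
      rw [this]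
      refine (padicNorm.sub).trans (max_le h1.1 (h1.2.trans ?_))
      rw [inv_le_one₀ hp0]
      exact hp1.le
    · rw [padicNorm.zero]; norm_num
  have hdiff : psB p (p : ℚ)⁻¹ (A - A') := by
    intro n
    rw [map_sub, hA, hA', coeff_mk, coeff_mk]
    split_ifs with hn
    · exact (hnorm n hn).2
    · rw [sub_zero, padicNorm.zero]; positivity
  set B : PowerSeries ℚ := A * A'⁻¹ with hB
  set G : PowerSeries ℚ := (A - A') * A'⁻¹ with hG
  have hBG : B = 1 + G := by
    rw [hB, hG, sub_mul, hinv]; ring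
  have hBA : B * A' = A := by
    rw [hB, mul_assoc, mul_comm A'⁻¹ A', hinv, mul_one]
  have hGint : psB p (p : ℚ)⁻¹ G := by
    have := psB_mul (by positivity) zero_le_one hdiff (psB_inv hA'int hA'0)
    rwa [mul_one] at this
  have hG0 : (X : PowerSeries ℚ) ∣ G := by
    rw [X_dvd_iff, hG, map_mul, map_sub, hA0, hA'0, sub_self, zero_mul]
  -- (3)
  have h3 : (X : PowerSeries ℚ) ^ (N + 1) ∣ psE G - (C - C') * (1 + G) := by
    have e1 : psE A = psE B * A' + B * psE A' := by rw [← psE_mul, hBA]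
    have e2 : (psE G - (C - C') * (1 + G)) =
        ((psE A - C * A) - B * (psE A' - C' * A')) * A'⁻¹ := by
      have e3 : psE B = psE G := by rw [hBG, psE_one_add]
      have e4 : (psE A - C * A) - B * (psE A' - C' * A') = (psE G - (C - C') * B) * A' := by
        rw [e1, e3, ← hBA]; ring
      rw [e4, mul_assoc, hinv, mul_one, hBG]
    rw [e2]
    exact dvd_mul_of_dvd_left (dvd_sub hr1 (dvd_mul_of_dvd_right hr2 _)) _
  -- geometric sum
  set S : PowerSeries ℚ := ∑ i ∈ range (N + 1), (-G) ^ i with hS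
  have hgeo : (1 + G) * S = 1 - (-G) ^ (N + 1) := by
    have := mul_neg_geom_sum (-G) (N + 1)
    rw [sub_neg_eq_add] at this
    exact this
  have h5 : (X : PowerSeries ℚ) ^ (N + 1) ∣ (C - C') - psE G * S := by
    have e1 : (C - C') - psE G * S =
        (C - C') * (-G) ^ (N + 1) - (psE G - (C - C') * (1 + G)) * S := by
      have : (C - C') = (C - C') * ((1 + G) * S + (-G) ^ (N + 1)) := by
        rw [hgeo]; ring
      calc (C - C') - psE G * S
          = (C - C') * ((1 + G) * S + (-G) ^ (N + 1)) - psE G * S := by rw [← this]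
        _ = _ := by ring
    rw [e1]
    refine dvd_sub (dvd_mul_of_dvd_right (pow_dvd_pow_of_dvd ?_ _) _)
      (dvd_mul_of_dvd_left h3 _)
    exact (dvd_neg).2 hG0
  have h6 : coeff N (C - C') = coeff N (psE G * S) := by
    have := (X_pow_dvd_iff.1 h5) N (Nat.lt_succ_self N)
    rw [map_sub] at this
    linarith
  have h7 : coeff N (C - C') = ((c N - c' N : ℤ) : ℚ) := by
    rw [map_sub, hC, hC', coeff_mk, coeff_mk, if_neg hNpos.ne', if_neg hNpos.ne']
    push_cast
    ring
  have hterm : ∀ i, coeff N (psE G * (-G) ^ i) =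
      (-1) ^ i * ((N : ℚ) * coeff N (G ^ (i + 1)) / ((i + 1 : ℕ) : ℚ)) := by
    intro i
    have e1 : psE G * (-G) ^ i = C' * 0 + (PowerSeries.C ((-1 : ℚ) ^ i)) * (G ^ i * psE G) := by
      rw [neg_pow, map_pow, map_neg, map_one]
      ring
    have e2 : ((i + 1 : ℕ) : ℚ) * coeff N (G ^ i * psE G) = (N : ℚ) * coeff N (G ^ (i + 1)) := by
      rw [← psE_coeff, psE_pow]
      rw [← map_natCast (PowerSeries.C (R := ℚ)) (i + 1), coeff_C_mul]
    have hi0 : ((i + 1 : ℕ) : ℚ) ≠ 0 := by exact_mod_cast Nat.succ_ne_zero i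
    rw [e1, mul_zero, zero_add, coeff_C_mul, ← e2, mul_div_cancel_left₀ _ hi0]
  have h8 : padicNorm p (coeff N (psE G * S)) ≤ (p : ℚ) ^ (-((k + 1 : ℕ) : ℤ)) := by
    rw [hS, mul_sum, map_sum]
    refine padicNorm.sum_le' (fun i _ => ?_) (by positivity)
    rw [hterm, padicNorm.mul, padicNorm.div, padicNorm.mul]
    have e1 : padicNorm p ((-1 : ℚ) ^ i) = 1 := by
      rcases neg_one_pow_eq_or ℚ i with h | h
      · rw [h, padicNorm.one]
      · rw [h, padicNorm.neg, padicNorm.one]
    have e2 : padicNorm p (N : ℚ) = ((p : ℚ) ^ k)⁻¹ := by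
      rw [hN]
      push_cast
      rw [padicNorm.eq_zpow_of_nonzero (by positivity), padicValRat.pow,
        padicValRat.self hp.out.one_lt, mul_one, zpow_neg, zpow_natCast]
    have e3 : padicNorm p (coeff N (G ^ (i + 1))) ≤ ((p : ℚ)⁻¹) ^ (i + 1) :=
      psB_pow (by positivity) hGint (i + 1) N
    have e4 := ps_norm_succ p i
    rw [e1, one_mul, e2, div_eq_mul_inv, zpow_neg, zpow_natCast]
    calc ((p : ℚ) ^ k)⁻¹ * padicNorm p (coeff N (G ^ (i + 1))) *
          (padicNorm p ((i + 1 : ℕ) : ℚ))⁻¹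
        ≤ ((p : ℚ) ^ k)⁻¹ * ((p : ℚ)⁻¹) ^ (i + 1) * (p : ℚ) ^ i := by
          refine mul_le_mul (mul_le_mul_of_nonneg_left e3 (by positivity)) e4
            (inv_nonneg.2 (padicNorm.nonneg _)) (by positivity)
      _ = ((p : ℚ) ^ (k + 1))⁻¹ := by
          rw [inv_pow]
          field_simp
          ring
  rw [← h6, h7] at h8
  have h9 := (padicNorm.dvd_iff_norm_le (n := k + 1) (z := c N - c' N)).2 h8
  exact_mod_cast h9

end Vale.Agent.P241.F
end

section

set_option autoImplicit false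

namespace Vale.Agent.P241.F

theorem exists_invLim (G : ℕ → Type) [∀ i, Group (G i)] [∀ i, Finite (G i)]
    (π : ∀ i, G (i + 1) →* G i) (hπ : ∀ i, Function.Surjective (π i)) :
    ∃ (Γ : Type) (_ : Group Γ) (_ : TopologicalSpace Γ) (_ : NonarchimedeanGroup Γ)
      (_ : CompactSpace Γ) (pr : ∀ i, Γ →* G i), (∀ i x, π i (pr (i + 1) x) = pr i x) ∧
        (∀ i, Function.Surjective (pr i)) ∧ (∀ i, IsOpen ((pr i).ker : Set Γ)) ∧
        ∀ U : Subgroup Γ, IsOpen (U : Set Γ) → ∃ i, (pr i).ker ≤ U := by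
  classical
  let _ : ∀ i, TopologicalSpace (G i) := fun i => ⊥
  have : ∀ i, DiscreteTopology (G i) := fun i => ⟨rfl⟩
  have : ∀ i, IsTopologicalGroup (G i) := fun i => inferInstance
  let S : Subgroup (∀ i, G i) :=
    { carrier := {x | ∀ i, π i (x (i + 1)) = x i}
      one_mem' := fun i => by simp
      mul_mem' := fun {a b} ha hb i => by
        simp only [Set.mem_ofPred_eq, Pi.mul_apply, map_mul] at *
        rw [ha i, hb i]
      inv_mem' := fun {a} ha i => by
        simp only [Set.mem_ofPred_eq, Pi.inv_apply, map_inv] at *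
        rw [ha i] }
  have hcl : ∀ i, IsClosed {x : ∀ i, G i | π i (x (i + 1)) = x i} := fun i => by
    have h1 : Continuous fun x : (∀ i, G i) => π i (x (i + 1)) :=
      (continuous_of_discreteTopology (f := π i)).comp (continuous_apply (i + 1))
    exact isClosed_eq h1 (continuous_apply i)
  have hSclosed : IsClosed (S : Set (∀ i, G i)) := by
    have : (S : Set (∀ i, G i)) = ⋂ i, {x | π i (x (i + 1)) = x i} := by
      ext x; simp [S]
    rw [this]
    exact isClosed_iInter hcl
  have : CompactSpace S := isCompact_iff_compactSpace.mp hSclosed.isCompact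
  let pr : ∀ i, S →* G i := fun i => (Pi.evalMonoidHom G i).comp S.subtype
  have hpr : ∀ i x, π i (pr (i + 1) x) = pr i x := fun i x => x.2 i
  have hprc : ∀ i, Continuous (pr i) := fun i => (continuous_apply i).comp continuous_subtype_val
  have hker : ∀ i, IsOpen ((pr i).ker : Set S) := fun i => by
    have : ((pr i).ker : Set S) = pr i ⁻¹' {1} := by ext x; simp [MonoidHom.mem_ker]
    rw [this]
    exact (isOpen_discrete _).preimage (hprc i)
  have hmono : ∀ i j, i ≤ j → (pr j).ker ≤ (pr i).ker := by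
    intro i j hij
    induction hij with
    | refl => exact le_rfl
    | step _ ih =>
      refine le_trans ?_ ih
      intro x hx
      rw [MonoidHom.mem_ker] at *
      rw [← hpr, hx, map_one]
  have hnhds : ∀ W ∈ nhds (1 : S), ∃ i, ((pr i).ker : Set S) ⊆ W := by
    intro W hW
    rw [nhds_subtype_eq_comap, Filter.mem_comap] at hW
    obtain ⟨T, hT, hTW⟩ := hW
    rw [nhds_pi, Filter.mem_pi] at hT
    obtain ⟨I, hI, t, ht, htT⟩ := hT
    obtain ⟨n, hn⟩ := hI.bddAbove
    refine ⟨n, fun x hx => hTW (htT ?_)⟩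
    intro i hi
    have h1 : x ∈ (pr i).ker := hmono i n (hn hi) hx
    have h2 : (x : ∀ i, G i) i = 1 := h1
    rw [h2]
    exact mem_of_mem_nhds (ht i)
  have hna : NonarchimedeanGroup S :=
    { is_nonarchimedean := fun W hW => by
        obtain ⟨i, hi⟩ := hnhds W hW
        exact ⟨⟨(pr i).ker, hker i⟩, hi⟩ }
  refine ⟨S, inferInstance, inferInstance, hna, inferInstance, pr, hpr, ?_, hker, ?_⟩
  · intro i g
    -- a partial compatible sequence ending at a given point
    have hA : ∀ n (h : G n), ∃ x : ∀ j, G j, (∀ j < n, π j (x (j + 1)) = x j) ∧ x n = h := by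
      intro n
      induction n with
      | zero =>
        intro h
        exact ⟨Function.update 1 0 h, fun j hj => absurd hj (Nat.not_lt_zero j),
          Function.update_self _ _ _⟩
      | succ n ih =>
        intro h
        obtain ⟨x, hx, hxn⟩ := ih (π n h)
        refine ⟨Function.update x (n + 1) h, fun j hj => ?_, Function.update_self _ _ _⟩
        rcases Nat.lt_succ_iff_lt_or_eq.mp hj with hj' | rfl
        · rw [Function.update_of_ne (by omega), Function.update_of_ne (by omega), hx j hj']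
        · rw [Function.update_self, Function.update_of_ne (by omega), hxn]
    have hB : ∀ m, ∃ x : ∀ j, G j, x i = g ∧ ∀ j < i + m, π j (x (j + 1)) = x j := by
      intro m
      induction m with
      | zero =>
        obtain ⟨x, hx, hxi⟩ := hA i g
        exact ⟨x, hxi, fun j hj => hx j (by omega)⟩
      | succ m ih =>
        obtain ⟨x, hxi, hx⟩ := ih
        obtain ⟨y, hy⟩ := hπ (i + m) (x (i + m))
        refine ⟨Function.update x (i + m + 1) y, ?_, fun j hj => ?_⟩
        · rw [Function.update_of_ne (by omega), hxi]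
        · have hj2 : j < i + m ∨ j = i + m := by omega
          rcases hj2 with hj' | rfl
          · rw [Function.update_of_ne (by omega), Function.update_of_ne (by omega), hx j hj']
          · rw [Function.update_self, Function.update_of_ne (by omega), hy]
    let K : ℕ → Set (∀ j, G j) := fun m => {x | x i = g ∧ ∀ j < i + m, π j (x (j + 1)) = x j}
    have hKcl : ∀ m, IsClosed (K m) := by
      intro m
      have : K m = {x | x i = g} ∩ ⋂ j, ⋂ (_ : j < i + m), {x | π j (x (j + 1)) = x j} := by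
        ext x; simp [K]
      rw [this]
      refine IsClosed.inter (isClosed_eq (continuous_apply i) continuous_const) ?_
      exact isClosed_iInter fun j => isClosed_iInter fun _ => hcl j
    obtain ⟨z, hz⟩ := IsCompact.nonempty_iInter_of_sequence_nonempty_isCompact_isClosed K
      (fun m x hx => ⟨hx.1, fun j hj => hx.2 j (by omega)⟩) hB (hKcl 0).isCompact hKcl
    rw [Set.mem_iInter] at hz
    exact ⟨⟨z, fun j => (hz (j + 1)).2 j (by omega)⟩, (hz 0).1⟩
  · intro U hU
    obtain ⟨i, hi⟩ := hnhds U (hU.mem_nhds U.one_mem)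
    exact ⟨i, hi⟩

end Vale.Agent.P241.F
end

section

set_option autoImplicit false

namespace Vale.Agent.P241.F

/-- The number of subgroups of index `p ^ j`. -/
noncomputable def latCount (p : ℕ) (A : Type) [Group A] (j : ℕ) : ℕ :=
  Nat.card {M : Subgroup A // M.index = p ^ j}

namespace LatticeAux

theorem fg {k : ℕ} {A : Type} [CommGroup A]
    (hA : Nonempty (A ≃* Multiplicative (Fin (k + 1) → ℤ))) : Group.FG A := by
  obtain ⟨e⟩ := hA
  have : AddGroup.FG (Fin (k + 1) → ℤ) := Module.Finite.iff_addGroup_fg.mp inferInstance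
  exact Group.fg_of_surjective (f := e.symm.toMonoidHom) e.symm.surjective

theorem finite_hom {A : Type} [Group A] [hA : Group.FG A] (B : Type) [Group B] [Finite B] :
    Finite (A →* B) := by
  obtain ⟨S, hS, hfin⟩ := Group.fg_iff.mp hA
  have : Finite S := hfin
  have hinj : Function.Injective (fun (f : A →* B) (s : S) => f s) := by
    intro f g h
    refine MonoidHom.eq_of_eqOn_dense hS ?_
    intro s hs
    exact congrFun h ⟨s, hs⟩
  exact Finite.of_injective _ hinj

theorem finite_sub {A : Type} [CommGroup A] [hA : Group.FG A] {n : ℕ} (hn : n ≠ 0) :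
    Finite {M : Subgroup A // M.index = n} := by
  have hfi : (powMonoidHom n : A →* A).range.FiniteIndex :=
    Subgroup.finiteIndex_range_powMonoidHom_of_fg A hn
  have hfin : Finite (A ⧸ (powMonoidHom n : A →* A).range) := inferInstance
  have hinj : Function.Injective (fun (M : {M : Subgroup A // M.index = n}) =>
      M.1.map (QuotientGroup.mk' (powMonoidHom n : A →* A).range)) := by
    intro M N h
    have key : ∀ M : {M : Subgroup A // M.index = n}, (M.1.map (QuotientGroup.mk'
        (powMonoidHom n : A →* A).range)).comap (QuotientGroup.mk' _) = M.1 := by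
      intro M
      rw [Subgroup.comap_map_eq, QuotientGroup.ker_mk', sup_eq_left]
      rintro _ ⟨a, rfl⟩
      have := Subgroup.pow_index_mem M.1 a
      rw [M.2] at this
      exact this
    apply Subtype.ext
    rw [← key M, ← key N]
    exact congrArg (Subgroup.comap _) h
  exact Finite.of_injective _ hinj

section
variable {A : Type} [CommGroup A] (π : A →* Multiplicative ℤ)

/-- `a ↦ a * c ^ π a`. -/
def shear (c : A) : A →* A where
  toFun a := a * c ^ (Multiplicative.toAdd (π a))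
  map_one' := by simp
  map_mul' a b := by
    rw [map_mul, toAdd_mul, zpow_add]
    exact mul_mul_mul_comm a b _ _

theorem shear_apply (c a : A) : shear π c a = a * c ^ (Multiplicative.toAdd (π a)) := rfl

theorem map_shear {c : A} (hc : π c = 1) (a : A) : π (shear π c a) = π a := by
  rw [shear_apply, map_mul, map_zpow, hc, one_zpow, mul_one]

theorem shear_shear {c : A} {d : A} (hd : π d = 1) (a : A) :
    shear π c (shear π d a) = shear π (c * d) a := by
  rw [shear_apply, map_shear π hd, shear_apply, shear_apply, mul_zpow, mul_assoc,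
    mul_comm (d ^ _)]

theorem shear_one (a : A) : shear π 1 a = a := by
  rw [shear_apply, one_zpow, mul_one]

theorem shear_bij {c : A} (hc : π c = 1) : Function.Bijective (shear π c) := by
  have hc' : π c⁻¹ = 1 := by rw [map_inv, hc, inv_one]
  refine Function.bijective_iff_has_inverse.mpr ⟨shear π c⁻¹, fun a => ?_, fun a => ?_⟩
  · rw [shear_shear π hc, inv_mul_cancel, shear_one]
  · rw [shear_shear π hc', mul_inv_cancel, shear_one]

/-- The action of the kernel on the subgroups surjecting onto `ℤ`. -/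
@[reducible]
def act (n : ℕ) : MulAction π.ker {M : Subgroup A // M.index = n ∧ M.map π = ⊤} where
  smul c M := ⟨M.1.map (shear π c.1), by
    rw [Subgroup.index_map_of_bijective (shear_bij π c.2)]
    exact M.2.1, by
    rw [Subgroup.map_map]
    have : π.comp (shear π c.1) = π := MonoidHom.ext fun a => map_shear π c.2 a
    rw [this]
    exact M.2.2⟩
  one_smul M := by
    apply Subtype.ext
    change M.1.map (shear π 1) = M.1
    have : shear π 1 = MonoidHom.id A := MonoidHom.ext fun a => shear_one π a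
    rw [this, Subgroup.map_id]
  mul_smul c d M := by
    apply Subtype.ext
    change M.1.map (shear π (c.1 * d.1)) = (M.1.map (shear π d.1)).map (shear π c.1)
    rw [Subgroup.map_map]
    congr 1
    exact MonoidHom.ext fun a => (shear_shear π d.2 a).symm

theorem dvd_card {n : ℕ} (hfin : Finite {M : Subgroup A // M.index = n}) :
    n ∣ Nat.card {M : Subgroup A // M.index = n ∧ M.map π = ⊤} := by
  let _ := act π n
  have hfin' : Finite {M : Subgroup A // M.index = n ∧ M.map π = ⊤} := by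
    refine Finite.of_injective (β := {M : Subgroup A // M.index = n})
      (fun M => ⟨M.1, M.2.1⟩) ?_
    intro M N h
    exact Subtype.ext (congrArg (fun x : {M : Subgroup A // M.index = n} => x.1) h)
  have horb : ∀ M : {M : Subgroup A // M.index = n ∧ M.map π = ⊤},
      Nat.card (MulAction.orbit π.ker M) = n := by
    intro M
    have h1 : MulAction.stabilizer π.ker M = M.1.subgroupOf π.ker := by
      ext c
      rw [MulAction.mem_stabilizer_iff, Subgroup.mem_subgroupOf]
      constructor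
      · intro h
        have h2 : M.1.map (shear π c.1) = M.1 := congrArg Subtype.val h
        have h3 : Multiplicative.ofAdd (1 : ℤ) ∈ M.1.map π := by
          rw [M.2.2]
          exact Subgroup.mem_top _
        obtain ⟨a, ha, hpa⟩ := h3
        have h4 : shear π c.1 a ∈ M.1 := by
          have : shear π c.1 a ∈ M.1.map (shear π c.1) := ⟨a, ha, rfl⟩
          rwa [h2] at this
        rw [shear_apply, hpa, toAdd_ofAdd, zpow_one] at h4
        have h5 := M.1.mul_mem (M.1.inv_mem ha) h4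
        rwa [inv_mul_cancel_left] at h5
      · intro h
        apply Subtype.ext
        change M.1.map (shear π c.1) = M.1
        have hle : ∀ d : A, d ∈ M.1 → M.1.map (shear π d) ≤ M.1 := by
          rintro d hd _ ⟨a, ha, rfl⟩
          exact M.1.mul_mem ha (M.1.zpow_mem hd _)
        refine le_antisymm (hle _ h) ?_
        intro a ha
        refine ⟨shear π (c.1)⁻¹ a, hle _ (M.1.inv_mem h) ⟨a, ha, rfl⟩, ?_⟩
        have hc' : π (c.1)⁻¹ = 1 := by
          have : π c.1 = 1 := c.2
          rw [map_inv, this, inv_one]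
        rw [shear_shear π hc', mul_inv_cancel, shear_one]
    have h2 : (MulAction.stabilizer π.ker M).index = n := by
      rw [h1]
      change M.1.relIndex π.ker = n
      rw [← Subgroup.relIndex_sup_right]
      have : π.ker ⊔ M.1 = ⊤ := by
        rw [sup_comm, ← Subgroup.comap_map_eq, M.2.2, Subgroup.comap_top]
      rw [this, Subgroup.relIndex_top_right]
      exact M.2.1
    rw [MulAction.index_stabilizer] at h2
    exact h2
  have e := MulAction.selfEquivSigmaOrbits π.ker
    {M : Subgroup A // M.index = n ∧ M.map π = ⊤}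
  rw [Nat.card_congr e]
  have : Finite (MulAction.orbitRel.Quotient π.ker
    {M : Subgroup A // M.index = n ∧ M.map π = ⊤}) := Quotient.finite _
  have := Fintype.ofFinite (MulAction.orbitRel.Quotient π.ker
    {M : Subgroup A // M.index = n ∧ M.map π = ⊤})
  rw [Nat.card_sigma]
  refine Finset.dvd_sum fun x _ => ?_
  rw [horb]

end

theorem index_zpowers_ofAdd (n : ℤ) :
    (Subgroup.zpowers (Multiplicative.ofAdd n)).index = n.natAbs :=
  Int.index_zmultiples n

theorem exists_zpowers (N : Subgroup (Multiplicative ℤ)) :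
    ∃ n : ℤ, N = Subgroup.zpowers (Multiplicative.ofAdd n) := by
  obtain ⟨g, hg⟩ := IsCyclic.exists_zpow_surjective (G := N)
  refine ⟨Multiplicative.toAdd g.1, ?_⟩
  ext x
  constructor
  · intro hx
    obtain ⟨m, hm⟩ := hg ⟨x, hx⟩
    exact ⟨m, congrArg Subtype.val hm⟩
  · rintro ⟨m, rfl⟩
    exact N.zpow_mem g.2 m

section
variable {A : Type} [CommGroup A] {π : A →* Multiplicative ℤ} {t : A}

/-- `a ↦ a * t ^ ((p - 1) * π a)`, multiplication by `p` in the direction of `t`. -/
def stretch (π : A →* Multiplicative ℤ) (t : A) (p : ℤ) : A →* A :=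
  shear π (t ^ (p - 1))

theorem map_stretch (ht : π t = Multiplicative.ofAdd 1) (p : ℤ) (a : A) :
    π (stretch π t p a) = π a ^ p := by
  have h1 : Multiplicative.ofAdd (1 : ℤ) ^ ((p - 1) * Multiplicative.toAdd (π a)) =
      π a ^ (p - 1) := by
    apply Multiplicative.toAdd.injective
    rw [toAdd_zpow, toAdd_zpow, toAdd_ofAdd, smul_eq_mul, smul_eq_mul, mul_one]
  rw [stretch, shear_apply, map_mul, map_zpow, map_zpow, ht, ← zpow_mul, h1]
  have : π a * π a ^ (p - 1) = π a ^ (1 + (p - 1)) := by rw [zpow_add, zpow_one]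
  rw [this, add_sub_cancel]

theorem stretch_inj (ht : π t = Multiplicative.ofAdd 1) {p : ℤ} (hp : p ≠ 0) :
    Function.Injective (stretch π t p) := by
  rw [injective_iff_map_eq_one]
  intro a ha
  have h1 : π a ^ p = 1 := by rw [← map_stretch ht, ha, map_one]
  have h2 : Multiplicative.toAdd (π a) = 0 := by
    have h3 : p * Multiplicative.toAdd (π a) = 0 := by
      have := congrArg Multiplicative.toAdd h1
      rwa [toAdd_zpow, smul_eq_mul, toAdd_one] at this
    rcases mul_eq_zero.mp h3 with h | h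
    · exact absurd h hp
    · exact h
  rw [stretch, shear_apply, h2, zpow_zero, mul_one] at ha
  exact ha

theorem range_stretch (ht : π t = Multiplicative.ofAdd 1) (p : ℤ) :
    (stretch π t p).range = (Subgroup.zpowers (Multiplicative.ofAdd p)).comap π := by
  ext x
  constructor
  · rintro ⟨a, rfl⟩
    refine ⟨Multiplicative.toAdd (π a), ?_⟩
    rw [map_stretch ht]
    apply Multiplicative.toAdd.injective
    change Multiplicative.toAdd (Multiplicative.ofAdd p ^ Multiplicative.toAdd (π a)) = _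
    rw [toAdd_zpow, toAdd_zpow, toAdd_ofAdd, smul_eq_mul, smul_eq_mul, mul_comm]
  · rintro ⟨z, hz⟩
    have hz' : Multiplicative.toAdd (π x) = z * p := by
      rw [← hz]
      change Multiplicative.toAdd (Multiplicative.ofAdd p ^ z) = _
      rw [toAdd_zpow, toAdd_ofAdd, smul_eq_mul]
    have h1 : Multiplicative.toAdd (π (x * t ^ (-((p - 1) * z)))) = z := by
      rw [map_mul, map_zpow, ht, toAdd_mul, toAdd_zpow, toAdd_ofAdd, hz', smul_eq_mul]
      ring
    refine ⟨x * t ^ (-((p - 1) * z)), ?_⟩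
    rw [stretch, shear_apply, h1, ← zpow_mul, mul_assoc, ← zpow_add, neg_add_cancel, zpow_zero,
      mul_one]

theorem index_range_stretch (ht : π t = Multiplicative.ofAdd 1) (p : ℕ) :
    (stretch π t p).range.index = p := by
  have hsurj : Function.Surjective π := by
    intro x
    refine ⟨t ^ (Multiplicative.toAdd x), ?_⟩
    rw [map_zpow, ht]
    apply Multiplicative.toAdd.injective
    rw [toAdd_zpow, toAdd_ofAdd, smul_eq_mul, mul_one]
  rw [range_stretch ht, Subgroup.index_comap_of_surjective _ hsurj, index_zpowers_ofAdd,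
    Int.natAbs_natCast]

theorem card_a (ht : π t = Multiplicative.ofAdd 1) {p : ℕ} (hp : p.Prime) (j : ℕ) :
    Nat.card {M : Subgroup A // M.index = p ^ (j + 1) ∧ M.map π ≠ ⊤} = latCount p A j := by
  have hsurj : Function.Surjective π := by
    intro x
    refine ⟨t ^ (Multiplicative.toAdd x), ?_⟩
    rw [map_zpow, ht]
    apply Multiplicative.toAdd.injective
    rw [toAdd_zpow, toAdd_ofAdd, smul_eq_mul, mul_one]
  have hp0 : (p : ℤ) ≠ 0 := by exact_mod_cast hp.ne_zero
  have hle : ∀ M : Subgroup A, M.index = p ^ (j + 1) → M.map π ≠ ⊤ →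
      M ≤ (stretch π t p).range := by
    intro M hM hne
    rw [range_stretch ht, ← Subgroup.map_le_iff_le_comap]
    obtain ⟨n, hn⟩ := exists_zpowers (M.map π)
    have h1 : (M.map π).index ∣ p ^ (j + 1) := hM ▸ M.index_map_dvd hsurj
    have h2 : (M.map π).index ≠ 1 := fun h => hne (Subgroup.index_eq_one.mp h)
    obtain ⟨i, hi, hi'⟩ := (Nat.dvd_prime_pow hp).mp h1
    have h3 : p ∣ (M.map π).index := by
      rw [hi']
      refine dvd_pow_self p ?_
      rintro rfl
      exact h2 (by rw [hi', pow_zero])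
    rw [hn, index_zpowers_ofAdd] at h3
    have h4 : (p : ℤ) ∣ n := Int.natCast_dvd.mpr h3
    obtain ⟨m, hm⟩ := h4
    rw [hn, Subgroup.zpowers_le]
    refine ⟨m, ?_⟩
    apply Multiplicative.toAdd.injective
    change Multiplicative.toAdd (Multiplicative.ofAdd (p : ℤ) ^ m) = _
    rw [toAdd_zpow, toAdd_ofAdd, toAdd_ofAdd, smul_eq_mul, hm, mul_comm]
  refine Nat.card_congr
    { toFun := fun M => ⟨M.1.comap (stretch π t p), ?_⟩
      invFun := fun M => ⟨M.1.map (stretch π t p), ?_, ?_⟩
      left_inv := ?_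
      right_inv := ?_ }
  · have h1 := Subgroup.index_map_of_injective (M.1.comap (stretch π t p)) (stretch_inj ht hp0)
    rw [Subgroup.map_comap_eq_self (hle M.1 M.2.1 M.2.2), index_range_stretch ht] at h1
    have h2 : p ^ j * p = (M.1.comap (stretch π t p)).index * p := by
      rw [← h1, ← pow_succ]
      exact M.2.1.symm
    exact (Nat.eq_of_mul_eq_mul_right hp.pos h2).symm
  · rw [Subgroup.index_map_of_injective M.1 (stretch_inj ht hp0), index_range_stretch ht, M.2,
      pow_succ]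
  · intro h
    have h1 : (M.1.map (stretch π t p)).map π ≤ Subgroup.zpowers (Multiplicative.ofAdd (p : ℤ)) := by
      rw [Subgroup.map_le_iff_le_comap, ← range_stretch ht]
      exact Subgroup.map_le_range _ _
    rw [h, top_le_iff, ← Subgroup.index_eq_one, index_zpowers_ofAdd, Int.natAbs_natCast] at h1
    exact hp.ne_one h1
  · intro M
    exact Subtype.ext (Subgroup.map_comap_eq_self (hle M.1 M.2.1 M.2.2))
  · intro M
    exact Subtype.ext (Subgroup.comap_map_eq_self_of_injective (stretch_inj ht hp0) _)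

theorem card_split {α : Type} (P Q : α → Prop) (hfin : Finite {x // P x}) :
    Nat.card {x // P x} = Nat.card {x // P x ∧ Q x} + Nat.card {x // P x ∧ ¬ Q x} := by
  classical
  have h1 : Finite {x // P x ∧ Q x} := Finite.of_injective (β := {x // P x})
    (fun x => ⟨x.1, x.2.1⟩) (fun x y h => Subtype.ext (congrArg (fun z : {x // P x} => z.1) h))
  have h2 : Finite {x // P x ∧ ¬ Q x} := Finite.of_injective (β := {x // P x})
    (fun x => ⟨x.1, x.2.1⟩) (fun x y h => Subtype.ext (congrArg (fun z : {x // P x} => z.1) h))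
  rw [← Nat.card_sum]
  refine Nat.card_congr
    { toFun := fun x => if h : Q x.1 then Sum.inl ⟨x.1, x.2, h⟩ else Sum.inr ⟨x.1, x.2, h⟩
      invFun := Sum.elim (fun x => ⟨x.1, x.2.1⟩) (fun x => ⟨x.1, x.2.1⟩)
      left_inv := ?_
      right_inv := ?_ }
  · intro x
    by_cases h : Q x.1
    · simp only [h, dite_true, Sum.elim_inl]
    · simp only [h, dite_false, Sum.elim_inr]
  · rintro (x | x)
    · exact dif_pos x.2.2
    · exact dif_neg x.2.2

end

theorem exists_proj {k : ℕ} {A : Type} [CommGroup A]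
    (hA : Nonempty (A ≃* Multiplicative (Fin (k + 1) → ℤ))) :
    ∃ (π : A →* Multiplicative ℤ) (t : A), π t = Multiplicative.ofAdd 1 := by
  obtain ⟨e⟩ := hA
  refine ⟨(AddMonoidHom.toMultiplicative (Pi.evalAddMonoidHom (fun _ : Fin (k + 1) => ℤ) 0)).comp
    e.toMonoidHom, e.symm (Multiplicative.ofAdd fun _ => 1), ?_⟩
  simp

end LatticeAux

section
variable {p : ℕ} [Fact p.Prime] {k : ℕ} {A : Type} [CommGroup A]
  (hA : Nonempty (A ≃* Multiplicative (Fin (k + 1) → ℤ)))
include hA

theorem lat_finite (j : ℕ) : Finite {M : Subgroup A // M.index = p ^ j} := by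
  have := LatticeAux.fg hA
  exact LatticeAux.finite_sub (pow_ne_zero j (Fact.out (p := p.Prime)).ne_zero)

theorem latCount_zero : latCount p A 0 = 1 := by
  have hs : Subsingleton {M : Subgroup A // M.index = p ^ 0} := by
    have key : ∀ M : {M : Subgroup A // M.index = p ^ 0}, M.1 = ⊤ := fun M =>
      Subgroup.index_eq_one.mp (M.2.trans (pow_zero p))
    exact ⟨fun M N => Subtype.ext ((key M).trans (key N).symm)⟩
  have hn : Nonempty {M : Subgroup A // M.index = p ^ 0} :=
    ⟨⟨⊤, by rw [pow_zero, Subgroup.index_top]⟩⟩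
  exact Nat.card_eq_one_iff_unique.mpr ⟨hs, hn⟩

theorem latCount_succ (j : ℕ) :
    latCount p A (j + 1) ≡ latCount p A j [MOD p ^ (j + 1)] := by
  obtain ⟨π, t, ht⟩ := LatticeAux.exists_proj hA
  have hfin := lat_finite (p := p) hA (j + 1)
  obtain ⟨c, hc⟩ := LatticeAux.dvd_card π hfin
  have h1 := LatticeAux.card_split (fun M : Subgroup A => M.index = p ^ (j + 1))
    (fun M : Subgroup A => M.map π = ⊤) hfin
  rw [hc] at h1
  have h2 := LatticeAux.card_a ht (Fact.out (p := p.Prime)) j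
  rw [h2] at h1
  change latCount p A (j + 1) = _ at h1
  rw [h1]
  have h3 : p ^ (j + 1) * c ≡ 0 [MOD p ^ (j + 1)] := Nat.modEq_zero_iff_dvd.mpr ⟨c, rfl⟩
  have h4 := h3.add_right (latCount p A j)
  rwa [zero_add] at h4

theorem lat_iso (M : Subgroup A) (hM : M.index ≠ 0) : Nonempty (A ≃* M) := by
  obtain ⟨e⟩ := hA
  have h1 : (M.map (e : A →* Multiplicative (Fin (k + 1) → ℤ))).index ≠ 0 := by
    rw [Subgroup.index_map_equiv]
    exact hM
  have h2 : (AddSubgroup.toSubgroup.symm
      (M.map (e : A →* Multiplicative (Fin (k + 1) → ℤ)))).index ≠ 0 := h1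
  obtain ⟨f⟩ := Int.addSubgroup_index_ne_zero_iff.mp h2
  have g : M ≃* (M.map (e : A →* Multiplicative (Fin (k + 1) → ℤ))) :=
    M.equivMapOfInjective _ e.injective
  have f' : (M.map (e : A →* Multiplicative (Fin (k + 1) → ℤ))) ≃*
      Multiplicative (Fin (k + 1) → ℤ) := AddEquiv.toMultiplicative f
  exact ⟨(g.trans (f'.trans e.symm)).symm⟩

theorem lat_hom_finite (B : Type) [Group B] [Finite B] : Finite (A →* B) := by
  have := LatticeAux.fg hA
  exact LatticeAux.finite_hom B

end

end Vale.Agent.P241.F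
end

section

namespace Vale.Agent.P241.Lite

variable {K : ℕ → Homology}

lemma rank_le_one_of_isCyclic {C : Type} [Group C] [Finite C] [hC : IsCyclic C] :
    Group.rank C ≤ 1 := by
  obtain ⟨g, hg⟩ := hC.exists_generator
  have h1 := Group.rank_le (G := C) (S := {g}) (by
    rw [Finset.coe_singleton, ← Subgroup.zpowers_eq_closure, eq_top_iff]
    exact fun x _ => hg x)
  simpa using h1

lemma one_le_rank {C : Type} [Group C] [Finite C] [Nontrivial C] : 1 ≤ Group.rank C := by
  by_contra h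
  obtain ⟨S, hS, hS'⟩ := Group.rank_spec C
  have h1 : S.card = 0 := by omega
  rw [Finset.card_eq_zero] at h1
  subst h1
  rw [Finset.coe_empty, Subgroup.closure_empty] at hS'
  exact bot_ne_top hS'

lemma smith_of_loss_eq_one {G : Type} [Group G] {H : Subgroup G} {n : ℕ}
    (h : loss K n H = 1) : Smith (K (n + 1)) (K n) H := by
  by_contra hcon
  have h1 : (2 : ℕ∞) ≤ loss K n H ∨ loss K n H ≤ 0 := by
    by_cases h0 : Smith (K (n + 0)) (K n) H
    · exact Or.inr (h0.loss_le)
    · left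
      apply le_loss
      intro r hr
      have h2 : 2 ≤ r := by
        by_contra h3
        interval_cases r
        · exact h0 hr
        · exact hcon hr
      exact_mod_cast h2
  rw [h] at h1
  rcases h1 with h1 | h1
  · exact absurd h1 (by norm_num)
  · exact absurd h1 (by norm_num)

/-- The cyclic case is a special case of the abelian one. -/
theorem cyclic_of_abelian {p : ℕ} [hp : Fact p.Prime] (hab : AbelianValues p K) :
    CyclicSmith p K := by
  have key : ∀ (C : Type) [CommGroup C] [Finite C] [Nontrivial C] [IsCyclic C], IsPGroup p C →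
      ∀ n, Smith (K (n + 1)) (K n) (⊥ : Subgroup C) := by
    intro C _ _ _ _ hC n
    apply smith_of_loss_eq_one
    rw [hab C hC n]
    have h1 : Group.rank C = 1 := le_antisymm rank_le_one_of_isCyclic one_le_rank
    rw [h1]
    rfl
  intro C _ _ hC hcyc n
  rcases subsingleton_or_nontrivial C with hs | hs
  · have h1 : Smith (K (n + 1)) (K n) (⊥ : Subgroup (Multiplicative (ZMod p))) := by
      apply key
      exact IsPGroup.of_card (n := 1) (by
        rw [Nat.card_congr Multiplicative.toAdd, Nat.card_zmod, pow_one])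
    have h2 := h1.comap (1 : C →* Multiplicative (ZMod p))
    have h3 : (⊥ : Subgroup (Multiplicative (ZMod p))).comap (1 : C →* Multiplicative (ZMod p)) =
        ⊥ := by
      ext x
      have : x = 1 := Subsingleton.elim _ _
      simp [this]
    rwa [h3] at h2
  · let _ : CommGroup C := IsCyclic.commGroup
    exact key C hC n

variable {p : ℕ} [hp : Fact p.Prime]

omit hp in
/-- The target height drops under products with cyclic groups. -/
theorem Smith.prod (hcyc : CyclicSmith p K) {G C : Type} [Group G] [Group C] [Finite C]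
    (hC : IsPGroup p C) [IsCyclic C] {H : Subgroup G} {E : Homology} {n : ℕ}
    (h : Smith E (K (n + 1)) H) : Smith E (K n) (H.prod (⊥ : Subgroup C)) := by
  rw [smith_iff_adm] at h ⊢
  intro P hP
  have h1 := h (P.comap (MonoidHom.inl G C))
  rw [GPair.fixed_comap, GPair.fixed_comap] at h1
  have h2 : H.map (MonoidHom.inl G C) = H.prod ⊥ := by
    ext ⟨x, y⟩
    rw [Subgroup.mem_prod]
    constructor
    · rintro ⟨z, hz, hzx⟩
      obtain ⟨rfl, rfl⟩ := Prod.mk.inj hzx
      exact ⟨hz, Subgroup.one_mem _⟩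
    · rintro ⟨hx, hy⟩
      exact ⟨x, hx, Prod.ext rfl hy.symm⟩
  have h3 : (⊤ : Subgroup G).map (MonoidHom.inl G C) = (MonoidHom.snd G C).ker := by
    ext ⟨x, y⟩
    rw [MonoidHom.mem_ker]
    constructor
    · rintro ⟨z, hz, hzx⟩
      obtain ⟨rfl, rfl⟩ := Prod.mk.inj hzx
      rfl
    · intro hy
      exact ⟨x, trivial, Prod.ext rfl hy.symm⟩
  rw [h2, h3] at h1
  have h4 := h1 hP
  have h5 : Smith (K (n + 1)) (K n) (⊥ : Subgroup ((⊤ : Subgroup (G × C)) ⧸
      ((MonoidHom.snd G C).ker.subgroupOf ⊤))) := by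
    let g : (⊤ : Subgroup (G × C)) →* C := (MonoidHom.snd G C).comp (Subgroup.subtype _)
    have hg : (MonoidHom.snd G C).ker.subgroupOf ⊤ = (⊥ : Subgroup C).comap g := rfl
    let q : ((⊤ : Subgroup (G × C)) ⧸ ((MonoidHom.snd G C).ker.subgroupOf ⊤)) →* C :=
      QuotientGroup.lift _ g (fun x hx => hx)
    have hq : Function.Injective q := by
      rw [injective_iff_map_eq_one]
      intro a
      induction a using QuotientGroup.induction_on with
      | H a =>
        intro h1
        rw [QuotientGroup.eq_one_iff]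
        exact h1
    have : Finite ((⊤ : Subgroup (G × C)) ⧸ ((MonoidHom.snd G C).ker.subgroupOf ⊤)) :=
      Finite.of_injective q hq
    exact hcyc _ (hC.of_injective q hq) (isCyclic_of_injective q hq) n
  rw [smith_iff_adm] at h5
  exact Adm.of_step (acClass _) (acClass _) le_top h5 P h4

omit hp in
theorem loss_prod_le (hcyc : CyclicSmith p K) {G C : Type} [Group G] [Group C] [Finite C]
    (hC : IsPGroup p C) [IsCyclic C] (H : Subgroup G) (n : ℕ) :
    loss K n (H.prod (⊥ : Subgroup C)) ≤ loss K (n + 1) H + 1 := by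
  rcases eq_or_ne (loss K (n + 1) H) ⊤ with h | h
  · rw [h]; simp
  · obtain ⟨m, hm⟩ := ENat.ne_top_iff_exists.1 h
    rw [← hm]
    by_contra hcon
    push Not at hcon
    have h1 : ((m + 1 : ℕ) : ℕ∞) ≤ loss K (n + 1) H := by
      apply le_loss
      intro r hr
      have h2 := (Smith.prod (C := C) hcyc hC hr)
      have h3 : n + 1 + r = n + (r + 1) := by ring
      rw [h3] at h2
      have h4 := hcon.trans_le h2.loss_le
      have h5 : m + 1 < r + 1 := by exact_mod_cast h4
      exact_mod_cast (by omega : m + 1 ≤ r)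
    rw [← hm] at h1
    have h2 : m + 1 ≤ m := by exact_mod_cast h1
    omega

/-- For a large cyclic group `C`, the pair `(G × C, H × 1)` has length one more. -/
theorem exists_cycLen_prod {G : Type} [Group G] [Finite G] (hG : IsPGroup p G) (H : Subgroup G) :
    ∃ k : ℕ, cycLen H ⊤ + 1 ≤
      cycLen (H.prod (⊥ : Subgroup (Multiplicative (ZMod (p ^ k))))) ⊤ := by
  obtain ⟨β, hβ⟩ := IsPGroup.iff_card.1 hG
  refine ⟨cycLen H ⊤ * β + 1, ?_⟩
  set k := cycLen H ⊤ * β + 1
  have : NeZero (p ^ k) := ⟨(pow_pos hp.out.pos k).ne'⟩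
  have hC : IsPGroup p (Multiplicative (ZMod (p ^ k))) := IsPGroup.of_card (n := k) (by
    rw [Nat.card_congr Multiplicative.toAdd, Nat.card_zmod])
  have hGC : IsPGroup p (G × Multiplicative (ZMod (p ^ k))) := IsPGroup.of_card (n := β + k) (by
    rw [Nat.card_prod, hβ, Nat.card_congr Multiplicative.toAdd, Nat.card_zmod, ← pow_add])
  by_contra hcon
  have h1 : cycLen (H.prod (⊥ : Subgroup (Multiplicative (ZMod (p ^ k))))) ⊤ ≤ cycLen H ⊤ := by
    omega
  have h2 := P241.cycLen_mem hGC (H.prod (⊥ : Subgroup (Multiplicative (ZMod (p ^ k)))))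
  have hw : orderOf (Multiplicative.ofAdd (1 : ZMod (p ^ k))) = p ^ k := by
    rw [orderOf_ofAdd_eq_addOrderOf, ZMod.addOrderOf_one]
  obtain ⟨s', hs', hs⟩ := P241.chain_prod hG hC _ hβ hw (by
    have := Nat.mul_le_mul_right β h1
    exact Nat.lt_succ_of_le this) h2
  have h3 : cycLen H ⊤ ≤ s' := Nat.sInf_le hs
  have h4 : s' + 1 ≤ cycLen H ⊤ := hs' ▸ h1
  omega

/-- The conjecture with target height `n` implies it with target height `n + 1`. -/
theorem Conj.succ (hcyc : CyclicSmith p K) {n : ℕ} (h : Conj p K n) : Conj p K (n + 1) := by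
  intro G _ _ hG H
  refine le_antisymm (loss_le_cycLen hcyc hG H (n + 1)) ?_
  obtain ⟨k, hk⟩ := exists_cycLen_prod hG H
  have : NeZero (p ^ k) := ⟨(pow_pos hp.out.pos k).ne'⟩
  have hC : IsPGroup p (Multiplicative (ZMod (p ^ k))) := IsPGroup.of_card (n := k) (by
    rw [Nat.card_congr Multiplicative.toAdd, Nat.card_zmod])
  obtain ⟨β, hβ⟩ := IsPGroup.iff_card.1 hG
  have hGC : IsPGroup p (G × Multiplicative (ZMod (p ^ k))) := IsPGroup.of_card (n := β + k) (by
    rw [Nat.card_prod, hβ, Nat.card_congr Multiplicative.toAdd, Nat.card_zmod, ← pow_add])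
  have h1 := loss_prod_le (C := Multiplicative (ZMod (p ^ k))) hcyc hC H n
  rw [h _ hGC] at h1
  have h2 : ((cycLen H ⊤ + 1 : ℕ) : ℕ∞) ≤ loss K (n + 1) H + 1 :=
    (by exact_mod_cast hk : ((cycLen H ⊤ + 1 : ℕ) : ℕ∞) ≤ _).trans h1
  push_cast at h2
  exact (ENat.add_le_add_iff_right (by simp)).1 h2

end Vale.Agent.P241.Lite
end

section

namespace Vale.Agent.P241.Lite

variable {K : ℕ → Homology} {p : ℕ} [hp : Fact p.Prime]

omit hp in
lemma loss_map_le {G Q : Type} [Group G] [Group Q] (f : G →* Q) (hf : Function.Surjective f)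
    (H : Subgroup G) (n : ℕ) : loss K n (H.map f) ≤ loss K n H :=
  le_loss fun _ h => (h.of_surjective f hf).loss_le

omit hp in
lemma loss_bot_le {G Q : Type} [Group G] [Group Q] (f : G →* Q) (hf : Function.Surjective f)
    (n : ℕ) : loss K n (⊥ : Subgroup Q) ≤ loss K n (⊥ : Subgroup G) := by
  have h := loss_map_le (K := K) f hf ⊥ n
  rwa [Subgroup.map_bot] at h

omit hp in
lemma le_loss_of_sec (hab : AbelianValues p K) {G : Type} [Group G] [Finite G] {r : ℕ}
    (h : P241.Sec p G r) (n : ℕ) : (r : ℕ∞) ≤ loss K n (⊥ : Subgroup G) := by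
  obtain ⟨L, V, _, _, _, φ, ψ, h1, h2, h3, h4⟩ := h
  have h5 := rank_le_loss (K := K) (H := (⊥ : Subgroup G)) hab n h1 φ ψ h2 h3
  exact (by exact_mod_cast h4 : (r : ℕ∞) ≤ (Group.rank V : ℕ∞)).trans h5

omit hp in
lemma step_bot {G : Type} [Group G] {N : Subgroup G} (hN : IsCyclic N) : P241.Step ⊥ N := by
  refine ⟨bot_le, ?_⟩
  have h1 : (⊥ : Subgroup G).subgroupOf N = ⊥ := Subgroup.bot_subgroupOf N
  rw [h1]
  exact ⟨inferInstance, isCyclic_of_surjective (QuotientGroup.mk' (⊥ : Subgroup N))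
    (QuotientGroup.mk'_surjective _)⟩

omit hp in
lemma step_top {G : Type} [Group G] {N : Subgroup G} [N.Normal] (hN : IsCyclic (G ⧸ N)) :
    P241.Step N ⊤ :=
  ⟨le_top, inferInstance, P241.isCyclic_quotient_comap (Subgroup.subtype ⊤) N hN⟩

omit hp in
lemma cycLen_le_one {G : Type} [Group G] (hG : IsCyclic G) : cycLen (⊥ : Subgroup G) ⊤ ≤ 1 := by
  refine Nat.sInf_le ⟨fun i => if i = 0 then ⊥ else ⊤, rfl, rfl, ?_⟩
  intro i hi
  have : i = 0 := by omega
  subst this
  exact step_top (isCyclic_of_surjective (QuotientGroup.mk' (⊥ : Subgroup G))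
    (QuotientGroup.mk'_surjective _))

omit hp in
lemma cycLen_le_two {G : Type} [Group G] (hG : P241.Metacyc G) :
    cycLen (⊥ : Subgroup G) ⊤ ≤ 2 := by
  obtain ⟨N, hN, h1, h2⟩ := hG
  refine Nat.sInf_le ⟨fun i => if i = 0 then ⊥ else if i = 1 then N else ⊤, rfl, rfl, ?_⟩
  intro i hi
  interval_cases i
  · exact step_bot h1
  · exact step_top (N := N) h2

omit hp in
lemma cycLen_eq_zero {G : Type} [Group G] [Subsingleton G] : cycLen (⊥ : Subgroup G) ⊤ = 0 := by
  have : cycLen (⊥ : Subgroup G) ⊤ ≤ 0 :=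
    Nat.sInf_le ⟨fun _ => ⊥, rfl, Subsingleton.elim _ _, fun i hi => absurd hi (by omega)⟩
  omega

/-- Lengths up to `3` are detected, up to the groups of order `p ^ 3` and exponent `p`. -/
theorem min_le_loss_bot (hab : AbelianValues p K) {G : Type} [Group G] [Finite G]
    (hG : IsPGroup p G) (n : ℕ)
    (hQ : ∀ (Q : Type) [Group Q] [Finite Q] (f : G →* Q), Function.Surjective f →
      Nat.card Q = p ^ 3 → (∀ x : Q, x ^ p = 1) →
        (∀ x y : Q, x * y = y * x) ∨ 3 ≤ loss K n (⊥ : Subgroup Q)) :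
    (min 3 (cycLen (⊥ : Subgroup G) ⊤) : ℕ) ≤ loss K n (⊥ : Subgroup G) := by
  rcases subsingleton_or_nontrivial G with hs | hs
  · rw [cycLen_eq_zero]
    simp
  have key : ∀ r : ℕ, (r : ℕ∞) ≤ loss K n (⊥ : Subgroup G) → min 3 (cycLen (⊥ : Subgroup G) ⊤) ≤ r →
      ((min 3 (cycLen (⊥ : Subgroup G) ⊤) : ℕ) : ℕ∞) ≤ loss K n (⊥ : Subgroup G) := by
    intro r h1 h2
    exact (by exact_mod_cast h2 : ((min 3 (cycLen (⊥ : Subgroup G) ⊤) : ℕ) : ℕ∞) ≤ r).trans h1
  rcases P241.trichotomy (p := p) G hG with h | h | h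
  · rcases P241.cyclic_or_sec (p := p) G hG with h1 | h1
    · refine key 1 ?_ (by have := cycLen_le_one h1; omega)
      let _ : CommGroup G := IsCyclic.commGroup
      have h2 := hab G hG n
      rw [h2]
      exact_mod_cast one_le_rank
    · exact key 2 (le_loss_of_sec hab h1 n) (by have := cycLen_le_two h; omega)
  · exact key 3 (le_loss_of_sec hab h n) (min_le_left _ _)
  · obtain ⟨Q, _, _, ψ, h1, h2, h3, h4⟩ := h
    refine key 3 ?_ (min_le_left _ _)
    exact ((hQ Q ψ h1 h2 h3).resolve_left h4).trans (loss_bot_le ψ h1 n)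

omit hp in
lemma cycLen_le_quotient {G : Type} [Group G] (H : Subgroup G) [H.Normal] {s : ℕ}
    (h : HasCyclicChain (⊥ : Subgroup (G ⧸ H)) ⊤ s) : HasCyclicChain H ⊤ s := by
  have h1 := P241.HasCyclicChain.comap (QuotientGroup.mk' H) h
  have h2 : (⊥ : Subgroup (G ⧸ H)).comap (QuotientGroup.mk' H) = H := by
    rw [MonoidHom.comap_bot, QuotientGroup.ker_mk']
  rw [h2, Subgroup.comap_top] at h1
  exact h1

/-- The same for normal subgroups. -/
theorem min_le_loss (hab : AbelianValues p K) {G : Type} [Group G] [Finite G]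
    (hG : IsPGroup p G) (H : Subgroup G) [H.Normal] (n : ℕ)
    (hQ : ∀ (Q : Type) [Group Q] [Finite Q] (f : G →* Q), Function.Surjective f →
      Nat.card Q = p ^ 3 → (∀ x : Q, x ^ p = 1) →
        (∀ x y : Q, x * y = y * x) ∨ 3 ≤ loss K n (⊥ : Subgroup Q)) :
    (min 3 (cycLen H ⊤) : ℕ) ≤ loss K n H := by
  have h1 := min_le_loss_bot (K := K) hab (hG.to_quotient H) n (fun Q _ _ f hf =>
    hQ Q (f.comp (QuotientGroup.mk' H)) (hf.comp (QuotientGroup.mk'_surjective H)))
  have h2 : cycLen H ⊤ ≤ cycLen (⊥ : Subgroup (G ⧸ H)) ⊤ :=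
    Nat.sInf_le (cycLen_le_quotient H (P241.cycLen_mem (hG.to_quotient H) ⊥))
  have h3 : loss K n (⊥ : Subgroup (G ⧸ H)) ≤ loss K n H := by
    have h := loss_map_le (K := K) (QuotientGroup.mk' H) (QuotientGroup.mk'_surjective H) H n
    rwa [QuotientGroup.map_mk'_self] at h
  refine le_trans ?_ (h1.trans h3)
  exact_mod_cast min_le_min_left 3 h2

end Vale.Agent.P241.Lite
end
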