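import Vale.Agent.P241.Bdl.B1

namespace Vale.Agent.P241.F

/-- Monotone maps `[m] → [n]`. -/
abbrev Op (m n : ℕ) : Type := Fin (m + 1) →o Fin (n + 1)

/-- Based simplicial sets: `S n` is the set of `n`-simplices, `pt` the base point. -/
structure BSS where
  S : ℕ → Type
  pt : ∀ n, S n
  op : ∀ {m n}, Op m n → S n → S m
  op_pt : ∀ {m n} (a : Op m n), op a (pt n) = pt m
  op_id : ∀ {n} (x : S n), op .id x = x
  op_comp : ∀ {l m n} (a : Op l m) (b : Op m n) x, op (b.comp a) x = op a (op b x)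

/-- Finitely many simplices in each degree, and every simplex is degenerate on a simplex of
dimension at most `d`. -/
def BSS.IsFin (X : BSS) : Prop :=
  (∀ n, Finite (X.S n)) ∧ ∃ d, ∀ n (x : X.S n), ∃ k ≤ d, ∃ (a : Op n k) (y : X.S k), X.op a y = x

/-- Based simplicial maps. -/
structure Map (X Y : BSS) where
  f : ∀ n, X.S n → Y.S n
  f_pt : ∀ n, f n (X.pt n) = Y.pt n
  f_op : ∀ {m n} (a : Op m n) x, f m (X.op a x) = Y.op a (f n x)

/-- Based simplicial homotopy; `t` is an `n`-simplex of the interval. -/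
def Homotopic {X Y : BSS} (f g : Map X Y) : Prop :=
  ∃ H : ∀ {n}, X.S n → (Fin (n + 1) →o Bool) → Y.S n,
    (∀ {m n} (a : Op m n) x t, H (X.op a x) (t.comp a) = Y.op a (H x t)) ∧
    ∀ n, (∀ t, H (X.pt n) t = Y.pt n) ∧ ∀ x, H x ⊥ = f.f n x ∧ H x ⊤ = g.f n x

/-- `i : A → X` is injective and `q : X → Q` is surjective and collapses exactly the image of `i`,
so that `Q = X / A`. -/
def IsCofiber {A X Q : BSS} (i : Map A X) (q : Map X Q) : Prop :=
  ∀ n, Function.Injective (i.f n) ∧ Function.Surjective (q.f n) ∧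
    ∀ x y, q.f n x = q.f n y ↔ x = y ∨ (∃ a, i.f n a = x) ∧ ∃ a, i.f n a = y

/-- Reduced homology theories, with values in pointed sets (for instance abelian groups):
functoriality, homotopy invariance, and the long exact sequence of a cofibre pair. -/
structure Homology where
  h : ℤ → BSS → Type
  zero : ∀ j X, h j X
  map : ∀ j {X Y}, Map X Y → h j X → h j Y
  map_id : ∀ j {X} (f : Map X X), (∀ n x, f.f n x = x) → ∀ x, map j f x = x
  map_comp : ∀ j {X Y Z} (f : Map X Y) (g : Map Y Z) (k : Map X Z),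
    (∀ n x, k.f n x = g.f n (f.f n x)) → ∀ x, map j k x = map j g (map j f x)
  homotopy : ∀ j {X Y} (f g : Map X Y), Homotopic f g → map j f = map j g
  exact : ∀ {A X Q} (i : Map A X) (q : Map X Q), IsCofiber i q →
    ∃ δ : ∀ j, h (j + 1) Q → h j A, ∀ j,
      (∀ x, map j q x = zero j Q ↔ x ∈ Set.range (map j i)) ∧
      (∀ y, δ j y = zero j A ↔ y ∈ Set.range (map (j + 1) q)) ∧
      ∀ a, map j i a = zero j X ↔ a ∈ Set.range (δ j)

/-- `E`-acyclic based simplicial sets. -/
def Homology.Acyclic (E : Homology) (X : BSS) : Prop := ∀ j x, x = E.zero j X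

/-- Based simplicial sets with an action of `G`. -/
structure GCx (G : FiniteGrp.{0}) extends BSS where
  act : G → Map toBSS toBSS
  act_one : ∀ n x, (act 1).f n x = x
  act_mul : ∀ g h n x, (act (g * h)).f n x = (act g).f n ((act h).f n x)

/-- The `H`-fixed points `X ^ H` are `E`-acyclic (`i` identifies `Y` with `X ^ H`). -/
def FixAcyclic (E : Homology) {G : FiniteGrp} (X : GCx G) (H : Subgroup G) : Prop :=
  ∀ (Y : BSS) (i : Map Y X.toBSS), (∀ n, Function.Injective (i.f n) ∧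
    ∀ x, (∀ g ∈ H, (X.act g).f n x = x) ↔ ∃ y, i.f n y = x) → E.Acyclic Y

/-- `E`-acyclicity of `X ^ H` forces `F`-acyclicity of `X ^ G` for all finite `G`-complexes `X`. -/
def Smith (E F : Homology) {G : FiniteGrp} (H : Subgroup G) : Prop :=
  ∀ X : GCx G, X.IsFin → FixAcyclic E X H → FixAcyclic F X ⊤

/-- `ℓ(G, H)`: the least length of a chain from `H` to `G` with cyclic quotients. -/
noncomputable def ell {G : Type} [Group G] (H : Subgroup G) : ℕ :=
  sInf {s | ∃ c : ℕ → Subgroup G, c 0 = H ∧ c s = ⊤ ∧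
    ∀ i < s, ∃ x ∈ Subgroup.normalizer (c i : Set G), c (i + 1) = c i ⊔ Subgroup.zpowers x}

/-- `m` embeds the smash product `X ∧ T` into `Z`. -/
def SmashEmb (X T Z : BSS) (m : ∀ {n}, X.S n → T.S n → Z.S n) : Prop :=
  (∀ k n (a : Op k n) x t, Z.op a (m x t) = m (X.op a x) (T.op a t)) ∧
    ∀ n x t, (m x t = Z.pt n ↔ x = X.pt n ∨ t = T.pt n) ∧
      ∀ y u, m x t = m y u → x = y ∧ t = u ∨ m x t = Z.pt n

/-- `T` is finite, and smashing with `T` does not change acyclicity. -/
def Faithful (K : ℕ → Homology) (T : BSS) : Prop :=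
  T.IsFin ∧ ∀ (X Z : BSS) m, SmashEmb X T Z m → (∀ n (z : Z.S n), ∃ x t, m x t = z) →
    ∀ n, (K n).Acyclic Z ↔ (K n).Acyclic X

/-- Group homomorphisms. -/
structure Hom (A B : FiniteGrp.{0}) where
  f : A → B
  f_mul : ∀ x y, f (x * y) = f x * f y

/-- Rings `R A` for finite groups `A`, with restrictions and transfers along all homomorphisms,
for instance `R A = π₀ (L S) ^ (B A)`, where `L` is localization at a telescope `T(n)`, `n ≥ 1`. -/
structure Tel (p : ℕ) where
  R : FiniteGrp.{0} → CommRingCat.{0}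
  res : ∀ {A B}, Hom A B → (R B →+* R A)
  tr : ∀ {A B}, Hom A B → R A → R B
  tr_add : ∀ {A B} (f : Hom A B) x y, tr f (x + y) = tr f x + tr f y
  id : ∀ {A} (f : Hom A A), (∀ a, f.f a = a) → ∀ x, res f x = x ∧ tr f x = x
  comp : ∀ {A B C} (f : Hom A B) (g : Hom B C) (h : Hom A C), (∀ a, h.f a = g.f (f.f a)) →
    (∀ x, res h x = res f (res g x)) ∧ ∀ x, tr h x = tr g (tr f x)
  projection : ∀ {A B} (f : Hom A B) x y, tr f (x * res f y) = tr f x * y
  base_change : ∀ {A B C} (f : Hom A C) (g : Hom B C) {n} (P : Fin n → FiniteGrp)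
    (u : ∀ i, Hom (P i) A) (v : ∀ i, Hom (P i) B) (c : Fin n → C),
    (∀ y, ∃! i, ∃ a b, g.f b * c i * f.f a = y) →
    (∀ i a b, c i * f.f a = g.f b * c i ↔ ∃! z, (u i).f z = a ∧ (v i).f z = b) →
    ∀ x, res g (tr f x) = ∑ i, tr (v i) (res (u i) x)
  unit : ∀ {A B} (f : Hom A B), Subsingleton A → ∀ x y, res f x = 1 + p * y → IsUnit x
  /-- Some power of `p` is in the ideal generated by the transfers from proper subgroups. -/
  Dead : FiniteGrp.{0} → Prop
  dead_iff : ∀ A, Dead A ↔ ∃ N : ℕ, (p : R A) ^ N ∈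
    Ideal.span {y | ∃ B, ∃ f : Hom B A, ¬ Function.Surjective f.f ∧ ∃ x, tr f x = y}

/-- Free simplices can be attached to `S ∧ U`, for some faithful `U`, to make it finite and
`K r`-acyclic. -/
def Attachable (K : ℕ → Homology) (r : ℕ) {W : FiniteGrp} (S : GCx W) : Prop :=
  ∃ (U : BSS) (C : GCx W) (m : ∀ {n}, S.S n → U.S n → C.S n),
    Faithful K U ∧ SmashEmb S.toBSS U C.toBSS m ∧ C.IsFin ∧ (K r).Acyclic C.toBSS ∧
    (∀ w n s t, (C.act w).f n (m s t) = m ((S.act w).f n s) t) ∧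
    ∀ n c, (∀ s t, m s t ≠ c) → ∀ w, (C.act w).f n c = c → w = 1

end Vale.Agent.P241.F
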