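import Vale.Agent.P241.MathlibUsed
import Vale.Agent.P241.Bdl.B1
import Vale.Agent.P241.Bdl.K_F_Defs
attribute [-instance] ProperSMul.toContinuousSMul IsTopologicalTorsor.toContinuousSMul IdemSemiring.toCanonicallyOrderedAdd IdemSemiring.toMulLeftMono IdemSemiring.toMulRightMono AddQuantale.instAddLeftMono AddQuantale.instAddRightMono Quantale.instMulLeftMono Quantale.instMulRightMono FiniteDimensional.rclike_to_real IsScalarTower.complexToReal FiniteDimensional.complexToReal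

set_option linter.all false

section

set_option autoImplicit false
set_option linter.unusedVariables false
open CategoryTheory Opposite

namespace Vale.Agent.P241.F

open Based (BSSet BGSet AcTheory Smash)

theorem Homology.acyclic_iff_of_bijective (E : Homology) {X Y : BSS} (f : Map X Y)
    (hf : ∀ n, Function.Bijective (f.f n)) : E.Acyclic X ↔ E.Acyclic Y := by
  let e : ∀ n, X.S n ≃ Y.S n := fun n => Equiv.ofBijective _ (hf n)
  let g : Map Y X := ⟨fun n => (e n).symm, fun n => by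
      rw [Equiv.symm_apply_eq]; exact (f.f_pt n).symm, fun {m n} a x => by
      rw [Equiv.symm_apply_eq]
      show Y.op a x = f.f m (X.op a ((e n).symm x))
      rw [f.f_op]
      exact congrArg _ ((e n).apply_symm_apply x).symm⟩
  have h1 : ∀ j x, E.map j g (E.map j f x) = x := by
    intro j x
    rw [← E.map_comp j f g ⟨fun n x => x, fun _ => rfl, fun _ _ => rfl⟩
      (fun n x => ((e n).symm_apply_apply x).symm), E.map_id j _ (fun _ _ => rfl)]
  have h2 : ∀ j y, E.map j f (E.map j g y) = y := by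
    intro j y
    rw [← E.map_comp j g f ⟨fun n x => x, fun _ => rfl, fun _ _ => rfl⟩
      (fun n x => ((e n).apply_symm_apply x).symm), E.map_id j _ (fun _ _ => rfl)]
  constructor
  · intro h j y
    rw [← h2 j y, ← h2 j (E.zero j Y), h j (E.map j g y), h j (E.map j g (E.zero j Y))]
  · intro h j x
    rw [← h1 j x, ← h1 j (E.zero j X), h j (E.map j f x), h j (E.map j f (E.zero j X))]

/-- Monotone maps as morphisms. -/
def sc {m n : ℕ} (a : Op m n) : op (SimplexCategory.mk n) ⟶ op (SimplexCategory.mk m) :=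
  Quiver.Hom.op (V := SimplexCategory) (SimplexCategory.Hom.mk a)

theorem sc_id (n : ℕ) : sc (.id : Op n n) = 𝟙 _ := rfl

theorem sc_comp {l m n : ℕ} (a : Op l m) (b : Op m n) : sc (b.comp a) = sc b ≫ sc a := rfl

/-- The based simplicial set of a functor. -/
def ofB (X : BSSet) : BSS where
  S n := X.obj (op (SimplexCategory.mk n))
  pt n := (X.obj (op (SimplexCategory.mk n))).point
  op a x := (X.map (sc a)).toFun x
  op_pt a := (X.map (sc a)).map_point
  op_id {n} x := congrFun (congrArg Pointed.Hom.toFun (X.map_id (op (SimplexCategory.mk n)))) x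
  op_comp {l m n} a b x := congrFun (congrArg Pointed.Hom.toFun
    (X.map_comp (sc b) (sc a))) x

/-- The functor of a based simplicial set. -/
def toB (X : BSS) : BSSet where
  obj n := ⟨X.S n.unop.len, X.pt _⟩
  map f := ⟨X.op f.unop.toOrderHom, X.op_pt _⟩
  map_id n := Pointed.Hom.ext (funext fun x => X.op_id x)
  map_comp f g := Pointed.Hom.ext (funext fun x =>
    X.op_comp g.unop.toOrderHom f.unop.toOrderHom x)

/-- The acyclicity theory of a homology theory. -/
def acTh (E : Homology) : AcTheory where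
  Acyclic X := E.Acyclic (ofB X)
  iso {X Y} e h := by
    refine (E.acyclic_iff_of_bijective (X := ofB X) (Y := ofB Y) ⟨fun n =>
      (e.hom.app (op (SimplexCategory.mk n))).toFun, fun n => (e.hom.app _).map_point,
      fun {m n} a x => ?_⟩ ?_).1 h
    · exact congrFun (congrArg Pointed.Hom.toFun (e.hom.naturality (sc a))) x
    · intro n
      refine Function.bijective_iff_has_inverse.2 ⟨(e.inv.app (op (SimplexCategory.mk n))).toFun,
        fun x => ?_, fun x => ?_⟩
      · exact congrFun (congrArg Pointed.Hom.toFun (e.hom_inv_id_app (op (SimplexCategory.mk n)))) x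
      · exact congrFun (congrArg Pointed.Hom.toFun (e.inv_hom_id_app (op (SimplexCategory.mk n)))) x

variable {G : FiniteGrp.{0}}

/-- `G`-complexes. -/
def gOfB (X : Based.GCx G) : GCx G where
  S n := X.obj (op (SimplexCategory.mk n))
  pt n := (X.obj (op (SimplexCategory.mk n))).pt
  op a x := (X.map (sc a)).toFun x
  op_pt a := (X.map (sc a)).map_pt
  op_id {n} x := congrFun (congrArg BGSet.Hom.toFun (X.map_id (op (SimplexCategory.mk n)))) x
  op_comp {l m n} a b x := congrFun (congrArg BGSet.Hom.toFun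
    (X.map_comp (sc b) (sc a))) x
  act g := ⟨fun n x => g • x, fun n => BGSet.smul_pt _ g, fun a x => (BGSet.Hom.map_smul _ g x).symm⟩
  act_one n x := one_smul G x
  act_mul g h n x := mul_smul g h x

/-- `G`-complexes. -/
def gToB (X : GCx G) : Based.GCx G where
  obj n :=
    { carrier := X.S n.unop.len
      action :=
        { smul := fun g => (X.act g).f _
          one_smul := fun x => X.act_one _ x
          mul_smul := fun g h x => X.act_mul g h _ x }
      pt := X.pt _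
      smul_pt := fun g => (X.act g).f_pt _ }
  map f := ⟨X.op f.unop.toOrderHom, fun g x => ((X.act g).f_op _ x).symm, X.op_pt _⟩
  map_id n := BGSet.Hom.ext (funext fun x => X.op_id x)
  map_comp f g := BGSet.Hom.ext (funext fun x =>
    X.op_comp g.unop.toOrderHom f.unop.toOrderHom x)

theorem fixAcyclic_gOfB (E : Homology) (X : Based.GCx G) (H : Subgroup G) :
    FixAcyclic E (gOfB X) H ↔ (acTh E).Acyclic (X.fix H) := by
  constructor
  · intro h
    refine h (ofB (X.fix H)) ⟨fun n x => x.1, fun n => rfl, fun a x => rfl⟩ fun n => ⟨?_, ?_⟩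
    · intro a b hab
      exact Subtype.ext hab
    · intro x
      constructor
      · intro hx
        exact ⟨⟨x, hx⟩, rfl⟩
      · rintro ⟨y, rfl⟩
        exact y.2
  · intro h Y i hi
    have hmem : ∀ n (y : Y.S n), ∀ g ∈ H, ((gOfB X).act g).f n (i.f n y) = i.f n y :=
      fun n y => ((hi n).2 _).2 ⟨y, rfl⟩
    refine (E.acyclic_iff_of_bijective (X := Y) (Y := ofB (X.fix H))
      ⟨fun n y => ⟨i.f n y, hmem n y⟩, fun n => Subtype.ext (i.f_pt n),
        fun {m n} a x => Subtype.ext (i.f_op a x)⟩ ?_).2 h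
    intro n
    constructor
    · intro a b hab
      exact (hi n).1 (congrArg Subtype.val hab)
    · rintro ⟨x, hx⟩
      obtain ⟨y, hy⟩ := ((hi n).2 x).1 hx
      exact ⟨y, Subtype.ext hy⟩

theorem gOfB_gToB (X : GCx G) : gOfB (gToB X) = X := rfl

theorem fixAcyclic_gToB (E : Homology) (X : GCx G) (H : Subgroup G) :
    FixAcyclic E X H ↔ (acTh E).Acyclic ((gToB X).fix H) :=
  fixAcyclic_gOfB E (gToB X) H

theorem isFin_gOfB {X : Based.GCx G} (h : Based.IsFin (X.fix ⊥)) : (gOfB X).IsFin := by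
  obtain ⟨h1, d, h2⟩ := Based.finG_iff.1 h
  refine ⟨fun n => h1 _, d, fun n x => ?_⟩
  obtain ⟨k, f, y, hk, hy⟩ := h2 (SimplexCategory.mk n) x
  exact ⟨k.len, hk, f.toOrderHom, y, hy⟩

theorem isFin_gToB {X : GCx G} (h : X.IsFin) : Based.IsFin ((gToB X).fix ⊥) := by
  obtain ⟨h1, d, h2⟩ := h
  refine Based.finG_iff.2 ⟨fun n => h1 _, d, fun n x => ?_⟩
  obtain ⟨k, hk, a, y, hy⟩ := h2 n.len x
  exact ⟨SimplexCategory.mk k, SimplexCategory.Hom.mk a, y, hk, hy⟩

theorem isFin_toB {X : BSS} (h : X.IsFin) : Based.IsFin (toB X) := by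
  obtain ⟨h1, d, h2⟩ := h
  refine ⟨fun n => h1 _, d, fun n x => ?_⟩
  obtain ⟨k, hk, a, y, hy⟩ := h2 n.len x
  exact ⟨SimplexCategory.mk k, SimplexCategory.Hom.mk a, y, hk, hy⟩

theorem fixAcyclic_bot (E : Homology) (X : GCx G) : FixAcyclic E X ⊥ ↔ E.Acyclic X.toBSS := by
  constructor
  · intro h
    refine h X.toBSS ⟨fun n x => x, fun n => rfl, fun a x => rfl⟩ fun n => ⟨fun a b h => h, ?_⟩
    intro x
    refine ⟨fun _ => ⟨x, rfl⟩, fun _ g hg => ?_⟩
    rw [Subgroup.mem_bot.1 hg]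
    exact X.act_one n x
  · intro h Y i hi
    refine (E.acyclic_iff_of_bijective i fun n => ⟨(hi n).1, fun x => ?_⟩).2 h
    refine ((hi n).2 x).1 fun g hg => ?_
    rw [Subgroup.mem_bot.1 hg]
    exact X.act_one n x

theorem faithful_toB {K : ℕ → Homology} {U : BSS} (h : Faithful K U) :
    Based.Faithful (fun n => acTh (K n)) (toB U) := by
  refine ⟨isFin_toB h.1, ?_⟩
  intro G _ X hX A n
  refine h.2 (ofB (X.fix A)) (ofB ((X.smash (toB U)).fix A))
    (fun {k} x t => ⟨Smash.mk (X.obj (op (SimplexCategory.mk k))).pt (U.pt k) x.1 t,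
      fun a ha => by
        show Smash.mk (X.obj (op (SimplexCategory.mk k))).pt (U.pt k) (a • x.1) t = _
        rw [x.2 a ha]⟩) ⟨?_, ?_⟩ ?_ n
  · intro k l a x t
    exact Subtype.ext rfl
  · intro k x t
    refine ⟨?_, ?_⟩
    · constructor
      · intro h1
        have h2 := Smash.mk_eq.1 (congrArg Subtype.val h1)
        rcases h2 with h2 | h2
        · exact Or.inl (Subtype.ext h2.1)
        · exact h2.1.imp (fun h => Subtype.ext h) id
      · intro h1
        refine Subtype.ext (Smash.mk_eq.2 (Or.inr ⟨h1.imp (fun h => congrArg Subtype.val h) id,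
          Or.inl rfl⟩))
    · intro y u h1
      rcases Smash.mk_eq.1 (congrArg Subtype.val h1) with h2 | h2
      · exact Or.inl ⟨Subtype.ext h2.1, h2.2⟩
      · exact Or.inr (Subtype.ext (Smash.mk_eq.2 (Or.inr ⟨h2.1, Or.inl rfl⟩)))
  · intro k z
    obtain ⟨z, hz⟩ := z
    obtain ⟨x, t, rfl⟩ := Smash.exists_rep z
    by_cases h0 : x = (X.obj (op (SimplexCategory.mk k))).pt ∨ t = U.pt k
    · refine ⟨(ofB (X.fix A)).pt k, U.pt k, Subtype.ext ?_⟩
      exact Smash.mk_eq.2 (Or.inr ⟨Or.inl rfl, h0⟩)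
    · push Not at h0
      refine ⟨⟨x, fun a ha => ?_⟩, t, rfl⟩
      have h1 : Smash.mk (X.obj (op (SimplexCategory.mk k))).pt (U.pt k) (a • x) t =
        Smash.mk (X.obj (op (SimplexCategory.mk k))).pt (U.pt k) x t := hz a ha
      rcases Smash.mk_eq.1 h1 with h2 | h2
      · exact h2.1
      · exact absurd h2.2 (not_or.2 ⟨h0.1, h0.2⟩)

theorem isFin_ofB {X : BSSet} (h : Based.IsFin X) : (ofB X).IsFin := by
  obtain ⟨h1, d, h2⟩ := h
  refine ⟨fun n => h1 _, d, fun n x => ?_⟩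
  obtain ⟨k, f, y, hk, hy⟩ := h2 (SimplexCategory.mk n) x
  exact ⟨k.len, hk, f.toOrderHom, y, hy⟩

/-- The predicate on links. -/
def LinkD {p : ℕ} (T : ℕ → Tel p) (V : Type) [Group V] (m j : ℕ) : Prop :=
  ∀ t < m, ∀ E : FiniteGrp.{0}, Nonempty (E ≃* V) → ∃ A : FiniteGrp.{0}, IsPGroup p A ∧
    IsMulCommutative A ∧ Group.rank A ≤ j ∧ (T t).Dead (.of (E × A))

theorem LinkD.congr {p : ℕ} {T : ℕ → Tel p} (V V' : Type) [Group V] [Group V'] (e : V ≃* V')
    (m j : ℕ) (h : LinkD T V m j) : LinkD T V' m j :=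
  fun t ht E ⟨f⟩ => h t ht E ⟨f.trans e.symm⟩

theorem realization_toB {p : ℕ} {K : ℕ → Homology} {B : ℕ → FiniteGrp.{0} → Homology}
    {T : ℕ → Tel p}
    (hmono : ∀ (n r : ℕ) (X : BSS), X.IsFin → (K (n + r)).Acyclic X → (K n).Acyclic X)
    (hN : ∀ (t : ℕ) (V : FiniteGrp.{0}) (Y : BSS), Y.IsFin → ¬ (B t V).Acyclic Y →
      ∃ j, ¬ (K j).Acyclic Y ∧ ∀ A : FiniteGrp.{0}, IsPGroup p A → IsMulCommutative A →
        Group.rank A ≤ j → ¬ (T t).Dead (.of (V × A)))
    (h : ∀ W : FiniteGrp.{0}, IsPGroup p W → ∀ (S : GCx W) (r : ℕ), S.IsFin →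
      (∀ V : Subgroup W, V ≠ ⊥ → ∀ t < r, FixAcyclic (B t (.of V)) S V) → Attachable K r S) :
    Based.Realization p (fun n => acTh (K n)) (fun V _ m j => LinkD T V m j) := by
  intro W _ _ hW m S hS _ hD
  obtain ⟨U, C, μ, hU, hμ, hC, hacy, hequiv, hfree⟩ := h (FiniteGrp.of W) hW
    (gOfB (G := FiniteGrp.of W) S) m (isFin_gOfB (G := FiniteGrp.of W) hS)
    (fun V hV t ht => by
      by_contra hcon
      have hcon' : ¬ (acTh (B t (.of V))).Acyclic (Based.GCx.fix S V) := fun h' =>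
        hcon ((fixAcyclic_gOfB (G := FiniteGrp.of W) (B t (.of V)) S V).2 h')
      obtain ⟨j, hj, hA⟩ := hN t (.of V) (ofB (Based.GCx.fix S V)) (isFin_ofB (hS.fix V)) hcon'
      obtain ⟨A, h2, h3, h4, h5⟩ := hD V hV j hj t ht (.of V) ⟨MulEquiv.refl _⟩
      exact hA A h2 h3 h4 h5)
  have hpt : ∀ k (s : S.obj (op (SimplexCategory.mk k))) (t : U.S k),
      μ s t = C.pt k ↔ s = (S.obj (op (SimplexCategory.mk k))).pt ∨ t = U.pt k :=
    fun k s t => (hμ.2 k s t).1
  let i : ∀ n : SimplexCategoryᵒᵖ, (S.smash (toB U)).obj n → (gToB C).obj n := fun n =>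
    Quotient.lift (fun x : (S.obj n) × (U.S n.unop.len) => μ x.1 x.2) (by
      rintro ⟨x, y⟩ ⟨x', y'⟩ (h | ⟨h, h'⟩)
      · rw [h]
      · exact ((hpt _ x y).2 h).trans ((hpt _ x' y').2 h').symm)
  refine ⟨toB U, gToB C, ⟨fun n => ⟨i n, ?_, ?_⟩, ?_⟩, faithful_toB hU, isFin_gToB hC,
    ?_, ?_, ?_⟩
  · rintro g ⟨x, y⟩
    exact (hequiv g _ x y).symm
  · exact (hpt _ _ _).2 (Or.inl rfl)
  · intro n k f
    refine BGSet.Hom.ext (funext ?_)
    rintro ⟨x, y⟩
    exact (hμ.1 _ _ f.unop.toOrderHom x y).symm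
  · intro n z z' hz
    obtain ⟨x, t, rfl⟩ := Smash.exists_rep z
    obtain ⟨x', t', rfl⟩ := Smash.exists_rep z'
    have h1 : μ (n := n.unop.len) x t = μ (n := n.unop.len) x' t' := hz
    have h2 := (hμ.2 n.unop.len x t).2 x' t' h1
    refine Smash.mk_eq.2 ?_
    rcases h2 with h2 | h2
    · exact Or.inl h2
    · exact Or.inr ⟨(hpt _ x t).1 h2, (hpt _ x' t').1 (h1.symm.trans h2)⟩
  · intro n c hc w hw
    exact hfree n.unop.len c (fun s t hst => hc ⟨Smash.mk _ _ s t, hst⟩) w hw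
  · intro j hj
    exact (fixAcyclic_gToB (G := FiniteGrp.of W) (K j) C ⊥).1
      ((fixAcyclic_bot (K j) C).2 (hmono j (m - j) _ hC (by rwa [Nat.add_sub_cancel' hj])))

end Vale.Agent.P241.F
end

section

/-! Group-theoretic definitions for the algebraic part of P241 (see note 4711). -/

set_option autoImplicit false

namespace Vale.Agent.P241.F

/-- `V ≤ U` is normal in `U` with `U / V` elementary abelian. -/
def ElemAb (p : ℕ) {G : Type} [Group G] (V U : Subgroup G) : Prop :=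
  V ≤ U ∧ (∀ x ∈ U, x ^ p ∈ V) ∧ ∀ x ∈ U, ∀ y ∈ U, x * y * x⁻¹ * y⁻¹ ∈ V

/-- The number of pairs `(K, x)` with `K` a subgroup of index `k` and `x` a `K`-fixed point. -/
noncomputable def fixSum {G X : Type} [Group G] (ξ : G →* Equiv.Perm X) (k : ℕ) : ℕ :=
  Nat.card {q : Subgroup G × X // q.1.index = k ∧ ∀ g ∈ q.1, ξ g q.2 = q.2}

/-- The number of pairs: an action `ρ` of `G` on `Fin n` and an equivariant map `Fin n → X`. -/
noncomputable def homCount {G X : Type} [Group G] (ξ : G →* Equiv.Perm X) (n : ℕ) : ℕ :=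
  Nat.card {q : (G →* Equiv.Perm (Fin n)) × (Fin n → X) // ∀ g a, q.2 (q.1 g a) = ξ g (q.2 a)}

/-- The number of subgroups of `U` of index `p ^ j`. -/
noncomputable def idxCount (p : ℕ) {G : Type} [Group G] (U : Subgroup G) (j : ℕ) : ℕ :=
  Nat.card {K : Subgroup G // K ≤ U ∧ K.relIndex U = p ^ j}

/-- `homCount ξ n / n!` is `p`-integral, and modulo `p` it only depends on the size of `X`. -/
def IntCong (p : ℕ) (G : Type) [Group G] (n : ℕ) : Prop :=
  ∀ (X X' : Type) [Finite X] [Finite X'] (ξ : G →* Equiv.Perm X) (ξ' : G →* Equiv.Perm X'),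
    Nat.card X = Nat.card X' → ∃ b : ℕ, ¬ p ∣ b ∧ n.factorial ∣ b * homCount ξ n ∧
      ((p * n.factorial : ℕ) : ℤ) ∣ b * ((homCount ξ n : ℤ) - homCount ξ' n)

/-! ### Pro-`p` groups -/

/-- Open subgroups have `p`-power index. -/
def ProP (p : ℕ) (Δ : Type) [Group Δ] [TopologicalSpace Δ] : Prop :=
  ∀ U : Subgroup Δ, IsOpen (U : Set Δ) → ∃ k, U.index = p ^ k

/-- Elementary abelian subquotients of `Δ` (with open kernel) have order at most `p ^ e`. -/
def RP (p : ℕ) (Δ : Type) [Group Δ] [TopologicalSpace Δ] (e : ℕ) : Prop :=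
  ∀ U V : Subgroup Δ, IsOpen (V : Set Δ) → ElemAb p V U → V.relIndex U ≤ p ^ e

/-- The number of open subgroups of index `p ^ j` of `U × A` (`A` discrete). -/
noncomputable def cnt (p : ℕ) {Δ : Type} [Group Δ] [TopologicalSpace Δ] (A : Type) [Group A]
    (U : Subgroup Δ) (j : ℕ) : ℕ :=
  Nat.card {K : Subgroup (Δ × A) // K ≤ U.prod ⊤ ∧ K.relIndex (U.prod ⊤) = p ^ j ∧
    IsOpen ((K.comap (MonoidHom.inl Δ A) : Subgroup Δ) : Set Δ)}

/-- The congruences for the numbers of subgroups. -/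
def QP (p : ℕ) (Δ : Type) [Group Δ] [TopologicalSpace Δ] (A : Type) [Group A] : Prop :=
  ∀ U V : Subgroup Δ, IsOpen (V : Set Δ) → V ≤ U → V.relIndex U = p →
    ∀ j, cnt p A U (j + 1) ≡ cnt p A V j [MOD p ^ (j + 1)]

/-- `Δ` has cyclic quotients of all orders `p ^ m`. -/
def CycQ (p : ℕ) (Δ : Type) [Group Δ] [TopologicalSpace Δ] : Prop :=
  ∀ m, ∃ N : Subgroup Δ, IsOpen (N : Set Δ) ∧ ∃ _ : N.Normal, IsCyclic (Δ ⧸ N) ∧ N.index = p ^ m

/-- A surjection `Δ → ℤ_p`, given by the preimages `M m` of `p ^ m ℤ_p`. -/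
structure ZpSeq (p : ℕ) {Δ : Type} [Group Δ] [TopologicalSpace Δ] (M : ℕ → Subgroup Δ) :
    Prop where
  isOpen : ∀ m, IsOpen (M m : Set Δ)
  normal : ∀ m, (M m).Normal
  anti : ∀ m, M (m + 1) ≤ M m
  cyclic : ∀ m, IsCyclic (Δ ⧸ M m)
  index : ∀ m, (M m).index = p ^ m

/-! ### Transfers -/

/-- The `Hom` of a monoid homomorphism. -/
def Hom.of {A B : FiniteGrp.{0}} (f : A →* B) : Hom A B := ⟨f, map_mul f⟩

/-- The monoid homomorphism of a `Hom`. -/
def Hom.toMonoidHom {A B : FiniteGrp.{0}} (f : Hom A B) : A →* B := MonoidHom.mk' f.f f.f_mul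

/-- `ψ` kills all transfers from proper subgroups. -/
def Kills {p : ℕ} (T : Tel p) {G : FiniteGrp.{0}} {L : Type} [Field L] (ψ : T.R G →+* L) : Prop :=
  ∀ (B : FiniteGrp.{0}) (f : Hom B G), ¬ Function.Surjective f.f → ∀ x, ψ (T.tr f x) = 0

/-- Every `H ≤ P × G` which is not dead and projects onto `G` meets `P × 1` trivially. -/
def Sat {p : ℕ} (T : Tel p) (G : FiniteGrp.{0}) (P : Type) [Group P] [Finite P] : Prop :=
  ∀ H : Subgroup (P × G), ¬ T.Dead (.of H) → (∀ g, ∃ x, (x, g) ∈ H) → ∀ x, (x, 1) ∈ H → x = 1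

/-- The rank bound for groups which are not dead. -/
def RankBound {p : ℕ} (T : Tel p) (t : ℕ) : Prop :=
  ∀ A : FiniteGrp.{0}, IsPGroup p A → ¬ T.Dead A →
    ∀ U V : Subgroup A, ElemAb p V U → V.relIndex U ≤ p ^ t

end Vale.Agent.P241.F
end

section

set_option autoImplicit false

namespace Vale.Agent.P241.F

/-! ### Comparison with the model `Lite` -/

/-- Based simplicial sets in the model `Lite`. -/
def BSS.toL (X : BSS) : Lite.BSS where
  S := X.S
  pt := X.pt
  op a := X.op a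
  op_pt a := X.op_pt a
  op_id x := X.op_id x
  op_comp a b x := X.op_comp a b x

/-- Based simplicial sets from the model `Lite`. -/
def BSS.ofL (X : Lite.BSS) : BSS where
  S := X.S
  pt := X.pt
  op a := X.op a
  op_pt a := X.op_pt a
  op_id x := X.op_id x
  op_comp a b x := X.op_comp a b x

/-- Maps from the model `Lite`. -/
def Map.ofL {X Y : Lite.BSS} (f : Lite.Map X Y) : Map (BSS.ofL X) (BSS.ofL Y) where
  f _ := f.f
  f_pt := f.f_pt
  f_op a x := f.f_op a x

/-- Maps in the model `Lite`. -/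
def Map.toL {X Y : BSS} (f : Map X Y) : Lite.Map X.toL Y.toL where
  f {n} := f.f n
  f_pt := f.f_pt
  f_op a x := f.f_op a x

theorem homotopic_ofL {X Y : Lite.BSS} {f g : Lite.Map X Y} (h : Lite.Homotopic f g) :
    Homotopic (Map.ofL f) (Map.ofL g) := by
  obtain ⟨H, h1, h2⟩ := h
  exact ⟨fun {n} => H n, fun {m n} a x t => h1 m n a x t, fun n => h2 n⟩

theorem isCofiber_ofL {A X Q : Lite.BSS} {i : Lite.Map A X} {q : Lite.Map X Q}
    (h : Lite.IsCofiber i q) : IsCofiber (Map.ofL i) (Map.ofL q) := by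
  intro n
  obtain ⟨h1, h2, h3, h4⟩ := h n
  refine ⟨fun a b => h1 a b, h2, fun x y => ⟨fun hxy => ?_, ?_⟩⟩
  · rcases h4 x y hxy with h5 | h5
    · exact Or.inl h5
    · exact Or.inr ⟨(h3 x).1 h5, (h3 y).1 (hxy.symm.trans h5)⟩
  · rintro (rfl | ⟨h5, h6⟩)
    · rfl
    · exact ((h3 x).2 h5).trans ((h3 y).2 h6).symm

/-- The one point simplicial set. -/
def ptBSS : BSS where
  S _ := Unit
  pt _ := ()
  op _ _ := ()
  op_pt _ := rfl
  op_id _ := rfl
  op_comp _ _ _ := rfl

/-- The inclusion of the base point. -/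
def ptMap (X : BSS) : Map ptBSS X where
  f n _ := X.pt n
  f_pt _ := rfl
  f_op a _ := (X.op_pt a).symm

/-- The identity. -/
def idMap (X : BSS) : Map X X where
  f _ x := x
  f_pt _ := rfl
  f_op _ _ := rfl

theorem isCofiber_pt (X : BSS) : IsCofiber (ptMap X) (idMap X) := by
  intro n
  refine ⟨fun a b _ => rfl, fun y => ⟨y, rfl⟩, fun x y => ⟨fun h => Or.inl h, ?_⟩⟩
  rintro (h | ⟨⟨_, rfl⟩, ⟨_, rfl⟩⟩)
  · exact h
  · rfl

theorem Homology.eq_zero_iff (E : Homology) (j : ℤ) (X : BSS) (x : E.h j X) :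
    x = E.zero j X ↔ ∃ a, E.map j (ptMap X) a = x := by
  obtain ⟨δ, h⟩ := E.exact (ptMap X) (idMap X) (isCofiber_pt X)
  have := (h j).1 x
  rwa [E.map_id j (idMap X) (fun _ _ => rfl)] at this

theorem Homology.map_zero (E : Homology) (j : ℤ) {X Y : BSS} (f : Map X Y) :
    E.map j f (E.zero j X) = E.zero j Y := by
  obtain ⟨a, ha⟩ := (E.eq_zero_iff j X (E.zero j X)).1 rfl
  rw [E.eq_zero_iff]
  refine ⟨a, ?_⟩
  rw [← ha]
  exact E.map_comp j (ptMap X) f (ptMap Y) (fun n _ => (f.f_pt n).symm) a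

/-- Homology theories in the model `Lite`. -/
def Homology.toL (E : Homology) : Lite.Homology where
  h j X := E.h j (BSS.ofL X)
  zero j X := E.zero j (BSS.ofL X)
  map j _ _ f := E.map j (Map.ofL f)
  map_zero j _ _ f := E.map_zero j (Map.ofL f)
  map_id j _ f h := E.map_id j (Map.ofL f) h
  map_comp j _ _ _ f g k h := E.map_comp j (Map.ofL f) (Map.ofL g) (Map.ofL k) h
  homotopy j _ _ _ _ h := E.homotopy j _ _ (homotopic_ofL h)
  exact _ _ h := E.exact _ _ (isCofiber_ofL h)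

theorem acyclic_toL (E : Homology) (X : BSS) : E.toL.Acyclic X.toL ↔ E.Acyclic X := Iff.rfl

section

variable {G : FiniteGrp.{0}}

/-- `G`-complexes in the model `Lite`. -/
def GCx.toL (X : GCx G) : Lite.GCx G where
  toBSS := X.toBSS.toL
  act g := (X.act g).toL
  act_one := X.act_one
  act_mul := X.act_mul

/-- `G`-complexes from the model `Lite`. -/
def GCx.ofL (X : Lite.GCx G) : GCx G where
  toBSS := BSS.ofL X.toBSS
  act g := Map.ofL (X.act g)
  act_one := X.act_one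
  act_mul := X.act_mul

theorem fixAcyclic_toL (E : Homology) (X : GCx G) (H : Subgroup G) :
    Lite.FixAcyclic E.toL X.toL H ↔ FixAcyclic E X H := by
  constructor
  · intro h Y i hi
    exact h Y.toL i.toL (fun n => ⟨fun a b => @(hi n).1 a b, (hi n).2⟩)
  · intro h Y i hi
    exact h (BSS.ofL Y) (Map.ofL i) (fun n => ⟨fun a b => (hi n).1 a b, (hi n).2⟩)

theorem smith_toL (E F : Homology) (H : Subgroup G) :
    Lite.Smith E.toL F.toL H ↔ Smith E F H := by
  constructor
  · intro h X hX hE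
    exact (fixAcyclic_toL F X ⊤).1 (h X.toL hX ((fixAcyclic_toL E X H).2 hE))
  · intro h X hX hE
    exact (fixAcyclic_toL F (GCx.ofL X) ⊤).2 (h (GCx.ofL X) hX
      ((fixAcyclic_toL E (GCx.ofL X) H).1 hE))

end

/-! ### The norm inequality and quotients -/

theorem smith_subgroupOf (E F : Homology) {G : FiniteGrp.{0}} (H L : Subgroup G)
    (h : Smith E F H) : Smith (G := .of L) E F (H.subgroupOf L) :=
  (smith_toL (G := .of L) E F (H.subgroupOf L)).1
    (((smith_toL E F H).2 h).comap L.subtype)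

theorem smith_comap (E F : Homology) {G L : FiniteGrp.{0}} (φ : L →* G) (H : Subgroup G)
    (h : Smith E F H) : Smith E F (H.comap φ) := by
  rw [← smith_toL] at h ⊢
  exact h.comap φ

theorem smith_map (E F : Homology) {G Q : FiniteGrp.{0}} (f : G →* Q)
    (hf : Function.Surjective f) (H : Subgroup G) (h : Smith E F H) : Smith E F (H.map f) := by
  rw [← smith_toL] at h ⊢
  exact h.of_surjective f hf

theorem smith_of_surjective (E F : Homology) {G Q : FiniteGrp.{0}} (f : G →* Q)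
    (hf : Function.Surjective f) (h : Smith E F (⊥ : Subgroup G)) :
    Smith E F (⊥ : Subgroup Q) := by
  have := smith_map E F f hf ⊥ h
  rwa [Subgroup.map_bot] at this

theorem ElemAb.normal {p : ℕ} {G : Type} [Group G] {V U : Subgroup G} (h : ElemAb p V U) :
    (V.subgroupOf U).Normal := by
  refine ⟨fun v hv x => ?_⟩
  have h1 := h.2.2 x x.2 v v.2
  have h2 : (x : G) * v * (x : G)⁻¹ = ((x : G) * v * (x : G)⁻¹ * (v : G)⁻¹) * v := by group
  change (x : G) * v * (x : G)⁻¹ ∈ V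
  rw [h2]
  exact V.mul_mem h1 hv

theorem rankBound_of_smith {p : ℕ} [Fact p.Prime] (K : ℕ → Homology)
    (hab : ∀ A : FiniteGrp.{0}, IsPGroup p A → IsMulCommutative A → ∀ n r,
      Smith (K (n + r)) (K n) (⊥ : Subgroup A) ↔ Group.rank A ≤ r)
    (t : ℕ) (A : FiniteGrp.{0}) (hA : IsPGroup p A) (h : Smith (K t) (K 0) (⊥ : Subgroup A))
    (U V : Subgroup A) (hUV : ElemAb p V U) : V.relIndex U ≤ p ^ t := by
  have hN := hUV.normal
  have hp : p.Prime := Fact.out
  have h1 := smith_subgroupOf (K t) (K 0) ⊥ U h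
  have h2 := smith_map (K t) (K 0) (G := .of U) (Q := .of (U ⧸ V.subgroupOf U))
    (@QuotientGroup.mk' U _ (V.subgroupOf U) hN)
    (@QuotientGroup.mk'_surjective U _ (V.subgroupOf U) hN) _ h1
  have h3 : (((⊥ : Subgroup A).subgroupOf U).map (QuotientGroup.mk' (V.subgroupOf U))) = ⊥ := by
    rw [Subgroup.bot_subgroupOf, Subgroup.map_bot]
  have h4 : Smith (G := .of (U ⧸ V.subgroupOf U)) (K (0 + t)) (K 0) ⊥ := by
    rw [Nat.zero_add]
    exact h3 ▸ h2
  have hPQ : IsPGroup p (U ⧸ V.subgroupOf U) := (hA.to_subgroup U).to_quotient _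
  have hcomm : ∀ x y : U ⧸ V.subgroupOf U, x * y = y * x := by
    intro x y
    obtain ⟨x, rfl⟩ := QuotientGroup.mk'_surjective _ x
    obtain ⟨y, rfl⟩ := QuotientGroup.mk'_surjective _ y
    have h5 : x * y * x⁻¹ * y⁻¹ ∈ V.subgroupOf U := hUV.2.2 x x.2 y y.2
    have h6 : QuotientGroup.mk' (V.subgroupOf U) (x * y * x⁻¹ * y⁻¹) = 1 := by
      rw [← MonoidHom.mem_ker, QuotientGroup.ker_mk']
      exact h5
    rw [map_mul, map_mul, map_mul, map_inv, map_inv] at h6
    rw [mul_inv_eq_one, mul_inv_eq_iff_eq_mul] at h6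
    exact h6
  have h5 := (hab (.of (U ⧸ V.subgroupOf U)) hPQ ⟨⟨hcomm⟩⟩ 0 t).1 h4
  obtain ⟨k, hk⟩ := hPQ.exists_card_eq
  have h6 : k ≤ Group.rank (U ⧸ V.subgroupOf U) := by
    refine le_rank_of_card (p := p) ?_ hcomm hk
    intro x
    obtain ⟨x, rfl⟩ := QuotientGroup.mk'_surjective _ x
    rw [← map_pow, ← MonoidHom.mem_ker, QuotientGroup.ker_mk']
    exact hUV.2.1 x x.2
  have h7 : V.relIndex U = p ^ k := hk
  rw [h7]
  exact Nat.pow_le_pow_right hp.pos (h6.trans h5)

end Vale.Agent.P241.F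
end

section

set_option autoImplicit false

namespace Vale.Agent.P241.F

/-- Chains with cyclic quotients. -/
def IsChain {G : Type} [Group G] (H L : Subgroup G) (s : ℕ) : Prop :=
  ∃ c : ℕ → Subgroup G, c 0 = H ∧ c s = L ∧
    ∀ i < s, ∃ x ∈ Subgroup.normalizer (c i : Set G), c (i + 1) = c i ⊔ Subgroup.zpowers x

theorem step_iff {G : Type} [Group G] (A B : Subgroup G) :
    (∃ x ∈ Subgroup.normalizer (A : Set G), B = A ⊔ Subgroup.zpowers x) ↔ Step A B := by
  constructor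
  · rintro ⟨x, hx, rfl⟩
    have hle : A ⊔ Subgroup.zpowers x ≤ Subgroup.normalizer (A : Set G) :=
      sup_le Subgroup.le_normalizer (by rwa [Subgroup.zpowers_le])
    have hn : (A.subgroupOf (A ⊔ Subgroup.zpowers x)).Normal :=
      Subgroup.normal_subgroupOf_of_le_normalizer hle
    refine ⟨le_sup_left, hn, ?_⟩
    have hxB : x ∈ A ⊔ Subgroup.zpowers x :=
      Subgroup.mem_sup_right (Subgroup.mem_zpowers x)
    set B := A ⊔ Subgroup.zpowers x with hB
    let g : B ⧸ A.subgroupOf B := QuotientGroup.mk' (A.subgroupOf B) ⟨x, hxB⟩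
    refine ⟨⟨g, ?_⟩⟩
    intro y
    obtain ⟨y, rfl⟩ := QuotientGroup.mk'_surjective _ y
    let S : Subgroup B := (Subgroup.zpowers g).comap (QuotientGroup.mk' (A.subgroupOf B))
    have hS : B ≤ S.map B.subtype := by
      conv_lhs => rw [hB]
      refine sup_le ?_ ?_
      · intro a ha
        refine ⟨⟨a, hB ▸ Subgroup.mem_sup_left ha⟩, ?_, rfl⟩
        change QuotientGroup.mk' (A.subgroupOf B) ⟨a, _⟩ ∈ Subgroup.zpowers g
        have : QuotientGroup.mk' (A.subgroupOf B) ⟨a, hB ▸ Subgroup.mem_sup_left ha⟩ = 1 := by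
          rw [← MonoidHom.mem_ker, QuotientGroup.ker_mk']
          exact ha
        rw [this]
        exact Subgroup.one_mem _
      · rw [Subgroup.zpowers_le]
        exact ⟨⟨x, hxB⟩, Subgroup.mem_zpowers g, rfl⟩
    obtain ⟨z, hz, hz'⟩ := hS y.2
    have : z = y := Subtype.ext hz'
    subst this
    exact hz
  · rintro ⟨h1, h2, h3⟩
    obtain ⟨g, hg⟩ := h3.exists_generator
    obtain ⟨x, rfl⟩ := QuotientGroup.mk'_surjective _ g
    have hle : B ≤ Subgroup.normalizer (A : Set G) :=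
      (Subgroup.normal_subgroupOf_iff_le_normalizer h1).1 h2
    refine ⟨x, hle x.2, le_antisymm ?_ (sup_le h1 ?_)⟩
    · intro b hb
      obtain ⟨n, hn⟩ := Subgroup.mem_zpowers_iff.1 (hg (QuotientGroup.mk' _ ⟨b, hb⟩))
      have h4 : (⟨b, hb⟩ : B) * (x ^ n)⁻¹ ∈ A.subgroupOf B := by
        rw [← QuotientGroup.ker_mk' (A.subgroupOf B), MonoidHom.mem_ker, map_mul, map_inv,
          map_zpow, hn, mul_inv_cancel]
      have h5 : b * ((x : G) ^ n)⁻¹ ∈ A := h4
      have h6 : b = (b * ((x : G) ^ n)⁻¹) * (x : G) ^ n := by group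
      rw [h6]
      exact Subgroup.mul_mem _ (Subgroup.mem_sup_left h5)
        (Subgroup.mem_sup_right ⟨n, rfl⟩)
    · rw [Subgroup.zpowers_le]
      exact x.2

theorem isChain_iff {G : Type} [Group G] {H L : Subgroup G} {s : ℕ} :
    IsChain H L s ↔ HasCyclicChain H L s := by
  rw [hasCyclicChain_iff]
  constructor
  · rintro ⟨c, h0, h1, h2⟩
    exact ⟨c, h0, h1, fun i hi => (step_iff _ _).1 (h2 i hi)⟩
  · rintro ⟨c, h0, h1, h2⟩
    exact ⟨c, h0, h1, fun i hi => (step_iff _ _).2 (h2 i hi)⟩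

theorem ell_le {G : Type} [Group G] {H : Subgroup G} {s : ℕ} (h : IsChain H ⊤ s) :
    ell H ≤ s := Nat.sInf_le h

theorem exists_isChain {p : ℕ} [Fact p.Prime] {G : Type} [Group G] [Finite G] (hG : IsPGroup p G)
    (H : Subgroup G) : ∃ s, IsChain H ⊤ s := by
  obtain ⟨k, hk⟩ := exists_index_eq hG H
  exact ⟨k, isChain_iff.2 (hasCyclicChain_of_index hG k H hk)⟩

theorem isChain_ell {p : ℕ} [Fact p.Prime] {G : Type} [Group G] [Finite G] (hG : IsPGroup p G)
    (H : Subgroup G) : IsChain H ⊤ (ell H) :=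
  Nat.sInf_mem (s := {s | IsChain H ⊤ s}) (exists_isChain hG H)

theorem IsChain.map {G Q : Type} [Group G] [Group Q] (f : G →* Q) {H L : Subgroup G} {s : ℕ}
    (h : IsChain H L s) : IsChain (H.map f) (L.map f) s := by
  rw [isChain_iff, hasCyclicChain_iff] at *
  obtain ⟨c, h0, h1, h2⟩ := h
  subst h0 h1
  exact ⟨fun i => (c i).map f, rfl, rfl, fun i hi => (h2 i hi).map f⟩

theorem IsChain.comap {G Q : Type} [Group G] [Group Q] (f : G →* Q) {H L : Subgroup Q} {s : ℕ}
    (h : IsChain H L s) : IsChain (H.comap f) (L.comap f) s := by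
  rw [isChain_iff] at *
  exact h.comap f

theorem IsChain.trans {G : Type} [Group G] {H L M : Subgroup G} {s s' : ℕ}
    (h : IsChain H L s) (h' : IsChain L M s') : IsChain H M (s + s') := by
  rw [isChain_iff] at *
  exact h.append h'

theorem ell_of_surjective {p : ℕ} [Fact p.Prime] {G Q : Type} [Group G] [Finite G] [Group Q]
    (hG : IsPGroup p G) (f : G →* Q) (hf : Function.Surjective f) :
    ell (⊥ : Subgroup Q) ≤ ell (⊥ : Subgroup G) := by
  have h := (isChain_ell hG ⊥).map f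
  rw [Subgroup.map_bot, Subgroup.map_top_of_surjective f hf] at h
  exact ell_le h

theorem ell_le_succ {p : ℕ} [Fact p.Prime] {G : Type} [Group G] [Finite G] (hG : IsPGroup p G)
    (N : Subgroup G) [N.Normal] (hN : IsCyclic (G ⧸ N)) :
    ell (⊥ : Subgroup G) ≤ ell (⊥ : Subgroup N) + 1 := by
  have h := (isChain_ell (hG.to_subgroup N) ⊥).map N.subtype
  rw [Subgroup.map_bot, ← MonoidHom.range_eq_map, Subgroup.range_subtype] at h
  refine ell_le (h.trans (L := N) ?_)
  refine ⟨fun i => if i = 0 then N else ⊤, rfl, rfl, ?_⟩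
  intro i hi
  have hi0 : i = 0 := by omega
  subst hi0
  obtain ⟨g, hg⟩ := hN.exists_generator
  obtain ⟨x, rfl⟩ := QuotientGroup.mk'_surjective _ g
  refine ⟨x, ?_, ?_⟩
  · change x ∈ Subgroup.normalizer (N : Set G)
    rw [Subgroup.normalizer_eq_top]
    exact Subgroup.mem_top _
  · change (⊤ : Subgroup G) = N ⊔ Subgroup.zpowers x
    refine le_antisymm ?_ le_top
    intro b _
    obtain ⟨n, hn⟩ := Subgroup.mem_zpowers_iff.1 (hg (QuotientGroup.mk' _ b))
    have h4 : b * (x ^ n)⁻¹ ∈ N := by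
      rw [← QuotientGroup.ker_mk' N, MonoidHom.mem_ker, map_mul, map_inv,
        map_zpow, hn, mul_inv_cancel]
    have h6 : b = (b * (x ^ n)⁻¹) * x ^ n := by group
    rw [h6]
    exact Subgroup.mul_mem _ (Subgroup.mem_sup_left h4)
      (Subgroup.mem_sup_right ⟨n, rfl⟩)

theorem ell_add {p : ℕ} [Fact p.Prime] {G : Type} [Group G] [Finite G] (hG : IsPGroup p G)
    {A B : Subgroup G} (hAB : A ≤ B) [(A.subgroupOf B).Normal] :
    ell A ≤ ell (⊥ : Subgroup (B ⧸ A.subgroupOf B)) + ell B := by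
  have h := (isChain_ell ((hG.to_subgroup B).to_quotient (A.subgroupOf B)) ⊥).comap
    (QuotientGroup.mk' (A.subgroupOf B))
  have h' := h.map B.subtype
  rw [Subgroup.comap_top, ← MonoidHom.range_eq_map, Subgroup.range_subtype,
    MonoidHom.comap_bot, QuotientGroup.ker_mk'] at h'
  rw [Subgroup.subgroupOf_map_subtype, inf_eq_left.2 hAB] at h'
  exact ell_le (h'.trans (isChain_ell hG B))

end Vale.Agent.P241.F
end

section

set_option autoImplicit false

namespace Vale.Agent.P241.F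

/-- The listed values for abelian `p`-groups. -/
def AbVal (p : ℕ) (K : ℕ → Homology) : Prop :=
  ∀ A : FiniteGrp.{0}, IsPGroup p A → IsMulCommutative A → ∀ n r,
    Smith (K (n + r)) (K n) (⊥ : Subgroup A) ↔ Group.rank A ≤ r

theorem AbVal.cyclic {p : ℕ} {K : ℕ → Homology} (hab : AbVal p K) :
    Lite.CyclicSmith p (fun n => (K n).toL) := by
  intro C _ _ hC hcyc n
  have h1 : Group.rank C ≤ 1 := by
    obtain ⟨g, hg⟩ := hcyc.exists_generator
    refine (Group.rank_le (S := {g}) ?_).trans (by simp)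
    rw [Finset.coe_singleton, ← Subgroup.zpowers_eq_closure, Subgroup.eq_top_iff']
    exact hg
  have hcomm : IsMulCommutative (FiniteGrp.of C) := IsCyclic.isMulCommutative (α := C)
  exact (smith_toL (G := .of C) (K (n + 1)) (K n) ⊥).2 ((hab (.of C) hC hcomm n 1).2 h1)

theorem AbVal.triv {p : ℕ} {K : ℕ → Homology} (hab : AbVal p K) (T : Type) [Group T] [Finite T]
    [Subsingleton T] (n r : ℕ) : Lite.Smith (K (n + r)).toL (K n).toL (⊥ : Subgroup T) := by
  have h1 : Group.rank T ≤ 0 := by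
    refine (Group.rank_le (S := ∅) ?_).trans (by simp)
    rw [Subgroup.eq_top_iff']
    intro x
    rw [Subsingleton.elim x 1]
    exact Subgroup.one_mem _
  have hcomm : IsMulCommutative (FiniteGrp.of T) := ⟨⟨fun x y => Subsingleton.elim (α := T) _ _⟩⟩
  have hP : IsPGroup p T := fun x => ⟨0, Subsingleton.elim _ _⟩
  exact (smith_toL (G := .of T) (K (n + r)) (K n) ⊥).2 ((hab (.of T) hP hcomm n r).2 (by
    exact h1.trans (Nat.zero_le r)))

/-- The type is monotone: `K (m + r)`-acyclic fixed points are `K m`-acyclic. -/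
theorem AbVal.mono {p : ℕ} {K : ℕ → Homology} (hab : AbVal p K) {G : FiniteGrp.{0}} {n s r : ℕ}
    {H : Subgroup G} (h : Smith (K (n + s)) (K n) H) (hsr : s ≤ r) :
    Smith (K (n + r)) (K n) H := by
  obtain ⟨d, rfl⟩ := Nat.exists_eq_add_of_le hsr
  rw [← smith_toL, Lite.smith_iff_adm] at h ⊢
  intro P hP
  apply h P
  have hN : (H.subgroupOf H).Normal := by
    rw [Subgroup.subgroupOf_self]
    infer_instance
  have hsub : Subsingleton (H ⧸ H.subgroupOf H) := by
    rw [Subgroup.subgroupOf_self]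
    exact QuotientGroup.subsingleton_quotient_top
  have h1 := hab.triv (H ⧸ H.subgroupOf H) (n + s) d
  rw [Lite.smith_iff_adm] at h1
  rw [← Nat.add_assoc] at hP
  exact Adm.of_step (Lite.acClass _) (Lite.acClass _) le_rfl h1 P hP

/-! ### Models of fixed points -/

/-- `i` identifies `Y` with the `H`-fixed points of `X`. -/
def IsFixF {G : FiniteGrp.{0}} (X : GCx G) (H : Subgroup G) {Y : BSS} (i : Map Y X.toBSS) : Prop :=
  ∀ n, Function.Injective (i.f n) ∧
    ∀ x, (∀ g ∈ H, (X.act g).f n x = x) ↔ ∃ y, i.f n y = x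

theorem fixAcyclic_iffF (E : Homology) {G : FiniteGrp.{0}} {X : GCx G} {H : Subgroup G} {Y : BSS}
    {i : Map Y X.toBSS} (hi : IsFixF X H i) : FixAcyclic E X H ↔ E.Acyclic Y := by
  rw [← fixAcyclic_toL]
  exact Lite.fixAcyclic_iff (X := X.toL) E.toL (Y := Y.toL) (i := i.toL)
    (fun n => ⟨fun a b => @(hi n).1 a b, (hi n).2⟩)

/-- The pair underlying the fixed points, with the action of the trivial group. -/
def fixPair {G : FiniteGrp.{0}} (P : GPair G) (H : Subgroup G) : GPair Unit where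
  X := (P.fixed H).X
  A := (P.fixed H).A
  fin := (P.fixed H).fin
  act := 1
  stable _ := le_rfl

/-- Fixed points of finite complexes are finite. -/
theorem exists_isFixF {G : FiniteGrp.{0}} (X : GCx G) (hX : X.IsFin) (H : Subgroup G) :
    ∃ (Y : BSS) (i : Map Y X.toBSS), Y.IsFin ∧ IsFixF X H i := by
  refine ⟨BSS.ofL (Lite.collapse ((Lite.toPair X.toL hX).fixed H).X
    ((Lite.toPair X.toL hX).fixed H).A),
    ⟨fun n => (Lite.fixIncl X.toL hX H).f, (Lite.fixIncl X.toL hX H).f_pt,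
      fun a x => (Lite.fixIncl X.toL hX H).f_op a x⟩, ?_, ?_⟩
  · exact Lite.gcollapse_isFin (fixPair (Lite.toPair X.toL hX) H)
  · intro n
    exact ⟨fun a b => (Lite.isFix_fixIncl X.toL hX H n).1 a b,
      (Lite.isFix_fixIncl X.toL hX H n).2⟩

/-- The trivial action. -/
def trivG (G : FiniteGrp.{0}) (X : BSS) : GCx G where
  toBSS := X
  act _ := idMap X
  act_one _ _ := rfl
  act_mul _ _ _ _ := rfl

theorem isFixF_trivG (G : FiniteGrp.{0}) (X : BSS) (H : Subgroup G) :
    IsFixF (trivG G X) H (idMap X) := by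
  intro n
  exact ⟨fun a b h => h, fun x => ⟨fun _ => ⟨x, rfl⟩, fun _ _ _ => rfl⟩⟩

section

variable {p : ℕ} [Fact p.Prime] (K : ℕ → Homology)
  (hab : ∀ A : FiniteGrp.{0}, IsPGroup p A → IsMulCommutative A → ∀ n r,
    Smith (K (n + r)) (K n) (⊥ : Subgroup A) ↔ Group.rank A ≤ r)
include hab

omit [Fact p.Prime] in
/-- `K (n + r)`-acyclic finite complexes are `K n`-acyclic. -/
theorem acyclic_mono (n r : ℕ) (X : BSS) (hX : X.IsFin) (h : (K (n + r)).Acyclic X) :
    (K n).Acyclic X := by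
  have h1 : Lite.Smith (K (n + r)).toL (K n).toL (⊥ : Subgroup Unit) :=
    AbVal.triv (p := p) (K := K) hab Unit n r
  have h2 := (smith_toL (G := .of Unit) (K (n + r)) (K n) ⊥).1 h1
  have h3 := h2 (trivG (.of Unit) X) hX
    ((fixAcyclic_iffF _ (isFixF_trivG _ X _)).2 h)
  exact (fixAcyclic_iffF _ (isFixF_trivG _ X _)).1 h3

/-- There are finite complexes of type `n`. -/
theorem exists_type (n : ℕ) :
    ∃ B : BSS, B.IsFin ∧ (∀ i < n, (K i).Acyclic B) ∧ ¬ (K n).Acyclic B := by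
  have hp : p.Prime := Fact.out
  have : NeZero p := ⟨hp.ne_zero⟩
  let C := Multiplicative (ZMod p)
  have hcard : Nat.card C = p := by
    rw [Nat.card_congr Multiplicative.toAdd, Nat.card_zmod]
  have hC : IsPGroup p C := IsPGroup.of_card (n := 1) (by rw [hcard, pow_one])
  have hcomm : IsMulCommutative (FiniteGrp.of C) := ⟨⟨fun x y => mul_comm (G := C) x y⟩⟩
  have hcyc : IsCyclic C := isCyclic_of_prime_card hcard
  have hrank1 : Group.rank C ≤ 1 := by
    obtain ⟨g, hg⟩ := hcyc.exists_generator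
    refine (Group.rank_le (S := {g}) ?_).trans (by simp)
    rw [Finset.coe_singleton, ← Subgroup.zpowers_eq_closure, Subgroup.eq_top_iff']
    exact hg
  have hrank0 : ¬ Group.rank C ≤ 0 := by
    intro h0
    obtain ⟨S, hS, hS'⟩ := Group.rank_spec C
    have h1 : S = ∅ := Finset.card_eq_zero.1 (by omega)
    rw [h1, Finset.coe_empty, Subgroup.closure_empty] at hS'
    have h2 := Subgroup.card_top (G := C)
    rw [← hS', Subgroup.card_bot, hcard] at h2
    exact hp.one_lt.ne h2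
  have hns : ¬ Smith (G := .of C) (K n) (K n) ⊥ := fun h =>
    hrank0 ((hab (.of C) hC hcomm n 0).1 h)
  unfold Smith at hns
  push Not at hns
  obtain ⟨X, hX, hE, hF⟩ := hns
  obtain ⟨Y, i, hY, hi⟩ := exists_isFixF X hX ⊤
  obtain ⟨Z, k, hZ, hk⟩ := exists_isFixF X hX ⊥
  refine ⟨Y, hY, ?_, fun h => hF ((fixAcyclic_iffF _ hi).2 h)⟩
  intro j hj
  have h1 : (K (j + 1)).Acyclic Z := by
    obtain ⟨d, rfl⟩ := Nat.exists_eq_add_of_le (show j + 1 ≤ n from hj)
    exact acyclic_mono K hab (j + 1) d Z hZ ((fixAcyclic_iffF _ hk).1 hE)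
  exact (fixAcyclic_iffF _ hi).1 ((hab (.of C) hC hcomm j 1).2 hrank1 X hX
    ((fixAcyclic_iffF _ hk).2 h1))

omit [Fact p.Prime] in
theorem smith_mono {G : FiniteGrp.{0}} {n s r : ℕ} {H : Subgroup G}
    (h : Smith (K (n + s)) (K n) H) (hsr : s ≤ r) : Smith (K (n + r)) (K n) H :=
  AbVal.mono (p := p) hab h hsr

/-- The upper bound. -/
theorem smith_of_ell_le (G : FiniteGrp.{0}) (hG : IsPGroup p G) (H : Subgroup G) (n r : ℕ)
    (h : ell H ≤ r) : Smith (K (n + r)) (K n) H := by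
  refine smith_mono K hab ?_ h
  rw [← smith_toL]
  exact Lite.Smith.of_chain (K := fun n => (K n).toL) (AbVal.cyclic hab) hG
    (isChain_iff.1 (isChain_ell hG H)) n

end

end Vale.Agent.P241.F
end

section

set_option autoImplicit false

namespace Vale.Agent.P241.F

/-! Basic properties of `Tel`. -/

variable {p : ℕ} [Fact p.Prime] (T : Tel p)

namespace TBasicAux

/-- The transfer as an additive map. -/
def trHom {p : ℕ} (T : Tel p) {A B : FiniteGrp.{0}} (f : Hom A B) : T.R A →+ T.R B :=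
  AddMonoidHom.mk' (T.tr f) (T.tr_add f)

/-- The identity. -/
def idHom (A : FiniteGrp.{0}) : Hom A A := ⟨fun a => a, fun _ _ => rfl⟩

/-- Conjugation. -/
def conjHom {B : FiniteGrp.{0}} (b : B) : Hom B B := ⟨fun y => b * y * b⁻¹, fun x y => by group⟩

lemma res_tr_id {p : ℕ} (T : Tel p) {B : FiniteGrp.{0}} (x : T.R B) :
    T.res (idHom B) (T.tr (idHom B) x) = x := by
  rw [(T.id (idHom B) (fun _ => rfl) x).2, (T.id (idHom B) (fun _ => rfl) x).1]

end TBasicAux

open TBasicAux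

theorem Tel.tr_zero {A B : FiniteGrp.{0}} (f : Hom A B) : T.tr f 0 = 0 :=
  map_zero (trHom T f)

theorem Tel.tr_sum {A B : FiniteGrp.{0}} (f : Hom A B) {ι : Type} (s : Finset ι) (x : ι → T.R A) :
    T.tr f (∑ i ∈ s, x i) = ∑ i ∈ s, T.tr f (x i) :=
  map_sum (trHom T f) x s

namespace TBasicAux

lemma tr_res_iso {p : ℕ} (T : Tel p) {A B : FiniteGrp.{0}} (f : Hom A B) (g : Hom B A)
    (h1 : ∀ a, g.f (f.f a) = a) (h2 : ∀ b, f.f (g.f b) = b) (y : T.R B) :
    T.tr f (T.res f y) = y := by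
  have h := T.base_change (idHom B) (idHom B) (n := 1) (fun _ => A) (fun _ => f) (fun _ => f)
    (fun _ => 1) (fun y => ⟨0, ⟨y, 1, by simp [idHom]⟩, fun i _ => Subsingleton.elim _ _⟩)
    (fun i a b => by
      constructor
      · intro hab
        have hab' : a = b := by simpa [idHom] using hab
        subst hab'
        refine ⟨g.f a, ⟨h2 a, h2 a⟩, fun z hz => ?_⟩
        rw [← hz.1, h1]
      · rintro ⟨z, ⟨hz1, hz2⟩, _⟩
        simp [idHom, ← hz1, ← hz2]) y
  rw [res_tr_id] at h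
  rw [Fin.sum_univ_one] at h
  exact h.symm

end TBasicAux

/-- Isomorphisms. -/
theorem Tel.tr_eq_res {A B : FiniteGrp.{0}} (f : Hom A B) (g : Hom B A)
    (h1 : ∀ a, g.f (f.f a) = a) (h2 : ∀ b, f.f (g.f b) = b) (x : T.R A) :
    T.tr f x = T.res g x := by
  have h3 : x = T.res f (T.res g x) := by
    have h4 := (T.comp f g (idHom A) (fun a => (h1 a).symm)).1 x
    rw [← h4, (T.id (idHom A) (fun _ => rfl) x).1]
  conv_lhs => rw [h3]
  exact tr_res_iso T f g h1 h2 _

namespace TBasicAux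

lemma res_conjHom {p : ℕ} [Fact p.Prime] (T : Tel p) {B : FiniteGrp.{0}} (b : B) (x : T.R B) :
    T.res (conjHom b) x = x := by
  have h := T.base_change (idHom B) (idHom B) (n := 1) (fun _ => B) (fun _ => idHom B)
    (fun _ => conjHom b⁻¹)
    (fun _ => b⁻¹) (fun y => ⟨0, ⟨b * y, 1, by simp [idHom]⟩, fun i _ => Subsingleton.elim _ _⟩)
    (fun i a c => by
      constructor
      · intro hac
        have hac' : b⁻¹ * a = c * b⁻¹ := hac
        refine ⟨a, ⟨rfl, ?_⟩, fun z hz => hz.1⟩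
        change b⁻¹ * a * b⁻¹⁻¹ = c
        rw [hac']; group
      · rintro ⟨z, ⟨hz1, hz2⟩, _⟩
        change z = a at hz1
        change b⁻¹ * z * b⁻¹⁻¹ = c at hz2
        change b⁻¹ * a = c * b⁻¹
        rw [← hz2, ← hz1]; group) x
  rw [res_tr_id, Fin.sum_univ_one, (T.id (idHom B) (fun _ => rfl) x).1] at h
  rw [T.tr_eq_res (conjHom b⁻¹) (conjHom b) (fun a => by simp only [conjHom]; group)
    (fun a => by simp only [conjHom]; group)] at h
  exact h.symm

end TBasicAux

/-- Inner automorphisms act trivially. -/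
theorem Tel.res_conj {A B : FiniteGrp.{0}} (f g : Hom A B) (b : B)
    (h : ∀ a, g.f a = b * f.f a * b⁻¹) (x : T.R B) : T.res g x = T.res f x := by
  rw [(T.comp f (conjHom b) g h).1 x, res_conjHom]

/-- Base change for a subgroup inclusion, in terms of cosets: `s : A → B`, `D ≤ B`. The `A`-orbits
on `B ⧸ D` are represented by `c i`, and `P i` is the stabilizer `{a | s a * c i ∈ c i * D}`. -/
theorem Tel.res_tr_subgroup {A B : FiniteGrp.{0}} (s : A →* B) (D : Subgroup B) {n : ℕ}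
    (c : Fin n → B) (hc : ∀ y : B, ∃! i, ∃ a, ∃ d ∈ D, s a * c i * d = y)
    (P : Fin n → Subgroup A) (hP : ∀ i a, a ∈ P i ↔ (c i)⁻¹ * s a * c i ∈ D)
    (x : T.R (.of D)) :
    T.res (Hom.of s) (T.tr (Hom.of (A := .of D) D.subtype) x) =
      ∑ i, T.tr (Hom.of (A := .of (P i)) (P i).subtype)
        (T.res (Hom.of (A := .of (P i)) (B := .of D)
          ((((MulAut.conj (c i)⁻¹).toMonoidHom.comp s).comp (P i).subtype).codRestrict D
            (fun a => by
              have := (hP i a.1).1 a.2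
              simpa [MulAut.conj_apply] using this))) x) := by
  refine T.base_change (Hom.of (A := .of D) D.subtype) (Hom.of s) (fun i => .of (P i))
    (fun i => Hom.of (A := .of (P i)) (B := .of D)
          ((((MulAut.conj (c i)⁻¹).toMonoidHom.comp s).comp (P i).subtype).codRestrict D
            (fun a => by
              have := (hP i a.1).1 a.2
              simpa [MulAut.conj_apply] using this)))
    (fun i => Hom.of (A := .of (P i)) (P i).subtype) c ?_ ?_ x
  · intro y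
    obtain ⟨i, ⟨a, d, hd, hy⟩, hu⟩ := hc y
    refine ⟨i, ⟨⟨d, hd⟩, a, hy⟩, fun j hj => hu j ?_⟩
    obtain ⟨a, b, hab⟩ := hj
    exact ⟨b, a.1, a.2, hab⟩
  · intro i a b
    change c i * a.1 = s b * c i ↔ ∃! z : P i, _ ∧ _
    constructor
    · intro h
      have hb : b ∈ P i := by
        rw [hP, mul_assoc, ← h]
        simpa using a.2
      refine ⟨⟨b, hb⟩, ⟨?_, rfl⟩, ?_⟩
      · refine Subtype.ext ?_
        change (c i)⁻¹ * s b * (c i)⁻¹⁻¹ = a.1
        rw [inv_inv, mul_assoc, ← h, inv_mul_cancel_left]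
      · rintro z ⟨_, hz⟩
        exact Subtype.ext hz
    · rintro ⟨z, ⟨hz1, hz2⟩, _⟩
      have hz1' : (c i)⁻¹ * s z.1 * (c i)⁻¹⁻¹ = a.1 := congrArg Subtype.val hz1
      have hz2' : z.1 = b := hz2
      rw [← hz1', hz2', inv_inv]
      group

namespace TBasicAux

/-- The generators of the transfer ideal. -/
def gens {p : ℕ} (T : Tel p) (A : FiniteGrp.{0}) : Set (T.R A) :=
  {y | ∃ B, ∃ f : Hom B A, ¬ Function.Surjective f.f ∧ ∃ x, T.tr f x = y}

/-- The pullback of two homomorphisms. -/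
def pull {D A B : FiniteGrp.{0}} (j : Hom D B) (f : Hom A B) : Subgroup (D × A) where
  carrier := {z | j.f z.1 = f.f z.2}
  mul_mem' := by
    intro a b ha hb
    change j.f (a.1 * b.1) = f.f (a.2 * b.2)
    rw [j.f_mul, f.f_mul]
    exact congrArg₂ _ ha hb
  one_mem' := by
    change j.f 1 = f.f 1
    have h1 : j.f 1 = 1 := map_one (Hom.toMonoidHom j)
    have h2 : f.f 1 = 1 := map_one (Hom.toMonoidHom f)
    rw [h1, h2]
  inv_mem' := by
    intro a ha
    change j.f a.1⁻¹ = f.f a.2⁻¹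
    have h1 : j.f a.1⁻¹ = (j.f a.1)⁻¹ := map_inv (Hom.toMonoidHom j) a.1
    have h2 : f.f a.2⁻¹ = (f.f a.2)⁻¹ := map_inv (Hom.toMonoidHom f) a.2
    rw [h1, h2]
    exact congrArg _ ha

lemma res_gens {p : ℕ} (T : Tel p) {A B : FiniteGrp.{0}} (f : Hom A B)
    (hf : Function.Surjective f.f) {r : T.R B} (hr : r ∈ gens T B) : T.res f r ∈ gens T A := by
  obtain ⟨D, j, hj, x, rfl⟩ := hr
  let v : Hom (.of (pull j f)) A := ⟨fun z => z.1.2, fun _ _ => rfl⟩
  let u : Hom (.of (pull j f)) D := ⟨fun z => z.1.1, fun _ _ => rfl⟩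
  have hone : j.f 1 = 1 := map_one (Hom.toMonoidHom j)
  have h := T.base_change j f (n := 1) (fun _ => .of (pull j f)) (fun _ => u) (fun _ => v)
    (fun _ => 1)
    (fun y => by
      obtain ⟨a, ha⟩ := hf y
      exact ⟨0, ⟨1, a, by rw [hone, ha, mul_one, mul_one]⟩, fun i _ => Subsingleton.elim _ _⟩)
    (fun i d a => by
      constructor
      · intro hda
        have hda' : j.f d = f.f a := by simpa using hda
        refine ⟨⟨(d, a), hda'⟩, ⟨rfl, rfl⟩, fun z hz => ?_⟩
        exact Subtype.ext (Prod.ext hz.1 hz.2)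
      · rintro ⟨z, ⟨hz1, hz2⟩, _⟩
        have hz : j.f z.1.1 = f.f z.1.2 := z.2
        change z.1.1 = d at hz1
        change z.1.2 = a at hz2
        rw [one_mul, mul_one, ← hz1, ← hz2, hz]) x
  rw [Fin.sum_univ_one] at h
  refine ⟨_, v, fun hv => hj fun y => ?_, _, h.symm⟩
  obtain ⟨a, ha⟩ := hf y
  obtain ⟨z, hz⟩ := hv a
  refine ⟨z.1.1, ?_⟩
  have hz' : j.f z.1.1 = f.f z.1.2 := z.2
  change z.1.2 = a at hz
  rw [hz', hz, ha]

end TBasicAux

theorem Tel.dead_of_surjective {A B : FiniteGrp.{0}} (f : Hom A B) (hf : Function.Surjective f.f)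
    (h : T.Dead B) : T.Dead A := by
  rw [T.dead_iff] at h ⊢
  obtain ⟨N, hN⟩ := h
  refine ⟨N, ?_⟩
  have h1 := Ideal.mem_map_of_mem (T.res f) hN
  rw [map_pow, map_natCast, Ideal.map_span] at h1
  refine Ideal.span_mono ?_ h1
  rintro _ ⟨r, hr, rfl⟩
  exact res_gens T f hf hr

namespace TBasicAux

/-- Formal sums of transfers from proper subgroups. -/
def IsSum {p : ℕ} (T : Tel p) (G : FiniteGrp.{0}) (r : T.R G) : Prop :=
  ∃ l : List (Σ D : {D : Subgroup G // D ≠ ⊤}, T.R (.of D.1)),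
    r = (l.map fun a => T.tr (Hom.of (A := .of a.1.1) a.1.1.subtype) a.2).sum

lemma isSum_of_mem_span {p : ℕ} (T : Tel p) (G : FiniteGrp.{0}) {r : T.R G}
    (hr : r ∈ Ideal.span (gens T G)) : IsSum T G r := by
  refine Submodule.span_induction (p := fun r _ => IsSum T G r) ?_ ?_ ?_ ?_ hr
  · rintro _ ⟨B, f, hf, x, rfl⟩
    let D : Subgroup G := (Hom.toMonoidHom f).range
    have hD : D ≠ ⊤ := by
      intro h
      exact hf (MonoidHom.range_eq_top.1 h)
    let f' : Hom B (.of D) := Hom.of (B := .of D) (Hom.toMonoidHom f).rangeRestrict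
    refine ⟨[⟨⟨D, hD⟩, T.tr f' x⟩], ?_⟩
    simp only [List.map_cons, List.map_nil, List.sum_cons, List.sum_nil, add_zero]
    exact (T.comp f' (Hom.of (A := .of D) D.subtype) f (fun _ => rfl)).2 x
  · exact ⟨[], by simp⟩
  · rintro x y _ _ ⟨l, rfl⟩ ⟨l', rfl⟩
    exact ⟨l ++ l', by simp⟩
  · rintro a x _ ⟨l, rfl⟩
    refine ⟨l.map fun b => ⟨b.1, b.2 * T.res (Hom.of (A := .of b.1.1) b.1.1.subtype) a⟩, ?_⟩
    rw [smul_eq_mul, ← List.sum_map_mul_left, List.map_map]
    congr 1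
    refine List.map_congr_left fun b _ => ?_
    simp only [Function.comp]
    rw [T.projection, mul_comm]

end TBasicAux

/-- If `G` is dead, then a multiple `p ^ N * x` is a sum of transfers from proper subgroups. -/
theorem Tel.exists_sum_of_dead {G : FiniteGrp.{0}} (h : T.Dead G) : ∃ N : ℕ, ∀ x : T.R G,
    ∃ (n : ℕ) (D : Fin n → Subgroup G) (y : ∀ i, T.R (.of (D i))), (∀ i, D i ≠ ⊤) ∧
      (p : T.R G) ^ N * x = ∑ i, T.tr (Hom.of (A := .of (D i)) (D i).subtype) (y i) := by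
  rw [T.dead_iff] at h
  obtain ⟨N, hN⟩ := h
  refine ⟨N, fun x => ?_⟩
  obtain ⟨l, hl⟩ := isSum_of_mem_span T G (Ideal.mul_mem_right x _ hN)
  refine ⟨l.length, fun i => (l.get i).1.1, fun i => (l.get i).2, fun i => (l.get i).1.2, ?_⟩
  rw [hl]
  exact (Fin.sum_univ_fun_getElem l
    (fun a => T.tr (Hom.of (A := .of a.1.1) a.1.1.subtype) a.2)).symm

theorem Tel.isUnit_of_res {A B : FiniteGrp.{0}} (f : Hom A B) (hA : Subsingleton A) (x : T.R B)
    (a : ℤ) (ha : ¬ (p : ℤ) ∣ a) (y : T.R A) (h : T.res f x = (a : T.R A) + p * y) :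
    IsUnit x := by
  have hp : Prime (p : ℤ) := Nat.prime_iff_prime_int.1 (Fact.out (p := p.Prime))
  obtain ⟨u, v, huv⟩ : IsCoprime a (p : ℤ) := ((hp.coprime_iff_not_dvd).2 ha).symm
  have h1 : T.res f ((u : T.R B) * x) = 1 + p * ((u : T.R A) * y - v) := by
    rw [map_mul, h, map_intCast]
    have h2 : (u : T.R A) * a + v * p = 1 := by exact_mod_cast congrArg (Int.cast (R := T.R A)) huv
    linear_combination h2
  exact isUnit_of_mul_isUnit_right (T.unit f hA _ _ h1)

theorem Tel.exists_point {G : FiniteGrp.{0}} (h : ¬ T.Dead G) :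
    ∃ (L : Type) (_ : Field L) (_ : CharZero L) (ψ : T.R G →+* L), Kills T ψ := by
  rw [T.dead_iff] at h
  push Not at h
  have hdisj : Disjoint ((Ideal.span (gens T G) : Ideal (T.R G)) : Set (T.R G))
      (Submonoid.powers (p : T.R G) : Set (T.R G)) := by
    rw [Set.disjoint_left]
    rintro _ hx ⟨n, rfl⟩
    exact h n hx
  obtain ⟨P, hP, hIP, hPd⟩ := Ideal.exists_le_prime_disjoint _ _ hdisj
  let ψ : T.R G →+* FractionRing (T.R G ⧸ P) :=
    (algebraMap (T.R G ⧸ P) (FractionRing (T.R G ⧸ P))).comp (Ideal.Quotient.mk P)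
  have hψ : ∀ x, ψ x = 0 ↔ x ∈ P := by
    intro x
    rw [RingHom.comp_apply, FaithfulSMul.algebraMap_eq_zero_iff, Ideal.Quotient.eq_zero_iff_mem]
  have hp0 : ψ p ≠ 0 := by
    rw [Ne, hψ]
    exact fun hpP => Set.disjoint_left.1 hPd hpP (Submonoid.mem_powers _)
  have hu : ∀ m : ℕ, ¬ p ∣ m → ψ m ≠ 0 := by
    intro m hm
    have h1 : IsUnit (m : T.R G) := by
      refine T.isUnit_of_res (A := .of PUnit) (Hom.of (A := .of PUnit) 1)
        (inferInstanceAs (Subsingleton PUnit)) _ (m : ℤ) ?_ 0 ?_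
      · exact_mod_cast hm
      · rw [map_natCast, mul_zero, add_zero, Int.cast_natCast]
    exact (h1.map ψ).ne_zero
  refine ⟨FractionRing (T.R G ⧸ P), inferInstance, ?_, ψ, ?_⟩
  · refine charZero_of_inj_zero fun n hn => ?_
    by_contra hn0
    obtain ⟨k, m, hm, rfl⟩ := Nat.exists_eq_pow_mul_and_not_dvd hn0 p
      (Fact.out (p := p.Prime)).ne_one
    have h2 : ψ ((p : T.R G) ^ k * (m : T.R G)) = 0 := by
      rw [← Nat.cast_pow, ← Nat.cast_mul, map_natCast]
      exact hn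
    rw [map_mul, map_pow] at h2
    rcases mul_eq_zero.1 h2 with h3 | h3
    · exact hp0 (eq_zero_of_pow_eq_zero h3)
    · exact hu m hm h3
  · intro B f hf x
    exact (hψ _).2 (hIP (Ideal.subset_span ⟨B, f, hf, x, rfl⟩))

end Vale.Agent.P241.F
end

section

set_option autoImplicit false

namespace Vale.Agent.P241.F

namespace TFormulaAux

/-- the conjugate homomorphism `g ↦ x⁻¹ s(g) x` -/
def cj {G H : Type} [Group G] [Group H] (x : H) (s : G →* H) : G →* H :=
  (MulAut.conj x⁻¹).toMonoidHom.comp s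

theorem cj_apply {G H : Type} [Group G] [Group H] (x : H) (s : G →* H) (g : G) :
    cj x s g = x⁻¹ * s g * x := by
  simp [cj]

theorem finite_hom (G H : Type) [Group G] [Group H] [Finite G] [Finite H] : Finite (G →* H) :=
  Finite.of_injective (fun s : G →* H => (s : G → H)) DFunLike.coe_injective

/-- representatives of double cosets -/
theorem exists_reps {G H : Type} [Group G] [Group H] [Finite H] (s : G →* H) (D : Subgroup H) :
    ∃ (n : ℕ) (c : Fin n → H), ∀ y : H, ∃! i, ∃ a, ∃ d ∈ D, s a * c i * d = y := by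
  let st : Setoid H :=
    { r := fun y y' => ∃ a, ∃ d ∈ D, s a * y * d = y'
      iseqv :=
        { refl := fun y => ⟨1, 1, D.one_mem, by simp⟩
          symm := by
            rintro y y' ⟨a, d, hd, rfl⟩
            exact ⟨a⁻¹, d⁻¹, D.inv_mem hd, by simp [mul_assoc]⟩
          trans := by
            rintro y y' y'' ⟨a, d, hd, rfl⟩ ⟨a', d', hd', rfl⟩
            exact ⟨a' * a, d * d', D.mul_mem hd hd', by simp [mul_assoc]⟩ } }
  have : Finite (Quotient st) := inferInstance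
  let e := Finite.equivFin (Quotient st)
  refine ⟨Nat.card (Quotient st), fun i => (e.symm i).out, fun y => ?_⟩
  refine ⟨e (Quotient.mk st y), ?_, ?_⟩
  · have h1 : (Quotient.mk st (Quotient.out (Quotient.mk st y))) = Quotient.mk st y :=
      Quotient.out_eq _
    have h2 : st.r (Quotient.out (Quotient.mk st y)) y := Quotient.exact h1
    change ∃ a, ∃ d ∈ D, s a * (e.symm (e (Quotient.mk st y))).out * d = y
    rw [Equiv.symm_apply_apply]
    exact h2
  · intro i hi
    have h1 : st.r (e.symm i).out y := hi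
    have h2 : Quotient.mk st (e.symm i).out = Quotient.mk st y := Quotient.sound h1
    rw [Quotient.out_eq] at h2
    rw [← h2, Equiv.apply_symm_apply]

variable {p : ℕ} [Fact p.Prime] (T : Tel p)

open Classical in
/-- the value of `a` at a homomorphism with values in `D`, zero for other homomorphisms -/
noncomputable def Phi {G H : FiniteGrp.{0}} {L : Type} [Field L] (ψ : T.R G →+* L)
    (D : Subgroup H) (a : T.R (.of D)) (s : G →* H) : L :=
  if h : ∀ g, s g ∈ D then ψ (T.res (Hom.of (A := G) (B := .of D) (s.codRestrict D h)) a) else 0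

variable {G H : FiniteGrp.{0}} {L : Type} [Field L] (ψ : T.R G →+* L)

omit [Fact p.Prime] in
theorem Phi_pos (D : Subgroup H) (a : T.R (.of D)) (s : G →* H) (h : ∀ g, s g ∈ D) :
    Phi T ψ D a s = ψ (T.res (Hom.of (A := G) (B := .of D) (s.codRestrict D h)) a) := by
  unfold Phi
  rw [dif_pos h]

omit [Fact p.Prime] in
theorem Phi_neg (D : Subgroup H) (a : T.R (.of D)) (s : G →* H) (h : ¬ ∀ g, s g ∈ D) :
    Phi T ψ D a s = 0 := by
  unfold Phi
  rw [dif_neg h]

theorem Phi_cj (D : Subgroup H) (a : T.R (.of D)) (s : G →* H) (d : H) (hd : d ∈ D) :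
    Phi T ψ D a (cj d s) = Phi T ψ D a s := by
  by_cases h : ∀ g, s g ∈ D
  · have h' : ∀ g, cj d s g ∈ D := fun g => by
      rw [cj_apply]
      exact D.mul_mem (D.mul_mem (D.inv_mem hd) (h g)) hd
    rw [Phi_pos T ψ D a s h, Phi_pos T ψ D a _ h']
    refine congrArg ψ (Tel.res_conj T _ _ (⟨d⁻¹, D.inv_mem hd⟩ : D) (fun g => ?_) a)
    refine Subtype.ext ?_
    change cj d s g = d⁻¹ * s g * (d⁻¹)⁻¹
    rw [cj_apply, inv_inv]
  · have h' : ¬ ∀ g, cj d s g ∈ D := fun h' => h fun g => by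
      have h1 := D.mul_mem (D.mul_mem hd (h' g)) (D.inv_mem hd)
      rw [cj_apply] at h1
      simpa [mul_assoc] using h1
    rw [Phi_neg T ψ D a s h, Phi_neg T ψ D a _ h']

theorem Phi_conj (D : Subgroup H) (a : T.R (.of D)) (s : G →* H) (c : G) :
    Phi T ψ D a (s.comp (MulAut.conj c).toMonoidHom) = Phi T ψ D a s := by
  by_cases h : ∀ g, s g ∈ D
  · have h' : ∀ g, (s.comp (MulAut.conj c).toMonoidHom) g ∈ D := fun g => h _
    rw [Phi_pos T ψ D a s h, Phi_pos T ψ D a _ h']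
    refine congrArg ψ (Tel.res_conj T _ _ (⟨s c, h c⟩ : D) (fun g => ?_) a)
    refine Subtype.ext ?_
    change s (c * g * c⁻¹) = s c * s g * (s c)⁻¹
    rw [map_mul, map_mul, map_inv]
  · have h' : ¬ ∀ g, (s.comp (MulAut.conj c).toMonoidHom) g ∈ D := fun h' => h fun g => by
      have h1 := h' (c⁻¹ * g * c)
      have h2 : (s.comp (MulAut.conj c).toMonoidHom) (c⁻¹ * g * c) = s g := by
        change s (c * (c⁻¹ * g * c) * c⁻¹) = s g
        congr 1
        group
      rwa [h2] at h1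
    rw [Phi_neg T ψ D a s h, Phi_neg T ψ D a _ h']

/-- restriction of a transfer along `s`, as a sum over double cosets -/
theorem res_tr_eq (hψ : Kills T ψ) (D : Subgroup H) (a : T.R (.of D)) (s : G →* H) {n : ℕ}
    (c : Fin n → H) (hc : ∀ y : H, ∃! i, ∃ a, ∃ d ∈ D, s a * c i * d = y) :
    ψ (T.res (Hom.of s) (T.tr (Hom.of (A := .of D) D.subtype) a)) =
      ∑ i, Phi T ψ D a (cj (c i) s) := by
  let P : Fin n → Subgroup G := fun i => D.comap (cj (c i) s)
  have hP : ∀ i g, g ∈ P i ↔ (c i)⁻¹ * s g * c i ∈ D := fun i g => by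
    change cj (c i) s g ∈ D ↔ _
    rw [cj_apply]
  rw [Tel.res_tr_subgroup T s D c hc P hP a, map_sum]
  refine Finset.sum_congr rfl fun i _ => ?_
  by_cases h : ∀ g, cj (c i) s g ∈ D
  · rw [Phi_pos T ψ D a _ h]
    refine congrArg ψ ?_
    let q : Hom G (.of (P i)) := ⟨fun g => ⟨g, h g⟩, fun x y => rfl⟩
    rw [Tel.tr_eq_res T (Hom.of (A := .of (P i)) (P i).subtype) q (fun x => Subtype.ext rfl)
      (fun x => rfl)]
    refine ((T.comp q _ _ fun g => ?_).1 a).symm
    exact Subtype.ext rfl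
  · rw [Phi_neg T ψ D a _ h]
    refine hψ _ _ ?_ _
    intro hs
    refine h fun g => ?_
    obtain ⟨x, hx⟩ := hs g
    have h1 : (show P i from x).1 ∈ P i := (show P i from x).2
    have h2 : (show P i from x).1 = g := hx
    rw [h2] at h1
    exact h1

/-- restriction of a transfer along `s`, as a sum over group elements -/
theorem card_mul_res_tr [Fintype H] (hψ : Kills T ψ) (D : Subgroup H) (a : T.R (.of D))
    (s : G →* H) :
    (Nat.card D : L) * ψ (T.res (Hom.of s) (T.tr (Hom.of (A := .of D) D.subtype) a)) =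
      ∑ x : H, Phi T ψ D a (cj x s) := by
  classical
  obtain ⟨n, c, hc⟩ := exists_reps s D
  have hD : Fintype D := Fintype.ofFinite D
  rw [res_tr_eq T ψ hψ D a s c hc]
  let S := {i : Fin n // ∀ g, cj (c i) s g ∈ D}
  have h1 : ∑ i, Phi T ψ D a (cj (c i) s) = ∑ i : S, Phi T ψ D a (cj (c i.1) s) := by
    refine (Fintype.sum_of_injective (fun i : S => i.1) Subtype.val_injective _ _ ?_
      (fun i => rfl)).symm
    intro i hi
    refine Phi_neg T ψ D a _ fun h => hi ⟨⟨i, h⟩, rfl⟩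
  have h2 : ∑ x : H, Phi T ψ D a (cj x s) =
      ∑ q : S × D, Phi T ψ D a (cj (c q.1.1 * q.2.1) s) := by
    refine (Fintype.sum_of_injective (fun q : S × D => c q.1.1 * q.2.1) ?_ _ _ ?_
      (fun i => rfl)).symm
    · rintro ⟨⟨i, hi⟩, ⟨d, hd⟩⟩ ⟨⟨j, hj⟩, ⟨d', hd'⟩⟩ h
      change c i * d = c j * d' at h
      have h3 : i = j := (hc (c i * d)).unique ⟨1, d, hd, by simp⟩ ⟨1, d', hd', by simp [h]⟩
      subst h3
      have h4 : d = d' := mul_left_cancel h
      subst h4
      rfl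
    · intro x hx
      refine Phi_neg T ψ D a _ fun h => hx ?_
      obtain ⟨i, ⟨b, d, hd, hi⟩, -⟩ := hc x
      have h3 : ∀ g, cj (c i) s g ∈ D := by
        intro g
        have h4 := h (b * g * b⁻¹)
        rw [cj_apply] at h4 ⊢
        have h5 : (c i)⁻¹ * s g * c i = d * (x⁻¹ * s (b * g * b⁻¹) * x) * d⁻¹ := by
          rw [← hi]
          simp [mul_assoc]
        rw [h5]
        exact D.mul_mem (D.mul_mem hd h4) (D.inv_mem hd)
      have h6 : cj (c i) s b * d ∈ D := D.mul_mem (h3 b) hd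
      refine ⟨(⟨i, h3⟩, ⟨cj (c i) s b * d, h6⟩), ?_⟩
      change c i * (cj (c i) s b * d) = x
      rw [cj_apply, ← hi]
      simp [mul_assoc]
  rw [h1, h2, Fintype.sum_prod_type, Finset.mul_sum]
  refine Finset.sum_congr rfl fun i _ => ?_
  have h3 : ∀ d : D, Phi T ψ D a (cj (c i.1 * d.1) s) = Phi T ψ D a (cj (c i.1) s) := by
    intro d
    have h4 : cj (c i.1 * d.1) s = cj d.1 (cj (c i.1) s) := by
      ext g
      rw [cj_apply, cj_apply, cj_apply]
      simp [mul_assoc]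
    rw [h4, Phi_cj T ψ D a _ d.1 d.2]
  rw [Finset.sum_congr rfl fun d _ => h3 d, Finset.sum_const, Finset.card_univ, nsmul_eq_mul,
    Nat.card_eq_fintype_card]

/-- sections of `f` -/
abbrev Sec {G H : Type} [Group G] [Group H] (f : H →* G) : Type := {s : G →* H // ∀ g, f (s g) = g}

/-- the action of `x` on sections -/
def secMap {G H : Type} [Group G] [Group H] (f : H →* G) (x : H) (s : Sec f) : Sec f :=
  ⟨(cj x s.1).comp (MulAut.conj (f x)).toMonoidHom, fun g => by
    change f (cj x s.1 (f x * g * (f x)⁻¹)) = g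
    rw [cj_apply, map_mul, map_mul, s.2, map_inv]
    group⟩

theorem secMap_apply {G H : Type} [Group G] [Group H] (f : H →* G) (x : H) (s : Sec f) (g : G) :
    (secMap f x s).1 g = x⁻¹ * s.1 (f x * g * (f x)⁻¹) * x := by
  change cj x s.1 (f x * g * (f x)⁻¹) = _
  rw [cj_apply]

theorem secMap_inv {G H : Type} [Group G] [Group H] (f : H →* G) (x : H) (s : Sec f) :
    secMap f x⁻¹ (secMap f x s) = s := by
  refine Subtype.ext (MonoidHom.ext fun g => ?_)
  rw [secMap_apply, secMap_apply, map_inv]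
  have : f x * ((f x)⁻¹ * g * (f x)⁻¹⁻¹) * (f x)⁻¹ = g := by group
  rw [this]
  group

/-- the action of `x` on sections, as an equivalence -/
def secEquiv {G H : Type} [Group G] [Group H] (f : H →* G) (x : H) : Sec f ≃ Sec f where
  toFun := secMap f x
  invFun := secMap f x⁻¹
  left_inv := secMap_inv f x
  right_inv s := by
    have := secMap_inv f x⁻¹ s
    rwa [inv_inv] at this

theorem sum_Phi_cj (f : H →* G) [Fintype (Sec f)] (D : Subgroup H) (a : T.R (.of D)) (x : H) :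
    ∑ s : Sec f, Phi T ψ D a (cj x s.1) = ∑ s : Sec f, Phi T ψ D a s.1 := by
  rw [← Equiv.sum_comp (secEquiv f x) (fun s : Sec f => Phi T ψ D a s.1)]
  refine Finset.sum_congr rfl fun s _ => ?_
  exact (Phi_conj T ψ D a (cj x s.1) (f x)).symm

/-- the main counting identity for a transfer from a subgroup -/
theorem key (hψ : Kills T ψ) (f : H →* G) (D : Subgroup H) (a : T.R (.of D)) :
    (Nat.card D : L) * ∑ᶠ s : Sec f,
      ψ (T.res (Hom.of s.1) (T.tr (Hom.of (A := .of D) D.subtype) a)) =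
    (Nat.card H : L) * ∑ᶠ s : Sec (f.comp D.subtype),
      ψ (T.res (Hom.of (B := .of D) s.1) a) := by
  classical
  have hfin : Finite (G →* H) := finite_hom G H
  have hfin' : Finite (G →* D) := finite_hom G D
  have hH : Fintype H := Fintype.ofFinite H
  have hS : Fintype (Sec f) := Fintype.ofFinite _
  have hS' : Fintype (Sec (f.comp D.subtype)) := Fintype.ofFinite _
  rw [finsum_eq_sum_of_fintype, finsum_eq_sum_of_fintype, Finset.mul_sum]
  rw [Finset.sum_congr rfl fun s _ => card_mul_res_tr T ψ hψ D a s.1, Finset.sum_comm]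
  rw [Finset.sum_congr rfl fun x _ => sum_Phi_cj T ψ f D a x, Finset.sum_const, Finset.card_univ,
    nsmul_eq_mul, Nat.card_eq_fintype_card]
  congr 1
  refine (Fintype.sum_of_injective
    (fun s : Sec (f.comp D.subtype) => (⟨D.subtype.comp s.1, s.2⟩ : Sec f)) ?_ _ _ ?_ ?_).symm
  · rintro ⟨s, hs⟩ ⟨s', hs'⟩ h
    refine Subtype.ext (MonoidHom.ext fun g => Subtype.ext ?_)
    have h1 := congrArg Subtype.val h
    exact DFunLike.congr_fun h1 g
  · intro s hs
    refine Phi_neg T ψ D a _ fun h => hs ?_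
    exact ⟨⟨s.1.codRestrict D h, s.2⟩, Subtype.ext (MonoidHom.ext fun g => rfl)⟩
  · intro s
    have h : ∀ g, (D.subtype.comp s.1) g ∈ D := fun g => (s.1 g).2
    change _ = Phi T ψ D a (D.subtype.comp s.1)
    rw [Phi_pos T ψ D a _ h]
    rfl

/-- the hypothesis of the T-formula -/
def Inj (f : H →* G) : Prop :=
  ∀ D : Subgroup H, ¬ T.Dead (.of D) → (∀ g, ∃ h ∈ D, f h = g) → ∀ h ∈ D, f h = 1 → h = 1

theorem Inj.sub {f : H →* G} (h : Inj T f) (D : Subgroup H) :
    Inj T (H := .of D) (f.comp D.subtype) := by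
  intro D' hD' hs y hy h1
  have h2 : ¬ T.Dead (.of (D'.map D.subtype : Subgroup H)) := fun hd => hD' (by
    refine Tel.dead_of_surjective T (A := .of D') (B := .of (D'.map D.subtype : Subgroup H))
      ⟨fun z => ⟨D.subtype z.1, ⟨z.1, z.2, rfl⟩⟩, fun a b => rfl⟩ ?_ hd
    rintro ⟨z, w, hw, rfl⟩
    exact ⟨⟨w, hw⟩, rfl⟩)
  have h3 := h (D'.map D.subtype) h2 (fun g => by
    obtain ⟨z, hz, hz'⟩ := hs g
    exact ⟨D.subtype z, ⟨z, hz, rfl⟩, hz'⟩) (D.subtype y) ⟨y, hy, rfl⟩ h1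
  exact Subtype.ext h3

omit [Fact p.Prime] in
theorem tr_pow_mul (f : Hom H G) (N : ℕ) (x : T.R H) :
    T.tr f ((p : T.R H) ^ N * x) = (p : T.R G) ^ N * T.tr f x := by
  have h1 := T.projection f x ((p : T.R G) ^ N)
  rw [map_pow, map_natCast] at h1
  rw [mul_comm, h1, mul_comm]

/-- the induction -/
theorem main [CharZero L] (hψ : Kills T ψ) (n : ℕ) : ∀ (H : FiniteGrp.{0}) (f : H →* G),
    Nat.card H = n → Inj T f → ∀ y : T.R H,
      (Nat.card H : L) * ψ (T.tr (Hom.of f) y) =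
        (Nat.card G : L) * ∑ᶠ s : Sec f, ψ (T.res (Hom.of s.1) y) := by
  induction n using Nat.strong_induction_on with
  | _ n ih =>
    intro H f hn hinj y
    have hfin : Finite (G →* H) := finite_hom G H
    by_cases hs : Function.Surjective f
    · by_cases hd : T.Dead H
      · -- the dead case
        obtain ⟨N, hN⟩ := Tel.exists_sum_of_dead T hd
        obtain ⟨m, D, z, hD, hz⟩ := hN y
        have hp : ((p : L) ^ N) ≠ 0 :=
          pow_ne_zero _ (Nat.cast_ne_zero.2 (Fact.out : p.Prime).ne_zero)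
        refine mul_left_cancel₀ hp ?_
        have h1 : (p : L) ^ N * ((Nat.card H : L) * ψ (T.tr (Hom.of f) y)) =
            ∑ i, (Nat.card H : L) *
              ψ (T.tr (Hom.of f) (T.tr (Hom.of (A := .of (D i)) (D i).subtype) (z i))) := by
          rw [← Finset.mul_sum, ← map_sum, ← Tel.tr_sum, ← hz, tr_pow_mul, map_mul, map_pow,
            map_natCast]
          ring
        have h2 : (p : L) ^ N * ((Nat.card G : L) * ∑ᶠ s : Sec f, ψ (T.res (Hom.of s.1) y)) =
            ∑ i, (Nat.card G : L) * ∑ᶠ s : Sec f,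
              ψ (T.res (Hom.of s.1) (T.tr (Hom.of (A := .of (D i)) (D i).subtype) (z i))) := by
          have hS : Fintype (Sec f) := Fintype.ofFinite _
          rw [← Finset.mul_sum]
          simp only [finsum_eq_sum_of_fintype]
          rw [Finset.sum_comm]
          have h3 : ∀ s : Sec f, ∑ i, ψ (T.res (Hom.of s.1)
              (T.tr (Hom.of (A := .of (D i)) (D i).subtype) (z i))) =
                (p : L) ^ N * ψ (T.res (Hom.of s.1) y) := by
            intro s
            rw [← map_sum, ← map_sum, ← hz, map_mul, map_mul, map_pow, map_pow, map_natCast,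
              map_natCast]
          rw [Finset.sum_congr rfl fun s _ => h3 s, ← Finset.mul_sum]
          ring
        rw [h1, h2]
        refine Finset.sum_congr rfl fun i _ => ?_
        have hlt : Nat.card (D i) < n := by
          rw [← hn]
          exact lt_of_le_of_ne (Subgroup.card_le_card_group _)
            fun h => hD i (Subgroup.eq_top_of_card_eq _ h)
        have h4 := ih (Nat.card (D i)) hlt (.of (D i)) (f.comp (D i).subtype) rfl (hinj.sub T (D i))
          (z i)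
        have h5 := key T ψ hψ f (D i) (z i)
        have h6 : T.tr (Hom.of f) (T.tr (Hom.of (A := .of (D i)) (D i).subtype) (z i)) =
            T.tr (Hom.of (A := .of (D i)) (f.comp (D i).subtype)) (z i) :=
          ((T.comp (Hom.of (A := .of (D i)) (D i).subtype) (Hom.of f)
            (Hom.of (A := .of (D i)) (f.comp (D i).subtype)) fun _ => rfl).2 (z i)).symm
        rw [h6]
        have hc : (Nat.card (D i) : L) ≠ 0 := Nat.cast_ne_zero.2 Nat.card_pos.ne'
        refine mul_left_cancel₀ hc ?_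
        calc (Nat.card (D i) : L) * ((Nat.card H : L) *
              ψ (T.tr (Hom.of (A := .of (D i)) (f.comp (D i).subtype)) (z i)))
            = (Nat.card H : L) * ((Nat.card (D i) : L) *
              ψ (T.tr (Hom.of (A := .of (D i)) (f.comp (D i).subtype)) (z i))) := by ring
          _ = (Nat.card H : L) * ((Nat.card G : L) * ∑ᶠ s : Sec (f.comp (D i).subtype),
              ψ (T.res (Hom.of (B := .of (D i)) s.1) (z i))) := by
                congr 1
          _ = (Nat.card G : L) * ((Nat.card H : L) * ∑ᶠ s : Sec (f.comp (D i).subtype),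
              ψ (T.res (Hom.of (B := .of (D i)) s.1) (z i))) := by ring
          _ = _ := by rw [← h5]; ring
      · -- the alive case
        have hinj' : Function.Injective f := by
          rw [injective_iff_map_eq_one]
          intro h hh
          refine hinj ⊤ (fun hd' => hd ?_) (fun g => ?_) h trivial hh
          · exact Tel.dead_of_surjective T (A := H) (B := .of (⊤ : Subgroup H))
              ⟨fun z => ⟨z, trivial⟩, fun a b => rfl⟩ (fun z => ⟨z.1, rfl⟩) hd'
          · obtain ⟨z, hz⟩ := hs g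
            exact ⟨z, trivial, hz⟩
        let e : H ≃* G := MulEquiv.ofBijective f ⟨hinj', hs⟩
        have he : ∀ g, f (e.symm g) = g := fun g => e.apply_symm_apply g
        let s₀ : Sec f := ⟨e.symm.toMonoidHom, he⟩
        have hu : ∀ s : Sec f, s = s₀ := by
          intro s
          refine Subtype.ext (MonoidHom.ext fun g => hinj' ?_)
          rw [s.2]
          exact (he g).symm
        have : Unique (Sec f) := ⟨⟨s₀⟩, hu⟩
        have hdef : (default : Sec f) = s₀ := hu _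
        rw [finsum_unique, hdef, Nat.card_congr e.toEquiv]
        congr 2
        refine Tel.tr_eq_res T (Hom.of f) (Hom.of s₀.1) (fun a => ?_) (fun b => he b) y
        exact e.symm_apply_apply a
    · -- the nonsurjective case
      have h1 : ψ (T.tr (Hom.of f) y) = 0 := hψ _ _ hs _
      have h2 : IsEmpty (Sec f) := ⟨fun s => hs fun g => ⟨s.1 g, s.2 g⟩⟩
      rw [h1, finsum_of_isEmpty, mul_zero, mul_zero]

end TFormulaAux

variable {p : ℕ} [Fact p.Prime] (T : Tel p)

/-- The T-formula (note 4711, section 2). -/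
theorem t_formula {G K : FiniteGrp.{0}} (hK : IsPGroup p K) (f : K →* G)
    (hf : Function.Surjective f)
    (hsat : ∀ H : Subgroup K, ¬ T.Dead (.of H) → (∀ g, ∃ h ∈ H, f h = g) →
      ∀ h ∈ H, f h = 1 → h = 1)
    {L : Type} [Field L] [CharZero L] (ψ : T.R G →+* L) (hψ : Kills T ψ) (y : T.R K) :
    (Nat.card f.ker : L) * ψ (T.tr (Hom.of f) y) =
      ∑ᶠ s : {s : G →* K // ∀ g, f (s g) = g}, ψ (T.res (Hom.of s.1) y) := by
  have h1 := TFormulaAux.main T ψ hψ (Nat.card K) K f rfl hsat y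
  have h2 : Nat.card K = Nat.card G * Nat.card f.ker := by
    have h3 := Subgroup.card_eq_card_quotient_mul_card_subgroup f.ker
    rw [h3, Nat.card_congr (QuotientGroup.quotientKerEquivOfSurjective f hf).toEquiv]
  have hc : (Nat.card G : L) ≠ 0 := Nat.cast_ne_zero.2 Nat.card_pos.ne'
  refine mul_left_cancel₀ hc ?_
  rw [← h1, h2, Nat.cast_mul, mul_assoc]

end Vale.Agent.P241.F
end

section

set_option autoImplicit false

namespace Vale.Agent.P241.F

variable {p : ℕ} [Fact p.Prime] (T : Tel p)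

namespace TClAux

/-- The stabilizer of `x`. -/
def stab {K : Type} [Group K] {X : Type} (ξ : K →* Equiv.Perm X) (x : X) : Subgroup K where
  carrier := {k | ξ k x = x}
  one_mem' := by simp
  mul_mem' := by
    intro a b ha hb
    change ξ a x = x at ha
    change ξ b x = x at hb
    change ξ (a * b) x = x
    rw [map_mul, Equiv.Perm.mul_apply, hb, ha]
  inv_mem' := by
    intro a ha
    change ξ a x = x at ha
    change ξ a⁻¹ x = x
    rw [map_inv, Equiv.Perm.inv_eq_iff_eq]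
    exact ha.symm

theorem mem_stab {K : Type} [Group K] {X : Type} (ξ : K →* Equiv.Perm X) (x : X) (k : K) :
    k ∈ stab ξ x ↔ ξ k x = x := Iff.rfl

/-- The orbit relation. -/
def orb {K : Type} [Group K] {X : Type} (ξ : K →* Equiv.Perm X) : Setoid X where
  r x y := ∃ k, ξ k x = y
  iseqv :=
    { refl := fun x => ⟨1, by simp⟩
      symm := by
        rintro x y ⟨k, rfl⟩
        exact ⟨k⁻¹, by rw [← Equiv.Perm.mul_apply, ← map_mul]; simp⟩
      trans := by
        rintro x y z ⟨k, rfl⟩ ⟨l, rfl⟩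
        exact ⟨l * k, by rw [map_mul, Equiv.Perm.mul_apply]⟩ }

/-- The transfer of `1` from a subgroup. -/
noncomputable def trOne {K : FiniteGrp.{0}} (D : Subgroup K) : T.R K :=
  T.tr (Hom.of (A := .of D) D.subtype) 1

theorem tr_iso_one {A B : FiniteGrp.{0}} (f : Hom A B) (g : Hom B A)
    (h1 : ∀ a, g.f (f.f a) = a) (h2 : ∀ b, f.f (g.f b) = b) : T.tr f 1 = 1 := by
  rw [T.tr_eq_res f g h1 h2, map_one]

theorem trOne_top {K : FiniteGrp.{0}} : trOne T (⊤ : Subgroup K) = 1 := by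
  refine tr_iso_one T _ (Hom.of (A := K) (B := .of (⊤ : Subgroup K))
    (Subgroup.topEquiv (G := K)).symm.toMonoidHom) ?_ ?_
  · intro a
    rfl
  · intro b
    rfl

theorem trOne_conj {K : FiniteGrp.{0}} (D E : Subgroup K) (k : K)
    (h : ∀ a, a ∈ D ↔ k * a * k⁻¹ ∈ E) : trOne T D = trOne T E := by
  have h' : ∀ b, b ∈ E → k⁻¹ * b * k ∈ D := by
    intro b hb
    rw [h]
    simpa [mul_assoc] using hb
  let f : Hom (.of D) (.of E) := ⟨fun a => ⟨k * a.1 * k⁻¹, (h a.1).1 a.2⟩, by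
    intro x y
    apply Subtype.ext
    change k * (x.1 * y.1) * k⁻¹ = k * x.1 * k⁻¹ * (k * y.1 * k⁻¹)
    group⟩
  let g : Hom (.of E) (.of D) := ⟨fun b => ⟨k⁻¹ * b.1 * k, h' b.1 b.2⟩, by
    intro x y
    apply Subtype.ext
    change k⁻¹ * (x.1 * y.1) * k = k⁻¹ * x.1 * k * (k⁻¹ * y.1 * k)
    group⟩
  have hf : T.tr f 1 = 1 := by
    refine tr_iso_one T f g ?_ ?_
    · intro a
      apply Subtype.ext
      change k⁻¹ * (k * a.1 * k⁻¹) * k = a.1
      group
    · intro b
      apply Subtype.ext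
      change k * (k⁻¹ * b.1 * k) * k⁻¹ = b.1
      group
  let cj : Hom K K := ⟨fun a => k * a * k⁻¹, by
    intro x y
    group⟩
  let cj' : Hom K K := ⟨fun a => k⁻¹ * a * k, by
    intro x y
    group⟩
  let id' : Hom K K := ⟨fun a => a, fun _ _ => rfl⟩
  let m : Hom (.of D) K := ⟨fun a => k * a.1 * k⁻¹, by
    intro x y
    change k * (x.1 * y.1) * k⁻¹ = k * x.1 * k⁻¹ * (k * y.1 * k⁻¹)
    group⟩
  have e1 : T.tr m 1 = T.tr (Hom.of (A := .of E) E.subtype) (T.tr f 1) :=
    (T.comp f (Hom.of (A := .of E) E.subtype) m (fun _ => rfl)).2 1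
  have e2 : T.tr m 1 = T.tr cj (T.tr (Hom.of (A := .of D) D.subtype) 1) :=
    (T.comp (Hom.of (A := .of D) D.subtype) cj m (fun _ => rfl)).2 1
  have e3 : ∀ x, T.tr cj x = x := by
    intro x
    rw [T.tr_eq_res cj cj' (fun a => by change k⁻¹ * (k * a * k⁻¹) * k = a; group)
      (fun b => by change k * (k⁻¹ * b * k) * k⁻¹ = b; group)]
    rw [T.res_conj id' cj' k⁻¹ (fun a => by change k⁻¹ * a * k = k⁻¹ * a * k⁻¹⁻¹; rw [inv_inv])]
    exact (T.id id' (fun _ => rfl) x).1
  rw [hf] at e1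
  rw [e3] at e2
  unfold trOne
  rw [← e1, ← e2]

/-- The class of an orbit. -/
noncomputable def cls {K : FiniteGrp.{0}} {X : Type} (ξ : K →* Equiv.Perm X) (x : X) : T.R K :=
  trOne T (stab ξ x)

theorem cls_eq {K : FiniteGrp.{0}} {X : Type} (ξ : K →* Equiv.Perm X) (x y : X)
    (h : (orb ξ).r x y) : cls T ξ x = cls T ξ y := by
  obtain ⟨k, rfl⟩ := h
  refine trOne_conj T _ _ k ?_
  intro a
  have hinv : (ξ k)⁻¹ (ξ k x) = x := (ξ k).symm_apply_apply x
  rw [mem_stab, mem_stab, map_mul, map_mul, Equiv.Perm.mul_apply, Equiv.Perm.mul_apply, map_inv,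
    hinv]
  exact (Equiv.apply_eq_iff_eq _).symm

/-- The class of an orbit, as a function on the set of orbits. -/
noncomputable def clq {K : FiniteGrp.{0}} {X : Type} (ξ : K →* Equiv.Perm X)
    (ω : Quotient (orb ξ)) : T.R K :=
  Quotient.lift (cls T ξ) (cls_eq T ξ) ω

end TClAux

open TClAux

/-- The class of a finite `K`-set: the sum over the orbits of the transfers of `1` from the
stabilizers. -/
noncomputable def cl {K : FiniteGrp.{0}} {X : Type} (ξ : K →* Equiv.Perm X) : T.R K :=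
  ∑ᶠ ω : Quotient (orb ξ), clq T ξ ω

namespace TClAux

/-- `A`-orbits map to `B`-orbits. -/
def qmap {A B : Type} [Group A] [Group B] {X : Type} (f : A →* B) (ξ : B →* Equiv.Perm X) :
    Quotient (orb (ξ.comp f)) → Quotient (orb ξ) :=
  Quotient.map' (fun x => x) (by
    rintro x y ⟨k, hk⟩
    exact ⟨f k, hk⟩)

theorem res_clq {A B : FiniteGrp.{0}} {X : Type} [Finite X] (f : A →* B) (ξ : B →* Equiv.Perm X)
    [Fintype (Quotient (orb (ξ.comp f)))] [DecidableEq (Quotient (orb ξ))]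
    (ω : Quotient (orb ξ)) :
    T.res (Hom.of f) (clq T ξ ω) =
      ∑ α ∈ Finset.univ.filter (fun α => qmap f ξ α = ω), clq T (ξ.comp f) α := by
  induction ω using Quotient.inductionOn with
  | h x =>
  classical
  set F := Finset.univ.filter (fun α => qmap f ξ α = Quotient.mk (orb ξ) x) with hF
  -- representatives
  have hrep : ∀ α : F, ∃ b : B, Quotient.mk (orb (ξ.comp f)) (ξ b x) = α.1 := by
    rintro ⟨α, hα⟩
    induction α using Quotient.inductionOn with
    | h y =>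
    rw [hF, Finset.mem_filter] at hα
    have h2 : (orb ξ).r y x := Quotient.exact hα.2
    obtain ⟨b, hb⟩ := (orb ξ).iseqv.symm h2
    exact ⟨b, by rw [hb]⟩
  choose b hb using hrep
  let eF : Fin F.card ≃ F := F.equivFin.symm
  let c : Fin F.card → B := fun i => b (eF i)
  have hc : ∀ y : B, ∃! i, ∃ a, ∃ d ∈ stab ξ x, f a * c i * d = y := by
    intro y
    have hyF : Quotient.mk (orb (ξ.comp f)) (ξ y x) ∈ F := by
      rw [hF, Finset.mem_filter]
      refine ⟨Finset.mem_univ _, ?_⟩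
      apply Quotient.sound
      exact (orb ξ).iseqv.symm ⟨y, rfl⟩
    refine ⟨eF.symm ⟨_, hyF⟩, ?_, ?_⟩
    · have h1 := hb ⟨_, hyF⟩
      have hcb : c (eF.symm ⟨_, hyF⟩) = b ⟨_, hyF⟩ := by simp only [c, Equiv.apply_symm_apply]
      change ∃ a, ∃ d ∈ stab ξ x, f a * c (eF.symm ⟨_, hyF⟩) * d = y
      rw [hcb]
      generalize b ⟨_, hyF⟩ = b0 at h1
      obtain ⟨a, ha⟩ : (orb (ξ.comp f)).r _ _ := Quotient.exact h1
      refine ⟨a, (f a * b0)⁻¹ * y, ?_, ?_⟩
      · rw [mem_stab, map_mul, Equiv.Perm.mul_apply, ← ha, map_inv, map_mul,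
          Equiv.Perm.inv_eq_iff_eq, Equiv.Perm.mul_apply]
        rfl
      · group
    · rintro i ⟨a, d, hd, rfl⟩
      apply eF.injective
      rw [Equiv.apply_symm_apply]
      apply Subtype.ext
      rw [← hb (eF i)]
      apply Quotient.sound
      refine ⟨a, ?_⟩
      rw [map_mul, map_mul, Equiv.Perm.mul_apply, Equiv.Perm.mul_apply]
      rw [mem_stab] at hd
      rw [hd]
      rfl
  have hP : ∀ i a, a ∈ stab (ξ.comp f) (ξ (c i) x) ↔ (c i)⁻¹ * f a * c i ∈ stab ξ x := by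
    intro i a
    rw [mem_stab, mem_stab, map_mul, map_mul, Equiv.Perm.mul_apply, Equiv.Perm.mul_apply, map_inv,
      Equiv.Perm.inv_eq_iff_eq]
    rfl
  have key := T.res_tr_subgroup f (stab ξ x) c hc (fun i => stab (ξ.comp f) (ξ (c i) x)) hP 1
  have h1 : clq T ξ (Quotient.mk (orb ξ) x) =
      T.tr (Hom.of (A := .of (stab ξ x)) (stab ξ x).subtype) 1 := rfl
  rw [h1, key]
  simp only [map_one]
  have h2 : ∀ i, T.tr (Hom.of (A := .of (stab (ξ.comp f) (ξ (c i) x)))
      (stab (ξ.comp f) (ξ (c i) x)).subtype) 1 = clq T (ξ.comp f) (eF i).1 := by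
    intro i
    rw [← hb (eF i)]
    rfl
  rw [Finset.sum_congr rfl (fun i _ => h2 i)]
  rw [Equiv.sum_comp eF (fun α : F => clq T (ξ.comp f) α.1)]
  exact Finset.sum_coe_sort F (fun α => clq T (ξ.comp f) α)

end TClAux

theorem res_cl {A B : FiniteGrp.{0}} {X : Type} [Finite X] (f : A →* B) (ξ : B →* Equiv.Perm X) :
    T.res (Hom.of f) (cl T ξ) = cl T (ξ.comp f) := by
  classical
  have : Fintype (Quotient (orb (ξ.comp f))) := Fintype.ofFinite _
  have : Fintype (Quotient (orb ξ)) := Fintype.ofFinite _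
  unfold cl
  rw [finsum_eq_sum_of_fintype, finsum_eq_sum_of_fintype, map_sum]
  rw [Finset.sum_congr rfl (fun ω _ => res_clq T f ξ ω)]
  exact Finset.sum_fiberwise Finset.univ (qmap f ξ) (fun α => clq T (ξ.comp f) α)

theorem cl_congr {K : FiniteGrp.{0}} {X Y : Type} [Finite X] [Finite Y] (ξ : K →* Equiv.Perm X)
    (η : K →* Equiv.Perm Y) (e : X ≃ Y) (h : ∀ k x, e (ξ k x) = η k (e x)) :
    cl T ξ = cl T η := by
  let E : Quotient (orb ξ) ≃ Quotient (orb η) := Quotient.congr e (by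
    intro x y
    constructor
    · rintro ⟨k, rfl⟩
      exact ⟨k, (h k x).symm⟩
    · rintro ⟨k, hk⟩
      refine ⟨k, ?_⟩
      apply e.injective
      rw [h, hk])
  unfold cl
  refine finsum_eq_of_bijective E E.bijective ?_
  intro ω
  induction ω using Quotient.inductionOn with
  | h x =>
  have hs : stab ξ x = stab η (e x) := by
    ext k
    rw [mem_stab, mem_stab, ← h, e.apply_eq_iff_eq]
  change trOne T (stab ξ x) = trOne T (stab η (e x))
  rw [hs]

theorem cl_subsingleton {K : FiniteGrp.{0}} (hK : Subsingleton K) {X : Type} [Finite X]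
    (ξ : K →* Equiv.Perm X) : cl T ξ = (Nat.card X : T.R K) := by
  classical
  have : Fintype (Quotient (orb ξ)) := Fintype.ofFinite _
  have : Fintype X := Fintype.ofFinite _
  have h1 : ∀ k : K, ξ k = 1 := by
    intro k
    rw [Subsingleton.elim k 1, map_one]
  have hq : Function.Bijective (Quotient.mk (orb ξ)) := by
    refine ⟨?_, Quotient.mk_surjective⟩
    intro x y hxy
    obtain ⟨k, hk⟩ : (orb ξ).r x y := Quotient.exact hxy
    rw [h1] at hk
    exact hk
  unfold cl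
  rw [finsum_eq_sum_of_fintype]
  have h2 : ∀ ω : Quotient (orb ξ), clq T ξ ω = 1 := by
    intro ω
    induction ω using Quotient.inductionOn with
    | h x =>
    have hs : stab ξ x = ⊤ := by
      ext k
      simp [mem_stab, h1]
    change trOne T (stab ξ x) = 1
    rw [hs, trOne_top]
  rw [Finset.sum_congr rfl (fun ω _ => h2 ω)]
  rw [Finset.sum_const, Finset.card_univ, nsmul_eq_mul, mul_one, Nat.card_eq_fintype_card,
    Fintype.card_of_bijective hq]

theorem point_cl {K : FiniteGrp.{0}} {L : Type} [Field L] (ψ : T.R K →+* L) (hψ : Kills T ψ)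
    {X : Type} [Finite X] (ξ : K →* Equiv.Perm X) :
    ψ (cl T ξ) = (Nat.card {x // ∀ g, ξ g x = x} : L) := by
  classical
  have : Fintype (Quotient (orb ξ)) := Fintype.ofFinite _
  have : Fintype X := Fintype.ofFinite _
  unfold cl
  rw [finsum_eq_sum_of_fintype, map_sum]
  have h2 : ∀ ω : Quotient (orb ξ), ψ (clq T ξ ω) =
      if ∃ x, Quotient.mk (orb ξ) x = ω ∧ ∀ g, ξ g x = x then (1 : L) else 0 := by
    intro ω
    induction ω using Quotient.inductionOn with
    | h x =>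
    change ψ (trOne T (stab ξ x)) = _
    by_cases hx : ∀ g, ξ g x = x
    · rw [if_pos ⟨x, rfl, hx⟩]
      have hs : stab ξ x = ⊤ := by
        ext k
        simp [mem_stab, hx]
      rw [hs, trOne_top, map_one]
    · rw [if_neg]
      · apply hψ
        intro hsurj
        apply hx
        intro g
        obtain ⟨a, ha⟩ := hsurj g
        have := a.2
        change a.1 = g at ha
        rw [← ha]
        exact (mem_stab ξ x a.1).1 a.2
      · rintro ⟨y, hy, hfix⟩
        obtain ⟨k, hk⟩ : (orb ξ).r y x := Quotient.exact hy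
        rw [hfix] at hk
        subst hk
        exact hx hfix
  rw [Finset.sum_congr rfl (fun ω _ => h2 ω), ← Finset.sum_filter, Finset.sum_const, nsmul_eq_mul,
    mul_one]
  congr 1
  rw [Nat.card_eq_fintype_card, Fintype.card_subtype]
  symm
  refine Finset.card_bij (fun x _ => Quotient.mk (orb ξ) x) ?_ ?_ ?_
  · intro x hx
    simp only [Finset.mem_filter, Finset.mem_univ, true_and] at hx ⊢
    exact ⟨x, rfl, hx⟩
  · intro x hx y hy hxy
    simp only [Finset.mem_filter, Finset.mem_univ, true_and] at hx hy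
    obtain ⟨k, hk⟩ : (orb ξ).r x y := Quotient.exact hxy
    rw [hx] at hk
    exact hk
  · intro ω hω
    simp only [Finset.mem_filter, Finset.mem_univ, true_and] at hω
    obtain ⟨x, hx, hfix⟩ := hω
    exact ⟨x, by simpa using hfix, hx⟩

end Vale.Agent.P241.F
end

section

set_option autoImplicit false

namespace Vale.Agent.P241.F

variable {p : ℕ} [Fact p.Prime] (T : Tel p)

namespace TIntAux

/-- The trivial homomorphism from the trivial group. -/
def one (G : FiniteGrp.{0}) : Hom (.of PUnit) G := Hom.of (A := .of PUnit) (1 : PUnit →* G)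

include T in
theorem not_eq_of_res {G : FiniteGrp.{0}} {L : Type} [Field L] (ψ : T.R G →+* L)
    (w : T.R G) (c : ℤ) (hc : ¬ (p : ℤ) ∣ c) (y : T.R (.of PUnit))
    (hy : T.res (one G) w = p * y) : ψ w ≠ (c : L) := by
  intro h
  have hu : IsUnit (w - (c : T.R G)) := by
    apply T.isUnit_of_res (one G) (inferInstanceAs (Subsingleton PUnit)) _ (-c)
      (by rwa [dvd_neg]) y
    rw [map_sub, hy, map_intCast]
    push_cast
    ring
  have := hu.map ψ
  rw [map_sub, h, map_intCast, sub_self] at this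
  exact not_isUnit_zero this

theorem pow_dvd {G : FiniteGrp.{0}} {L : Type} [Field L] [CharZero L] (ψ : T.R G →+* L)
    (z : T.R G) (s b : ℕ) (c : ℤ) (h : ((p ^ s * b : ℕ) : L) * ψ z = (c : L)) :
    (p : ℤ) ^ s ∣ c ∧ (T.res (one G) z = 0 → (p : ℤ) ^ (s + 1) ∣ c) := by
  have hp : p.Prime := Fact.out
  by_cases hc0 : c = 0
  · subst hc0; simp
  have hfin : FiniteMultiplicity (p : ℤ) c := by
    apply Int.finiteMultiplicity_iff.2
    refine ⟨?_, hc0⟩
    simpa using hp.ne_one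
  obtain ⟨c', hc', hnd⟩ := hfin.exists_eq_pow_mul_and_not_dvd
  set r := multiplicity (p : ℤ) c with hr
  have hpL : (p : L) ≠ 0 := by exact_mod_cast hp.ne_zero
  -- the crucial relation
  have key : ∀ e : ℕ, r + e = s → ψ ((p ^ e * b : ℕ) * z) = (c' : L) := by
    intro e he
    have h1 : (p : L) ^ r * ((p ^ e * b : ℕ) * ψ z) = (p : L) ^ r * (c' : L) := by
      have : (c : L) = (p : L) ^ r * (c' : L) := by
        rw [hc']; push_cast; rfl
      rw [← this, ← h, ← he]
      push_cast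
      ring
    have h2 := mul_left_cancel₀ (pow_ne_zero r hpL) h1
    rw [map_mul, map_natCast]
    exact h2
  constructor
  · rcases le_or_gt s r with hsr | hsr
    · exact (pow_dvd_pow _ hsr).trans ⟨c', hc'⟩
    · exfalso
      obtain ⟨e, he⟩ := Nat.exists_eq_add_of_lt hsr
      refine not_eq_of_res T ψ ((p ^ (e + 1) * b : ℕ) * z) c' hnd
        ((p ^ e * b : ℕ) * T.res (one G) z) ?_ (key (e + 1) (by omega))
      rw [map_mul, map_natCast]
      push_cast
      ring
  · intro hz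
    rcases le_or_gt (s + 1) r with hsr | hsr
    · exact (pow_dvd_pow _ hsr).trans ⟨c', hc'⟩
    · exfalso
      obtain ⟨e, he⟩ := Nat.exists_eq_add_of_le (Nat.le_of_lt_succ hsr)
      refine not_eq_of_res T ψ ((p ^ e * b : ℕ) * z) c' hnd 0 ?_ (key e (by omega))
      rw [map_mul, hz, mul_zero, mul_zero]

/-- The action of `P × G` on `S / P` by left multiplication through the first factor. -/
noncomputable def act1 {S : Type} [Group S] (P : Subgroup S) (G : Type) [Group G] :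
    P × G →* Equiv.Perm (S ⧸ P) :=
  ((MulAction.toPermHom S (S ⧸ P)).comp P.subtype).comp (MonoidHom.fst P G)

/-- The action of `P × G` on `Fin n → X`. -/
def act2 {n : ℕ} (P : Subgroup (Equiv.Perm (Fin n))) {G X : Type} [Group G]
    (ξ : G →* Equiv.Perm X) : P × G →* Equiv.Perm (Fin n → X) where
  toFun k := Equiv.arrowCongr (k.1 : Equiv.Perm (Fin n)) (ξ k.2)
  map_one' := by
    ext q a
    rw [Prod.snd_one, map_one]
    rfl
  map_mul' k l := by
    ext q a
    simp [Equiv.arrowCongr, Equiv.Perm.mul_def]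

theorem act2_apply {n : ℕ} (P : Subgroup (Equiv.Perm (Fin n))) {G X : Type} [Group G]
    (ξ : G →* Equiv.Perm X) (k : P × G) (q : Fin n → X) (a : Fin n) :
    act2 P ξ k q a = ξ k.2 (q ((k.1 : Equiv.Perm (Fin n)).symm a)) := rfl

/-- The number of equivariant maps. -/
noncomputable def eqv {n : ℕ} {G X : Type} [Group G] (ξ : G →* Equiv.Perm X)
    (ρ : G →* Equiv.Perm (Fin n)) : ℕ :=
  Nat.card {q : Fin n → X // ∀ g a, q (ρ g a) = ξ g (q a)}

theorem eqv_conj {n : ℕ} {G X : Type} [Group G] (ξ : G →* Equiv.Perm X)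
    (ρ : G →* Equiv.Perm (Fin n)) (x : Equiv.Perm (Fin n)) :
    eqv ξ ((MulAut.conj x).toMonoidHom.comp ρ) = eqv ξ ρ := by
  unfold eqv
  refine Nat.card_congr ?_
  refine Equiv.subtypeEquiv (Equiv.arrowCongr x.symm (Equiv.refl X)) ?_
  intro q
  simp only [MonoidHom.coe_comp, Function.comp_apply, MulEquiv.coe_toMonoidHom,
    MulAut.conj_apply, Equiv.arrowCongr_apply, Equiv.symm_symm, Equiv.coe_refl, id_eq,
    Equiv.Perm.mul_apply]
  constructor
  · intro h g a
    have := h g (x a)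
    simpa using this
  · intro h g a
    have := h g (x⁻¹ a)
    simpa using this

theorem homCount_eq_sum {n : ℕ} {G X : Type} [Group G] [Finite G] [Finite X]
    (ξ : G →* Equiv.Perm X) {L : Type} [Field L] :
    ((homCount ξ n : ℕ) : L) = ∑ᶠ ρ : G →* Equiv.Perm (Fin n), (eqv ξ ρ : L) := by
  classical
  have : Finite (G →* Equiv.Perm (Fin n)) :=
    Finite.of_injective (fun f : G →* Equiv.Perm (Fin n) => (f : G → Equiv.Perm (Fin n)))
      DFunLike.coe_injective
  have := Fintype.ofFinite (G →* Equiv.Perm (Fin n))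
  rw [finsum_eq_sum_of_fintype, ← Nat.cast_sum]
  congr 1
  unfold homCount eqv
  rw [← Nat.card_sigma]
  refine Nat.card_congr ?_
  exact
    { toFun := fun q => ⟨q.1.1, q.1.2, q.2⟩
      invFun := fun q => ⟨(q.1, q.2.1), q.2.2⟩
      left_inv := fun q => rfl
      right_inv := fun q => rfl }

/-- Sections of the projection. -/
def secEquiv (P G : Type) [Group P] [Group G] :
    {s : G →* P × G // ∀ g, MonoidHom.snd P G (s g) = g} ≃ (G →* P) where
  toFun s := (MonoidHom.fst P G).comp s.1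
  invFun φ := ⟨φ.prod (MonoidHom.id G), fun g => rfl⟩
  left_inv s := by
    apply Subtype.ext
    ext g
    · rfl
    · exact (s.2 g).symm
  right_inv φ := by
    ext g
    rfl

omit [Fact p.Prime] in
theorem isPGroup_prod {A B : Type} [Group A] [Group B] (hA : IsPGroup p A) (hB : IsPGroup p B) :
    IsPGroup p (A × B) := by
  intro g
  obtain ⟨i, hi⟩ := hA g.1
  obtain ⟨j, hj⟩ := hB g.2
  refine ⟨i + j, Prod.ext ?_ ?_⟩
  · rw [Prod.pow_fst, pow_add, pow_mul, hi, one_pow]; rfl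
  · rw [Prod.pow_snd, pow_add, mul_comm, pow_mul, hj, one_pow]; rfl

theorem card_ker_snd (A B : Type) [Group A] [Group B] :
    Nat.card (MonoidHom.snd A B).ker = Nat.card A := by
  refine Nat.card_congr ⟨fun x => x.1.1, fun a => ⟨(a, 1), rfl⟩, fun x => ?_, fun a => rfl⟩
  apply Subtype.ext
  exact Prod.ext rfl (x.2 : _).symm

omit [Fact p.Prime] in
theorem sat_snd {G : FiniteGrp.{0}} {Z : Type} [Group Z] [Finite Z] (hsat : Sat T G Z)
    (H : Subgroup (Z × G)) (hH : ¬ T.Dead (.of H)) (hs : ∀ g, ∃ h ∈ H, MonoidHom.snd Z G h = g)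
    (k : Z × G) (hk : k ∈ H) (hk1 : MonoidHom.snd Z G k = 1) : k = 1 := by
  have h1 := hsat H hH (fun g => by
    obtain ⟨k, hk, hkg⟩ := hs g
    refine ⟨k.1, ?_⟩
    have : k = (k.1, g) := Prod.ext rfl hkg
    rwa [← this]) k.1 (by
    have : k = (k.1, 1) := Prod.ext rfl hk1
    rwa [← this])
  exact Prod.ext h1 hk1

/-- The T-formula for a projection. -/
theorem t_prod {G : FiniteGrp.{0}} (hG : IsPGroup p G) {Z : Type} [Group Z] [Finite Z]
    (hZ : IsPGroup p Z) (hsat : Sat T G Z) {L : Type} [Field L] [CharZero L] (ψ : T.R G →+* L)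
    (hψ : Kills T ψ) (y : T.R (.of (Z × G))) :
    (Nat.card Z : L) * ψ (T.tr (Hom.of (A := .of (Z × G)) (MonoidHom.snd Z G)) y) =
      ∑ᶠ φ : G →* Z, ψ (T.res (Hom.of (B := .of (Z × G)) (φ.prod (MonoidHom.id G))) y) := by
  have h := t_formula T (G := G) (K := .of (Z × G)) (isPGroup_prod hZ hG) (MonoidHom.snd Z G)
    Prod.snd_surjective (fun H hH hs k hk hk1 => sat_snd T hsat H hH hs k hk hk1) ψ hψ y
  refine Eq.trans (congrArg (fun m : ℕ => (m : L) * _) (card_ker_snd Z G).symm) (h.trans ?_)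
  refine finsum_eq_of_bijective (secEquiv Z G) (secEquiv Z G).bijective ?_
  intro s
  have : (s.1 : G →* Z × G) = (secEquiv Z G s).prod (MonoidHom.id G) := by
    have := (secEquiv Z G).symm_apply_apply s
    exact (congrArg Subtype.val this).symm
  rw [this]

/-- Fixed points of the first action. -/
theorem fix_act1 {S : Type} [Group S] (P : Subgroup S) (G : Type) [Group G] (φ : G →* P) :
    Nat.card {q // ∀ g, ((act1 P G).comp (φ.prod (MonoidHom.id G))) g q = q} =
      Nat.card {q : S ⧸ P // ∀ g : G, (φ g : S) • q = q} := rfl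

theorem fix_act2 {n : ℕ} (P : Subgroup (Equiv.Perm (Fin n))) {G X : Type} [Group G]
    (ξ : G →* Equiv.Perm X) (φ : G →* P) :
    Nat.card {q // ∀ g, ((act2 P ξ).comp (φ.prod (MonoidHom.id G))) g q = q} =
      eqv ξ (P.subtype.comp φ) := by
  unfold eqv
  refine Nat.card_congr (Equiv.subtypeEquivRight ?_)
  intro q
  refine forall_congr' fun g => ?_
  change (act2 P ξ (φ g, g) q = q) ↔ ∀ a, q ((φ g : Equiv.Perm (Fin n)) a) = ξ g (q a)
  constructor
  · intro h a
    have := congrFun h ((φ g : Equiv.Perm (Fin n)) a)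
    rw [← this, act2_apply]
    simp
  · intro h
    ext a
    have := h ((φ g : Equiv.Perm (Fin n)).symm a)
    rw [act2_apply, ← this]
    simp

end TIntAux

theorem dvd_card_hom {G : FiniteGrp.{0}} (hG : IsPGroup p G) (hA : ¬ T.Dead G) (m : ℕ)
    (hsat : Sat T G (Multiplicative (ZMod (p ^ m)))) :
    p ^ m ∣ Nat.card (G →* Multiplicative (ZMod (p ^ m))) := by
  classical
  obtain ⟨L, _, _, ψ, hψ⟩ := T.exists_point hA
  have hc : Nat.card (Multiplicative (ZMod (p ^ m))) = p ^ m := by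
    rw [Nat.card_congr Multiplicative.toAdd, Nat.card_zmod]
  have hZ : IsPGroup p (Multiplicative (ZMod (p ^ m))) := IsPGroup.of_card (n := m) hc
  have h := TIntAux.t_prod T hG hZ hsat ψ hψ 1
  have hfin : Finite (G →* Multiplicative (ZMod (p ^ m))) :=
    Finite.of_injective (fun f : G →* Multiplicative (ZMod (p ^ m)) => (f : G → _))
      DFunLike.coe_injective
  have := Fintype.ofFinite (G →* Multiplicative (ZMod (p ^ m)))
  simp only [map_one, hc] at h
  rw [finsum_eq_sum_of_fintype, Finset.sum_const, Finset.card_univ, nsmul_eq_mul, mul_one,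
    ← Nat.card_eq_fintype_card] at h
  have := (TIntAux.pow_dvd T ψ _ m 1 (Nat.card (G →* Multiplicative (ZMod (p ^ m))) : ℕ)
    (by rw [mul_one]; exact_mod_cast h)).1
  exact_mod_cast this

theorem intCong_of_sat {G : FiniteGrp.{0}} (hG : IsPGroup p G) (hA : ¬ T.Dead G) (n : ℕ)
    (P : Sylow p (Equiv.Perm (Fin n))) (hsat : Sat T G P) : IntCong p G n := by
  classical
  have hp : p.Prime := Fact.out
  obtain ⟨L, _, _, ψ, hψ⟩ := T.exists_point hA
  set K : FiniteGrp.{0} := .of (P × G) with hKdef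
  set η : K →* Equiv.Perm (Equiv.Perm (Fin n) ⧸ (P : Subgroup (Equiv.Perm (Fin n)))) :=
    TIntAux.act1 (P : Subgroup (Equiv.Perm (Fin n))) G with hη
  -- the unit `u`
  have hu : IsUnit (cl T η) := by
    refine T.isUnit_of_res (TIntAux.one K) (inferInstanceAs (Subsingleton PUnit)) _
      ((P : Subgroup (Equiv.Perm (Fin n))).index : ℤ) ?_ 0 ?_
    · rw [Int.natCast_dvd_natCast]
      exact P.not_dvd_index
    · refine (res_cl T (A := .of PUnit) (B := K) (1 : PUnit →* K) η).trans ?_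
      refine (cl_subsingleton T (inferInstanceAs (Subsingleton PUnit)) _).trans ?_
      rw [mul_zero, add_zero, Int.cast_natCast]
      rfl
  obtain ⟨u, hu⟩ := hu
  -- the class `z`
  let y : ∀ {X : Type} (ξ : G →* Equiv.Perm X), T.R K := fun {X} ξ =>
    ((u⁻¹ : (T.R K)ˣ) : T.R K) *
      cl T (K := K) (TIntAux.act2 (P : Subgroup (Equiv.Perm (Fin n))) ξ)
  let z : ∀ {X : Type} (ξ : G →* Equiv.Perm X), T.R G := fun {X} ξ =>
    T.tr (Hom.of (A := K) (MonoidHom.snd P G)) (y ξ)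
  have key : ∀ (X : Type) [Finite X] (ξ : G →* Equiv.Perm X),
      ((n.factorial : ℕ) : L) * ψ (z ξ) = (homCount ξ n : L) := by
    intro X _ ξ
    have h := TIntAux.t_prod T hG P.isPGroup' hsat ψ hψ (y ξ)
    rw [TIntAux.homCount_eq_sum, sum_hom_sylow hG P (fun ρ => (TIntAux.eqv ξ ρ : L))
      (fun ρ x => by simp only [TIntAux.eqv_conj])]
    have hcS : Nat.card (Equiv.Perm (Fin n)) = n.factorial := by
      rw [Nat.card_eq_fintype_card, Fintype.card_perm, Fintype.card_fin]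
    have hP0 : (Nat.card P : L) ≠ 0 := by
      exact_mod_cast Nat.card_pos.ne'
    rw [hcS]
    congr 1
    apply mul_left_cancel₀ hP0
    refine h.trans ?_
    rw [mul_finsum]
    refine finsum_congr fun φ => ?_
    have h1 := (congrArg ψ (res_cl T (A := G) (B := K) (φ.prod (MonoidHom.id G)) η)).trans
      (point_cl T ψ hψ _)
    have h2 := (congrArg ψ (res_cl T (A := G) (B := K) (φ.prod (MonoidHom.id G))
      (TIntAux.act2 (P : Subgroup (Equiv.Perm (Fin n))) ξ))).trans (point_cl T ψ hψ _)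
    have h3 := TIntAux.fix_act1 (P : Subgroup (Equiv.Perm (Fin n))) G φ
    have h4 := TIntAux.fix_act2 (P : Subgroup (Equiv.Perm (Fin n))) ξ φ
    have h5 : ψ (T.res (Hom.of (B := K) (φ.prod (MonoidHom.id G))) ((u⁻¹ : (T.R K)ˣ) : T.R K)) *
        ψ (T.res (Hom.of (B := K) (φ.prod (MonoidHom.id G))) (cl T η)) = 1 := by
      rw [← hu, ← map_mul, ← map_mul, Units.inv_mul, map_one, map_one]
    have h6 : ψ (T.res (Hom.of (B := K) (φ.prod (MonoidHom.id G))) (y ξ)) =
        ψ (T.res (Hom.of (B := K) (φ.prod (MonoidHom.id G))) ((u⁻¹ : (T.R K)ˣ) : T.R K)) *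
        ψ (T.res (Hom.of (B := K) (φ.prod (MonoidHom.id G))) (cl T (K := K)
          (TIntAux.act2 (P : Subgroup (Equiv.Perm (Fin n))) ξ))) := by
      rw [← map_mul, ← map_mul]
    refine h6.trans ?_
    rw [h1] at h5
    rw [h2]
    have h7 : (Nat.card {q : Equiv.Perm (Fin n) ⧸ (P : Subgroup (Equiv.Perm (Fin n))) //
        ∀ g : G, (φ g : Equiv.Perm (Fin n)) • q = q} : L) ≠ 0 := by
      intro h0
      refine one_ne_zero (α := L) ?_
      rw [← h5]
      exact mul_eq_zero_of_right _ h0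
    refine Eq.trans (congrArg (fun m : ℕ => _ * (m : L)) h4) ?_
    have h8 : ψ (T.res (Hom.of (B := K) (φ.prod (MonoidHom.id G))) ((u⁻¹ : (T.R K)ˣ) : T.R K)) =
        (Nat.card {q : Equiv.Perm (Fin n) ⧸ (P : Subgroup (Equiv.Perm (Fin n))) //
        ∀ g : G, (φ g : Equiv.Perm (Fin n)) • q = q} : L)⁻¹ := eq_inv_of_mul_eq_one_left h5
    rw [h8]
    field_simp
  -- restriction to the trivial group
  have hres : ∀ (X X' : Type) [Finite X] [Finite X'] (ξ : G →* Equiv.Perm X)
      (ξ' : G →* Equiv.Perm X'), Nat.card X = Nat.card X' →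
      T.res (TIntAux.one G) (z ξ) = T.res (TIntAux.one G) (z ξ') := by
    intro X X' _ _ ξ ξ' hXX
    have bc : ∀ w : T.R K, T.res (TIntAux.one G) (T.tr (Hom.of (A := K) (MonoidHom.snd P G)) w) =
        T.tr (Hom.of (A := .of P) (B := .of PUnit) (1 : P →* PUnit))
          (T.res (Hom.of (A := .of P) (B := K) (MonoidHom.inl P G)) w) := by
      intro w
      refine (T.base_change (Hom.of (A := K) (MonoidHom.snd P G)) (TIntAux.one G) (n := 1)
        (fun _ => .of P) (fun _ => Hom.of (A := .of P) (B := K) (MonoidHom.inl P G))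
        (fun _ => Hom.of (A := .of P) (B := .of PUnit) (1 : P →* PUnit)) (fun _ => 1)
        ?_ ?_ w).trans ?_
      · intro g
        refine ⟨0, ⟨((1 : P), g), PUnit.unit, ?_⟩, fun i _ => Subsingleton.elim _ _⟩
        change (1 : G) * 1 * g = g
        rw [one_mul, one_mul]
      · rintro - ⟨a, g⟩ b
        change (1 : G) * g = 1 * 1 ↔ ∃! z : P, ((z, (1 : G)) : P × G) = (a, g) ∧ PUnit.unit = b
        rw [one_mul, one_mul]
        constructor
        · rintro rfl
          exact ⟨a, ⟨rfl, rfl⟩, fun z hz => (Prod.ext_iff.1 hz.1).1⟩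
        · rintro ⟨z, ⟨hz, -⟩, -⟩
          exact (Prod.ext_iff.1 hz).2.symm
      · exact Fin.sum_univ_one _
    refine (bc _).trans (Eq.trans (congrArg _ ?_) (bc _).symm)
    have hcl : cl T (K := .of P) ((TIntAux.act2 (P : Subgroup (Equiv.Perm (Fin n))) ξ).comp
        (MonoidHom.inl P G)) = cl T (K := .of P) ((TIntAux.act2
        (P : Subgroup (Equiv.Perm (Fin n))) ξ').comp (MonoidHom.inl P G)) := by
      obtain ⟨e⟩ := (Finite.card_eq (α := X) (β := X')).1 hXX
      refine cl_congr T (K := .of P) _ _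
        (Equiv.arrowCongr (Equiv.refl (Fin n)) e) ?_
      intro (k : P) q
      ext a
      change e (ξ 1 (q ((k : Equiv.Perm (Fin n)).symm a))) =
        ξ' 1 (e (q ((k : Equiv.Perm (Fin n)).symm a)))
      rw [map_one, map_one]
      rfl
    have e1 := res_cl T (A := .of P) (B := K) (MonoidHom.inl P G)
      (TIntAux.act2 (P : Subgroup (Equiv.Perm (Fin n))) ξ)
    have e2 := res_cl T (A := .of P) (B := K) (MonoidHom.inl P G)
      (TIntAux.act2 (P : Subgroup (Equiv.Perm (Fin n))) ξ')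
    have e3 := e1.trans (hcl.trans e2.symm)
    change T.res _ (_ * _) = T.res _ (_ * _)
    rw [map_mul, map_mul, e3]
  intro X X' _ _ ξ ξ' hXX
  refine ⟨n.factorial / p ^ n.factorial.factorization p, ?_, ?_, ?_⟩
  · exact Nat.not_dvd_ordCompl hp n.factorial_ne_zero
  · have h := (TIntAux.pow_dvd T ψ (z ξ) (n.factorial.factorization p)
      (n.factorial / p ^ n.factorial.factorization p) (homCount ξ n : ℤ) (by
        rw [Nat.ordProj_mul_ordCompl_eq_self, key, Int.cast_natCast])).1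
    have h2 : p ^ n.factorial.factorization p ∣ homCount ξ n := by exact_mod_cast h
    conv_lhs => rw [← Nat.ordProj_mul_ordCompl_eq_self n.factorial p]
    rw [mul_comm]
    exact mul_dvd_mul_left _ h2
  · have h := (TIntAux.pow_dvd T ψ (z ξ - z ξ') (n.factorial.factorization p)
      (n.factorial / p ^ n.factorial.factorization p)
      ((homCount ξ n : ℤ) - homCount ξ' n) (by
        rw [Nat.ordProj_mul_ordCompl_eq_self, map_sub, mul_sub, key, key]
        push_cast
        rfl)).2 (by rw [map_sub, hres X X' ξ ξ' hXX, sub_self])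
    have h2 : ((p * n.factorial : ℕ) : ℤ) =
        ((n.factorial / p ^ n.factorial.factorization p : ℕ) : ℤ) *
          (p : ℤ) ^ (n.factorial.factorization p + 1) := by
      conv_lhs => rw [← Nat.ordProj_mul_ordCompl_eq_self n.factorial p]
      push_cast
      ring
    rw [h2]
    exact mul_dvd_mul_left _ h

end Vale.Agent.P241.F
end

section

set_option autoImplicit false

namespace Vale.Agent.P241.F

variable {p : ℕ} [Fact p.Prime] (T : Tel p)

theorem Sat.mono {G : FiniteGrp.{0}} {P Q : Type} [Group P] [Finite P] [Group Q] [Finite Q]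
    (h : Sat T G P) (f : Q →* P) (hf : Function.Injective f) : Sat T G Q := by
  intro H hH hG x hx
  let F : Q × G →* P × G := f.prodMap (MonoidHom.id G)
  have hH' : ¬ T.Dead (.of (H.map F)) := by
    intro hd
    apply hH
    have hs : Function.Surjective (F.subgroupMap H) := F.subgroupMap_surjective H
    exact T.dead_of_surjective (A := .of H) (B := .of (H.map F)) (Hom.of (F.subgroupMap H)) hs hd
  have h1 := h (H.map F) hH' (fun g => by
    obtain ⟨y, hy⟩ := hG g
    exact ⟨f y, (y, g), hy, rfl⟩) (f x) ⟨(x, 1), hx, rfl⟩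
  exact hf (by rw [h1, map_one])

/-- Homomorphisms from extensions factor. -/
theorem Sat.factor {G G' : FiniteGrp.{0}} {P : Type} [Group P] [Finite P] (h : Sat T G P)
    (hA : ¬ T.Dead G') (π : G' →* G) (hπ : Function.Surjective π) (ρ : G' →* P) :
    ∀ g, π g = 1 → ρ g = 1 := by
  intro g hg
  let R : G' →* P × G := ρ.prod π
  have hH : ¬ T.Dead (.of R.range) := by
    intro hd
    exact hA (T.dead_of_surjective (A := G') (B := .of R.range) (Hom.of R.rangeRestrict)
      R.rangeRestrict_surjective hd)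
  refine h R.range hH (fun y => ?_) (ρ g) ⟨g, ?_⟩
  · obtain ⟨g', hg'⟩ := hπ y
    exact ⟨ρ g', g', by rw [← hg']; rfl⟩
  · rw [← hg]; rfl

/-- Maximal subgroups of `p`-groups. -/
theorem tsat_coatom {G : Type} [Group G] [Finite G] (hG : IsPGroup p G)
    {M : Subgroup G} (hM : IsCoatom M) : M.Normal ∧ M.index = p := by
  have hn : M.Normal := by
    have := hG.isNilpotent
    exact Subgroup.NormalizerCondition.normal_of_coatom _ Group.normalizerCondition_of_isNilpotent hM
  refine ⟨hn, ?_⟩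
  obtain ⟨k, hk⟩ := (IsPGroup.iff_card (G := M)).1 (hG.to_subgroup M)
  obtain ⟨n, hn'⟩ := IsPGroup.iff_card.1 hG
  have hp : p.Prime := Fact.out
  have hidx : Nat.card M * M.index = Nat.card G := M.card_mul_index
  have hne : M.index ≠ 1 := fun h => hM.1 (Subgroup.index_eq_one.1 h)
  have hdvd : p ^ (k + 1) ∣ Nat.card G := by
    obtain ⟨j, hj⟩ := (Nat.dvd_prime_pow hp).1 (hn' ▸ Subgroup.card_subgroup_dvd_card M)
    obtain ⟨j', hj'1, hj'⟩ := (Nat.dvd_prime_pow hp).1 (hn' ▸ Subgroup.index_dvd_card M)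
    have h0 : j' ≠ 0 := by
      rintro rfl
      exact hne (by simpa using hj')
    rw [← hidx, hk, hj', ← pow_add]
    exact pow_dvd_pow _ (by omega)
  obtain ⟨K, hK, hMK⟩ := Sylow.exists_subgroup_card_pow_succ hdvd hk
  have hlt : M < K := lt_of_le_of_ne hMK (by
    rintro rfl
    rw [hk] at hK
    have := Nat.pow_right_injective hp.two_le hK
    omega)
  have hK' : K = ⊤ := hM.2 K hlt
  rw [hK', Subgroup.card_top] at hK
  rw [hk, hK, pow_succ] at hidx
  exact Nat.eq_of_mul_eq_mul_left (pow_pos hp.pos k) hidx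

theorem tsat_elemAb {G : Type} [Group G] [Finite G] (hG : IsPGroup p G) :
    ElemAb p (frattini G) ⊤ := by
  have key : ∀ x : G, (∀ M : Subgroup G, IsCoatom M → x ∈ M) → x ∈ frattini G := by
    intro x hx
    simp only [frattini, Order.radical, Subgroup.mem_iInf]
    exact hx
  refine ⟨le_top, fun x _ => key _ fun M hM => ?_, fun x _ y _ => key _ fun M hM => ?_⟩
  · obtain ⟨hn, hi⟩ := tsat_coatom hG hM
    rw [← QuotientGroup.eq_one_iff, QuotientGroup.mk_pow]
    have : Nat.card (G ⧸ M) = p := hi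
    conv_lhs => rw [← this]
    exact pow_card_eq_one'
  · obtain ⟨hn, hi⟩ := tsat_coatom hG hM
    have hc : Nat.card (G ⧸ M) = p := hi
    have : IsCyclic (G ⧸ M) := isCyclic_of_prime_card hc
    have hcomm : ∀ a b : G ⧸ M, a * b = b * a := fun a b =>
      (IsCyclic.isMulCommutative (α := G ⧸ M)).is_comm.comm a b
    rw [← QuotientGroup.eq_one_iff, QuotientGroup.mk_mul, QuotientGroup.mk_mul,
      QuotientGroup.mk_mul, QuotientGroup.mk_inv, QuotientGroup.mk_inv,
      hcomm (x : G ⧸ M) (y : G ⧸ M)]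
    group

/-- Subgroups of index `p ^ k` together with at most `k` elements generate. -/
theorem tsat_gen {G : Type} [Group G] [Finite G] (hG : IsPGroup p G) :
    ∀ (k : ℕ) (V : Subgroup G), V.index ≤ p ^ k →
      ∃ s : Finset G, s.card ≤ k ∧ Subgroup.closure (s : Set G) ⊔ V = ⊤ := by
  have hp : p.Prime := Fact.out
  intro k
  induction k with
  | zero =>
    intro V hV
    refine ⟨∅, le_rfl, ?_⟩
    have h0 : V.index ≠ 0 := Subgroup.index_ne_zero_of_finite
    have : V.index = 1 := by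
      rw [pow_zero] at hV
      omega
    rw [Subgroup.index_eq_one.1 this]
    simp
  | succ k ih =>
    intro V hV
    by_cases hT : V = ⊤
    · exact ⟨∅, by simp, by rw [hT]; simp⟩
    · obtain ⟨x, hx⟩ : ∃ x, x ∉ V := by
        by_contra hcon
        push Not at hcon
        exact hT (Subgroup.eq_top_iff' V |>.2 hcon)
      let V' : Subgroup G := V ⊔ Subgroup.zpowers x
      have hle : V ≤ V' := le_sup_left
      have hxV' : x ∈ V' := (le_sup_right : _ ≤ V') (Subgroup.mem_zpowers x)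
      have hdvd : V'.index ∣ V.index := Subgroup.index_dvd_of_le hle
      obtain ⟨a, ha⟩ := hG.index V
      obtain ⟨b, hb⟩ := hG.index V'
      have hne : V'.index ≠ V.index := by
        intro h
        have h2 := Subgroup.relIndex_mul_index hle
        rw [h] at h2
        have h0 : V.index ≠ 0 := Subgroup.index_ne_zero_of_finite
        have h3 : V.relIndex V' = 1 := by
          have : V.relIndex V' * V.index = 1 * V.index := by rw [h2, one_mul]
          exact Nat.eq_of_mul_eq_mul_right (Nat.pos_of_ne_zero h0) this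
        exact hx ((Subgroup.relIndex_eq_one.1 h3) hxV')
      have hlt : b < a := by
        rw [ha, hb] at hdvd hne
        have h1 : b ≤ a := (Nat.pow_dvd_pow_iff_le_right hp.one_lt).1 hdvd
        rcases h1.lt_or_eq with h | h
        · exact h
        · exact absurd (by rw [h]) hne
      have hak : a ≤ k + 1 := by
        rw [ha] at hV
        exact (Nat.pow_le_pow_iff_right hp.one_lt).1 hV
      have hV' : V'.index ≤ p ^ k := by
        rw [hb]
        exact Nat.pow_le_pow_right hp.pos (by omega)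
      obtain ⟨s, hs, hs'⟩ := ih V' hV'
      classical
      refine ⟨insert x s, (Finset.card_insert_le _ _).trans (by omega), ?_⟩
      rw [eq_top_iff, ← hs']
      refine sup_le ?_ (sup_le le_sup_right ?_)
      · refine le_trans (Subgroup.closure_mono ?_) le_sup_left
        intro y hy
        simp only [Finset.coe_insert, Set.mem_insert_iff]
        exact Or.inr hy
      · refine le_trans ?_ le_sup_left
        rw [Subgroup.zpowers_le]
        exact Subgroup.subset_closure (by simp)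

/-- The number of homomorphisms from a group which is not dead. -/
theorem tsat_card_hom {t : ℕ} (hT : RankBound T t) (H : FiniteGrp.{0}) (hH : IsPGroup p H)
    (hA : ¬ T.Dead H) (P : Type) [Group P] [Finite P] :
    Nat.card (H →* P) ≤ Nat.card P ^ t := by
  have h1 : (frattini H).relIndex ⊤ ≤ p ^ t := hT H hH hA ⊤ (frattini H) (tsat_elemAb hH)
  rw [Subgroup.relIndex_top_right] at h1
  obtain ⟨s, hs, hs'⟩ := tsat_gen hH t (frattini H) h1
  have h2 : Subgroup.closure (s : Set H) = ⊤ := frattini_nongenerating hs'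
  have hinj : Function.Injective (fun (φ : H →* P) (x : s) => φ x) := by
    intro φ ψ h
    refine MonoidHom.eq_of_eqOn_dense h2 ?_
    intro x hx
    exact congrFun h ⟨x, hx⟩
  have h3 := Nat.card_le_card_of_injective _ hinj
  refine h3.trans ?_
  rw [Nat.card_fun]
  refine Nat.pow_le_pow_right Nat.card_pos ?_
  simpa using hs

theorem exists_sat {t : ℕ} (hT : RankBound T t) {G₁ : FiniteGrp.{0}} (hG : IsPGroup p G₁)
    (hA : ¬ T.Dead G₁) (P : Type) [Group P] [Finite P] (hP : IsPGroup p P) :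
    ∃ G : FiniteGrp.{0}, IsPGroup p G ∧ ¬ T.Dead G ∧ Sat T G P ∧
      ∃ π : G →* G₁, Function.Surjective π := by
  let S : Set ℕ := {n | ∃ (H : FiniteGrp.{0}) (π : H →* G₁), IsPGroup p H ∧ ¬ T.Dead H ∧
    Function.Surjective π ∧ (∀ h, π h = 1 → (∀ φ : H →* P, φ h = 1) → h = 1) ∧ Nat.card H = n}
  have hne : S.Nonempty :=
    ⟨Nat.card G₁, G₁, MonoidHom.id G₁, hG, hA, fun x => ⟨x, rfl⟩, fun h hh _ => hh, rfl⟩
  have hbd : BddAbove S := by
    refine ⟨Nat.card G₁ * Nat.card P ^ (Nat.card P ^ t), ?_⟩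
    rintro n ⟨H, π, hH, hHA, -, hk, rfl⟩
    let F : H →* G₁ × ((H →* P) → P) := π.prod (MonoidHom.pi fun φ => φ)
    have hF : Function.Injective F := by
      rw [injective_iff_map_eq_one]
      intro h hh
      have h1 : π h = 1 := congrArg Prod.fst hh
      have h2 : (fun φ : H →* P => φ h) = 1 := congrArg Prod.snd hh
      exact hk h h1 (fun φ => congrFun h2 φ)
    have : Finite (H →* P) := DFunLike.finite _
    have h3 := Nat.card_le_card_of_injective _ hF
    refine h3.trans ?_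
    rw [Nat.card_prod, Nat.card_fun]
    exact Nat.mul_le_mul_left _
      (Nat.pow_le_pow_right Nat.card_pos (tsat_card_hom T hT H hH hHA P))
  obtain ⟨G, π, hGp, hGA, hπ, hk, hcard⟩ := Nat.sSup_mem hne hbd
  refine ⟨G, hGp, hGA, ?_, π, hπ⟩
  intro H' hH' hsur x hx
  let q : H' →* G := (MonoidHom.snd P G).comp H'.subtype
  have hq : Function.Surjective q := by
    intro g
    obtain ⟨y, hy⟩ := hsur g
    exact ⟨⟨(y, g), hy⟩, rfl⟩
  have hmem : Nat.card H' ∈ S := by
    refine ⟨.of H', π.comp q, ?_, hH', hπ.comp hq, ?_, rfl⟩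
    · obtain ⟨a, ha⟩ := IsPGroup.iff_card.1 hP
      obtain ⟨b, hb⟩ := IsPGroup.iff_card.1 hGp
      have hPG : IsPGroup p (P × G) :=
        IsPGroup.of_card (n := a + b) (by rw [Nat.card_prod, ha, hb, pow_add])
      exact hPG.to_subgroup H'
    · intro h hh hφ
      have h1 : q h = 1 := hk (q h) hh (fun ψ => hφ (ψ.comp q))
      have h2 : h.1.1 = 1 := hφ ((MonoidHom.fst P G).comp H'.subtype)
      exact Subtype.ext (Prod.ext h2 h1)
  have hle : Nat.card H' ≤ Nat.card G := by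
    rw [hcard]
    exact le_csSup hbd hmem
  have hge : Nat.card G ≤ Nat.card H' := Nat.card_le_card_of_surjective q hq
  have hbij : Function.Bijective q := by
    rw [Nat.bijective_iff_surjective_and_card]
    exact ⟨hq, le_antisymm hle hge⟩
  have h3 : (⟨(x, 1), hx⟩ : H') = 1 := hbij.1 (by
    rw [map_one]; rfl)
  have h4 := congrArg (fun z : H' => z.1.1) h3
  exact h4

end Vale.Agent.P241.F
end

section

set_option autoImplicit false

namespace Vale.Agent.P241.F

namespace ExpFormulaAux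

variable {G X : Type} [Group G] (ξ : G →* Equiv.Perm X)

/-- Structures on `α`: an action of `G` and an equivariant map to `X`. -/
abbrev St (α : Type) : Type :=
  {q : (G →* Equiv.Perm α) × (α → X) // ∀ g a, q.2 (q.1 g a) = ξ g (q.2 a)}

/-- Transport of the structures along a bijection. -/
def stMap {α β : Type} (e : α ≃ β) (q : St ξ α) : St ξ β :=
  ⟨(MonoidHom.mk' (fun g => (e.symm.trans (q.1.1 g)).trans e) (fun g h => by
      ext b
      simp [Equiv.Perm.mul_apply]), fun b => q.1.2 (e.symm b)), fun g b => by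
      simpa using q.2 g (e.symm b)⟩

/-- Transport of the structures along a bijection. -/
def stCongr {α β : Type} (e : α ≃ β) : St ξ α ≃ St ξ β where
  toFun := stMap ξ e
  invFun := stMap ξ e.symm
  left_inv q := by
    apply Subtype.ext
    refine Prod.ext ?_ ?_
    · ext g a
      simp [stMap]
    · funext a
      simp [stMap]
  right_inv q := by
    apply Subtype.ext
    refine Prod.ext ?_ ?_
    · ext g a
      simp [stMap]
    · funext a
      simp [stMap]

theorem card_St (α : Type) [Finite α] : Nat.card (St ξ α) = homCount ξ (Nat.card α) :=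
  Nat.card_congr (stCongr ξ (Finite.equivFin α))

theorem card_fiber {S T : Type} [Finite S] [Fintype T] (R : T → S → Prop)
    (h : ∀ s, ∃! t, R t s) : Nat.card S = ∑ t, Nat.card {s // R t s} := by
  rw [← Nat.card_sigma]
  refine Nat.card_congr ⟨fun s => ⟨(h s).choose, s, (h s).choose_spec.1⟩, fun p => p.2.1,
    fun s => rfl, ?_⟩
  rintro ⟨t, s, hR⟩
  have ht : t = (h s).choose := (h s).choose_spec.2 t hR
  subst ht
  rfl

/-- Orbit maps. -/
abbrev Orb (K : Subgroup G) {α : Type} (a : α) : Type :=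
  {o : G → α // o 1 = a ∧ ∀ g h, o g = o h ↔ g⁻¹ * h ∈ K}

/-- Pointed embeddings. -/
theorem card_emb {α β : Type} [Finite α] [Finite β] (a : α) (b : β) (n m : ℕ)
    (ha : Nat.card α = n + 1) (hb : Nat.card β = m + 1) :
    Nat.card {j : β ↪ α // j b = a} = n.descFactorial m := by
  classical
  have := Fintype.ofFinite α
  have := Fintype.ofFinite β
  have h1 : Nat.card (β ↪ α) = ∑ a', Nat.card {j : β ↪ α // j b = a'} :=
    card_fiber (fun (a' : α) (j : β ↪ α) => j b = a') fun j => ⟨j b, rfl, fun _ h => h.symm⟩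
  have h2 : ∀ a', Nat.card {j : β ↪ α // j b = a'} = Nat.card {j : β ↪ α // j b = a} := by
    intro a'
    refine Nat.card_congr ⟨fun j => ⟨j.1.trans (Equiv.swap a' a).toEmbedding, ?_⟩,
      fun j => ⟨j.1.trans (Equiv.swap a' a).toEmbedding, ?_⟩, fun j => ?_, fun j => ?_⟩
    · simp [j.2]
    · simp [j.2]
    · apply Subtype.ext
      ext x
      simp
    · apply Subtype.ext
      ext x
      simp
  rw [Finset.sum_congr rfl fun a' _ => h2 a', Finset.sum_const, Finset.card_univ,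
    smul_eq_mul, ← Nat.card_eq_fintype_card, Nat.card_eq_fintype_card (α := β ↪ α),
    Fintype.card_embedding_eq, ← Nat.card_eq_fintype_card, ← Nat.card_eq_fintype_card, ha, hb,
    Nat.succ_descFactorial_succ] at h1
  exact (Nat.eq_of_mul_eq_mul_left (Nat.succ_pos n) h1).symm

theorem card_Orb [Finite G] (K : Subgroup G) {α : Type} [Finite α] (a : α) (n m : ℕ)
    (ha : Nat.card α = n + 1) (hK : K.index = m + 1) :
    Nat.card (Orb K a) = n.descFactorial m := by
  rw [← card_emb a ((1 : G) : G ⧸ K) n m ha hK]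
  refine Nat.card_congr ⟨fun o => ⟨⟨Quotient.lift o.1 fun g h hgh => ?_, ?_⟩, ?_⟩,
    fun j => ⟨fun g => j.1 (g : G ⧸ K), ?_, fun g h => ?_⟩, fun o => ?_, fun j => ?_⟩
  · exact (o.2.2 g h).2 (QuotientGroup.leftRel_apply.1 hgh)
  · intro x y
    induction x using Quotient.inductionOn with
    | h x =>
      induction y using Quotient.inductionOn with
      | h y =>
        intro hxy
        exact Quotient.sound (QuotientGroup.leftRel_apply.2 ((o.2.2 x y).1 hxy))
  · exact o.2.1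
  · exact j.2
  · rw [j.1.injective.eq_iff, QuotientGroup.eq]
  · rfl
  · apply Subtype.ext
    ext x
    induction x using Quotient.inductionOn with
    | h x => rfl

section fib

variable {α : Type} (a : α) (K : Subgroup G) (o : Orb K a) (x : X)

/-- The structures with a given orbit of the base point. -/
abbrev Fib : Type := {s : St ξ α // s.1.2 a = x ∧ ∀ g, s.1.1 g a = o.1 g}

variable {a K o x}

theorem fib_orb (s : Fib ξ a K o x) (g h : G) : s.1.1.1 g (o.1 h) = o.1 (g * h) := by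
  rw [← s.2.2, ← s.2.2, map_mul]
  rfl

theorem fib_mem (s : Fib ξ a K o x) (g : G) (b : α) :
    b ∉ Set.range o.1 ↔ s.1.1.1 g b ∉ Set.range o.1 := by
  refine not_congr ⟨?_, ?_⟩
  · rintro ⟨h, rfl⟩
    exact ⟨g * h, (fib_orb ξ s g h).symm⟩
  · rintro ⟨h, hh⟩
    refine ⟨g⁻¹ * h, ?_⟩
    rw [← fib_orb ξ s, hh, ← Equiv.Perm.mul_apply, ← map_mul, inv_mul_cancel, map_one]
    rfl

/-- Restriction to the complement of the orbit. -/
def restr (s : Fib ξ a K o x) : St ξ {b // b ∉ Set.range o.1} :=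
  ⟨(MonoidHom.mk' (fun g => (s.1.1.1 g).subtypePerm fun b => (fib_mem ξ s g b).symm)
      fun g h => by
        ext b
        change s.1.1.1 (g * h) b = s.1.1.1 g (s.1.1.1 h b)
        rw [map_mul]
        rfl,
    fun b => s.1.1.2 b), fun g b => s.1.2 g b⟩

theorem restr_inj : Function.Injective (restr ξ (a := a) (K := K) (o := o) (x := x)) := by
  intro s t hst
  have h1 : ∀ g (b : {b // b ∉ Set.range o.1}), s.1.1.1 g b = t.1.1.1 g b := by
    intro g b
    have := congrArg (fun q => ((q.1.1 g b : {b // b ∉ Set.range o.1}) : α)) hst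
    exact this
  have h2 : ∀ (b : {b // b ∉ Set.range o.1}), s.1.1.2 b = t.1.1.2 b := by
    intro b
    exact congrArg (fun q => q.1.2 b) hst
  apply Subtype.ext
  apply Subtype.ext
  refine Prod.ext ?_ ?_
  · ext g b
    by_cases hb : b ∈ Set.range o.1
    · obtain ⟨h, rfl⟩ := hb
      rw [fib_orb, fib_orb]
    · exact h1 g ⟨b, hb⟩
  · funext b
    by_cases hb : b ∈ Set.range o.1
    · obtain ⟨h, rfl⟩ := hb
      rw [← s.2.2, s.1.2, s.2.1, s.2.2, ← t.2.2, t.1.2, t.2.1]
    · exact h2 ⟨b, hb⟩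

section ext

open Classical in
/-- The action extended to `α`. -/
noncomputable def act (q : St ξ {b // b ∉ Set.range o.1}) (g : G) (b : α) : α :=
  if h : b ∈ Set.range o.1 then o.1 (g * h.choose) else (q.1.1 g ⟨b, h⟩ : α)

variable (q : St ξ {b // b ∉ Set.range o.1})

theorem act_orb (g h : G) : act ξ q g (o.1 h) = o.1 (g * h) := by
  have hh : o.1 h ∈ Set.range o.1 := ⟨h, rfl⟩
  rw [act, dif_pos hh, o.2.2]
  have := (o.2.2 _ _).1 hh.choose_spec
  rwa [mul_inv_rev, mul_assoc, inv_mul_cancel_left]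

theorem act_compl (g : G) (b : {b // b ∉ Set.range o.1}) :
    act ξ q g b = (q.1.1 g b : α) := by
  rw [act, dif_neg b.2]

/-- The extended action. -/
noncomputable abbrev mact : MulAction G α where
  smul := act ξ q
  one_smul b := by
    change act ξ q 1 b = b
    by_cases hb : b ∈ Set.range o.1
    · obtain ⟨h, rfl⟩ := hb
      rw [act_orb, one_mul]
    · have := act_compl ξ q 1 ⟨b, hb⟩
      rw [this, map_one]
      rfl
  mul_smul g g' b := by
    change act ξ q (g * g') b = act ξ q g (act ξ q g' b)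
    by_cases hb : b ∈ Set.range o.1
    · obtain ⟨h, rfl⟩ := hb
      rw [act_orb, act_orb, act_orb, mul_assoc]
    · have h1 := act_compl ξ q (g * g') ⟨b, hb⟩
      have h2 := act_compl ξ q g' ⟨b, hb⟩
      dsimp only at h1 h2
      rw [h1, h2, act_compl, map_mul]
      rfl

open Classical in
/-- The map extended to `α`. -/
noncomputable def fx (x : X) (q : St ξ {b // b ∉ Set.range o.1}) (b : α) : X :=
  if h : b ∈ Set.range o.1 then ξ h.choose x else q.1.2 ⟨b, h⟩

theorem fx_orb (hx : ∀ g ∈ K, ξ g x = x) (h : G) : fx ξ x q (o.1 h) = ξ h x := by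
  have hh : o.1 h ∈ Set.range o.1 := ⟨h, rfl⟩
  rw [fx, dif_pos hh]
  have := hx _ ((o.2.2 _ _).1 hh.choose_spec)
  rw [map_mul, map_inv, Equiv.Perm.mul_apply, Equiv.Perm.inv_eq_iff_eq] at this
  exact this.symm

theorem fx_compl (x : X) (b : {b // b ∉ Set.range o.1}) : fx ξ x q b = q.1.2 b := by
  rw [fx, dif_neg b.2]

/-- The extended structure. -/
noncomputable def extd (hx : ∀ g ∈ K, ξ g x = x) : Fib ξ a K o x :=
  ⟨⟨((@MulAction.toPermHom G α _ (mact ξ q)), fx ξ x q), fun g b => by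
    change fx ξ x q (act ξ q g b) = ξ g (fx ξ x q b)
    by_cases hb : b ∈ Set.range o.1
    · obtain ⟨h, rfl⟩ := hb
      rw [act_orb, fx_orb ξ q hx, fx_orb ξ q hx, map_mul]
      rfl
    · have h1 := act_compl ξ q g ⟨b, hb⟩
      have h2 := fx_compl ξ q x ⟨b, hb⟩
      dsimp only at h1 h2
      rw [h1, h2, fx_compl]
      exact q.2 g ⟨b, hb⟩⟩, by
    constructor
    · change fx ξ x q a = x
      have h1 := congrArg (fx ξ x q) o.2.1
      rw [← h1, fx_orb ξ q hx, map_one]
      rfl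
    · intro g
      change act ξ q g a = o.1 g
      have h1 := congrArg (act ξ q g) o.2.1
      rw [← h1, act_orb, mul_one]⟩

theorem restr_extd (hx : ∀ g ∈ K, ξ g x = x) : restr ξ (extd ξ q hx) = q := by
  apply Subtype.ext
  refine Prod.ext ?_ ?_
  · ext g b
    exact act_compl ξ q g b
  · funext b
    exact fx_compl ξ q x b

end ext

theorem card_Fib [Finite α] [Finite G] (hx : ∀ g ∈ K, ξ g x = x) (n m : ℕ)
    (hα : Nat.card α = n + 1) (hK : K.index = m + 1) :
    Nat.card (Fib ξ a K o x) = homCount ξ (n - m) := by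
  rw [Nat.card_congr (Equiv.ofBijective (restr ξ)
    ⟨restr_inj ξ, fun q => ⟨extd ξ q hx, restr_extd ξ q hx⟩⟩), card_St]
  congr 1
  have h1 : Nat.card (Set.range o.1) = m + 1 := by
    rw [← hK, Subgroup.index]
    refine Nat.card_congr (Equiv.symm (Equiv.ofBijective (fun c : G ⧸ K =>
      (⟨Quotient.lift o.1 (fun g h hgh => (o.2.2 g h).2 (QuotientGroup.leftRel_apply.1 hgh)) c,
        by induction c using Quotient.inductionOn with
          | h c => exact ⟨c, rfl⟩⟩ : Set.range o.1)) ⟨?_, ?_⟩))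
    · intro x y
      induction x using Quotient.inductionOn with
      | h x =>
        induction y using Quotient.inductionOn with
        | h y =>
          intro hxy
          have hxy' : o.1 x = o.1 y := congrArg Subtype.val hxy
          exact Quotient.sound (QuotientGroup.leftRel_apply.2 ((o.2.2 x y).1 hxy'))
    · rintro ⟨_, g, rfl⟩
      exact ⟨(g : G ⧸ K), rfl⟩
  have h2 : Nat.card {b // b ∉ Set.range o.1} + Nat.card (Set.range o.1) = Nat.card α := by
    have := Fintype.ofFinite α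
    classical
    rw [Nat.card_eq_fintype_card, Nat.card_eq_fintype_card, Nat.card_eq_fintype_card]
    have := Fintype.card_subtype_compl (fun b => b ∈ Set.range o.1)
    have h3 := Fintype.card_subtype_le (fun b => b ∈ Set.range o.1)
    have h4 : Fintype.card {b // b ∉ Set.range o.1} =
      Fintype.card {b // ¬ (b ∈ Set.range o.1)} := rfl
    rw [h4, this]
    exact Nat.sub_add_cancel h3
  omega

end fib

theorem count [Finite G] [Finite X] (α : Type) [Finite α] (a : α) (n : ℕ)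
    (hα : Nat.card α = n + 1) [Fintype {q : Subgroup G × X // ∀ g ∈ q.1, ξ g q.2 = q.2}] :
    Nat.card (St ξ α) = ∑ q : {q : Subgroup G × X // ∀ g ∈ q.1, ξ g q.2 = q.2},
      n.descFactorial (q.1.1.index - 1) * homCount ξ (n - (q.1.1.index - 1)) := by
  classical
  have hfin : Finite (G →* Equiv.Perm α) := Finite.of_injective (fun f => (f : G → Equiv.Perm α))
    DFunLike.coe_injective
  have hfin' : Finite (St ξ α) := inferInstance
  rw [card_fiber (T := {q : Subgroup G × X // ∀ g ∈ q.1, ξ g q.2 = q.2})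
    (fun q (s : St ξ α) => s.1.2 a = q.1.2 ∧ ∀ g, g ∈ q.1.1 ↔ s.1.1 g a = a)]
  · refine Finset.sum_congr rfl fun q _ => ?_
    have hne : q.1.1.index ≠ 0 := Subgroup.index_ne_zero_of_finite
    obtain ⟨m, hm⟩ : ∃ m, q.1.1.index = m + 1 := ⟨q.1.1.index - 1, by omega⟩
    have hfo : Finite (Orb q.1.1 a) := inferInstance
    have := Fintype.ofFinite (Orb q.1.1 a)
    rw [card_fiber (T := Orb q.1.1 a) (fun o s => ∀ g, s.1.1.1 g a = o.1 g)]
    · have h1 : ∀ o : Orb q.1.1 a,
          Nat.card {s : {s : St ξ α // s.1.2 a = q.1.2 ∧ ∀ g, g ∈ q.1.1 ↔ s.1.1 g a = a} //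
            ∀ g, s.1.1.1 g a = o.1 g} = homCount ξ (n - m) := by
        intro o
        rw [← card_Fib ξ (a := a) (K := q.1.1) (o := o) (x := q.1.2) q.2 n m hα hm]
        refine Nat.card_congr ⟨fun s => ⟨s.1.1, s.1.2.1, s.2⟩,
          fun s => ⟨⟨s.1, s.2.1, fun g => ?_⟩, s.2.2⟩, fun s => rfl, fun s => rfl⟩
        have := o.2.2 1 g
        rw [inv_one, one_mul, o.2.1] at this
        rw [s.2.2 g, ← this, eq_comm]
      rw [Finset.sum_congr rfl fun o _ => h1 o, Finset.sum_const, Finset.card_univ, smul_eq_mul,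
        ← Nat.card_eq_fintype_card, card_Orb q.1.1 a n m hα hm, hm, Nat.add_sub_cancel]
    · intro s
      refine ⟨⟨fun g => s.1.1.1 g a, ?_, fun g h => ?_⟩, fun g => rfl, fun o ho => ?_⟩
      · change s.1.1.1 1 a = a
        rw [map_one]
        rfl
      · change s.1.1.1 g a = s.1.1.1 h a ↔ _
        rw [s.2.2, map_mul, map_inv, Equiv.Perm.mul_apply, Equiv.Perm.inv_eq_iff_eq, eq_comm]
      · apply Subtype.ext
        funext g
        exact (ho g).symm
  · intro s
    refine ⟨⟨(⟨⟨⟨{g | s.1.1 g a = a}, fun {g h} hg hh => ?_⟩, ?_⟩, fun {g} hg => ?_⟩, s.1.2 a),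
      fun g hg => ?_⟩, ⟨rfl, fun g => Iff.rfl⟩, fun q hq => ?_⟩
    · change s.1.1 (g * h) a = a
      have hg' : s.1.1 g a = a := hg
      have hh' : s.1.1 h a = a := hh
      rw [map_mul, Equiv.Perm.mul_apply, hh', hg']
    · change s.1.1 1 a = a
      rw [map_one]
      rfl
    · change s.1.1 g⁻¹ a = a
      have hg' : s.1.1 g a = a := hg
      rw [map_inv, Equiv.Perm.inv_eq_iff_eq, hg']
    · have hg' : s.1.1 g a = a := hg
      change ξ g (s.1.2 a) = s.1.2 a
      rw [← s.2, hg']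
    · apply Subtype.ext
      refine Prod.ext ?_ hq.1.symm
      ext g
      exact hq.2 g

end ExpFormulaAux

open ExpFormulaAux in
theorem homCount_zero {G X : Type} [Group G] (ξ : G →* Equiv.Perm X) : homCount ξ 0 = 1 := by
  have h : Unique {q : (G →* Equiv.Perm (Fin 0)) × (Fin 0 → X) //
      ∀ g a, q.2 (q.1 g a) = ξ g (q.2 a)} :=
    { default := ⟨(1, Fin.elim0), fun g a => a.elim0⟩
      uniq := fun q => by
        apply Subtype.ext
        refine Prod.ext ?_ ?_
        · ext g a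
          exact a.elim0
        · funext a
          exact a.elim0 }
  exact Nat.card_unique

open ExpFormulaAux in
theorem homCount_succ {G X : Type} [Group G] [Finite G] [Finite X] (ξ : G →* Equiv.Perm X)
    (n : ℕ) : homCount ξ (n + 1) = ∑ m ∈ Finset.range (n + 1),
      n.descFactorial m * fixSum ξ (m + 1) * homCount ξ (n - m) := by
  classical
  have hfin : Finite {q : Subgroup G × X // ∀ g ∈ q.1, ξ g q.2 = q.2} := inferInstance
  have := Fintype.ofFinite {q : Subgroup G × X // ∀ g ∈ q.1, ξ g q.2 = q.2}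
  have h0 : homCount ξ (n + 1) = Nat.card (St ξ (Fin (n + 1))) := rfl
  rw [h0, count ξ (Fin (n + 1)) 0 n (Nat.card_fin _)]
  have h1 : ∀ q : {q : Subgroup G × X // ∀ g ∈ q.1, ξ g q.2 = q.2},
      n.descFactorial (q.1.1.index - 1) * homCount ξ (n - (q.1.1.index - 1)) =
      ∑ m ∈ Finset.range (n + 1), if q.1.1.index = m + 1 then
        n.descFactorial m * homCount ξ (n - m) else 0 := by
    intro q
    have hne : q.1.1.index ≠ 0 := Subgroup.index_ne_zero_of_finite
    obtain ⟨m, hm⟩ : ∃ m, q.1.1.index = m + 1 := ⟨q.1.1.index - 1, by omega⟩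
    rw [hm, Nat.add_sub_cancel]
    by_cases hmn : m ≤ n
    · rw [Finset.sum_eq_single m]
      · rw [if_pos rfl]
      · intro b _ hb
        rw [if_neg]
        omega
      · intro hb
        exact absurd (Finset.mem_range.2 (Nat.lt_succ_of_le hmn)) hb
    · rw [Nat.descFactorial_of_lt (not_le.1 hmn), zero_mul]
      symm
      refine Finset.sum_eq_zero fun b hb => ?_
      rw [if_neg]
      have := Finset.mem_range.1 hb
      omega
  rw [Finset.sum_congr rfl fun q _ => h1 q, Finset.sum_comm]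
  refine Finset.sum_congr rfl fun m _ => ?_
  rw [← Finset.sum_filter, Finset.sum_const, smul_eq_mul]
  have h2 : fixSum ξ (m + 1) = (Finset.univ.filter fun q : {q : Subgroup G × X //
      ∀ g ∈ q.1, ξ g q.2 = q.2} => q.1.1.index = m + 1).card := by
    rw [fixSum, ← Fintype.card_subtype, ← Nat.card_eq_fintype_card]
    exact Nat.card_congr ⟨fun q => ⟨⟨q.1, q.2.2⟩, q.2.1⟩, fun q => ⟨q.1.1, q.2, q.1.2⟩,
      fun q => rfl, fun q => rfl⟩
  rw [← h2]
  ring

end Vale.Agent.P241.F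
end

section

set_option autoImplicit false

namespace Vale.Agent.P241.F

namespace IdxCongrAux

open Pointwise

/-- The action of `G` on `ι × (G ⧸ W)` through the second factor. -/
def act {G : Type} [Group G] (ι : Type) (W : Subgroup G) : G →* Equiv.Perm (ι × (G ⧸ W)) where
  toFun g := (Equiv.refl ι).prodCongr (MulAction.toPerm g)
  map_one' := Equiv.ext fun x => Prod.ext rfl (one_smul G x.2)
  map_mul' g h := Equiv.ext fun x => Prod.ext rfl (mul_smul g h x.2)

theorem act_apply {G : Type} [Group G] (ι : Type) (W : Subgroup G) (g : G) (x : ι × (G ⧸ W)) :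
    act ι W g x = (x.1, g • x.2) := rfl

theorem fix_iff {G : Type} [Group G] (ι : Type) (W K : Subgroup G) (x : ι × (G ⧸ W)) :
    (∀ g ∈ K, act ι W g x = x) ↔ (MulAut.conj (Quotient.out x.2)⁻¹ • K) ≤ W := by
  obtain ⟨i, y⟩ := x
  have hy : ((Quotient.out y : G) : G ⧸ W) = y := QuotientGroup.out_eq' y
  constructor
  · intro h g hg
    rw [Subgroup.mem_smul_pointwise_iff_exists] at hg
    obtain ⟨k, hk, rfl⟩ := hg
    have h1 := h k hk
    rw [act_apply] at h1
    have h2 : k • y = y := congrArg Prod.snd h1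
    rw [← hy] at h2
    have h3 : ((k * Quotient.out y : G) : G ⧸ W) = ((Quotient.out y : G) : G ⧸ W) := h2
    rw [eq_comm, QuotientGroup.eq] at h3
    simpa [MulAut.smul_def, MulAut.conj_apply, mul_assoc] using h3
  · intro h k hk
    rw [act_apply]
    refine Prod.ext rfl ?_
    show k • y = y
    rw [← hy]
    show ((k * Quotient.out y : G) : G ⧸ W) = ((Quotient.out y : G) : G ⧸ W)
    rw [eq_comm, QuotientGroup.eq]
    have h1 := h (Subgroup.smul_mem_pointwise_smul k (MulAut.conj (Quotient.out y)⁻¹) K hk)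
    simpa [MulAut.smul_def, MulAut.conj_apply, mul_assoc] using h1

theorem index_smul' {G : Type} [Group G] (K : Subgroup G) (g : G) :
    (MulAut.conj g • K).index = K.index := by
  exact Subgroup.index_map_of_bijective (MulAut.conj g).bijective K

theorem card_fix {G : Type} [Group G] [Finite G] (ι : Type) (p : ℕ)
    [Fact p.Prime] (W : Subgroup G) (w i : ℕ) (hW : W.index = p ^ w) :
    fixSum (act ι W) (p ^ (w + i)) = Nat.card ι * p ^ w * idxCount p W i := by
  have hp : 0 < p ^ w := pow_pos (Fact.out : p.Prime).pos w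
  have hrel : ∀ K : Subgroup G, K ≤ W → (K.relIndex W = p ^ i ↔ K.index = p ^ (w + i)) := by
    intro K hK
    have h := Subgroup.relIndex_mul_index hK
    rw [← h, hW, pow_add, mul_comm (p ^ w)]
    constructor
    · intro h1; rw [h1]
    · intro h1; exact Nat.eq_of_mul_eq_mul_right hp h1
  let e : {q : Subgroup G × (ι × (G ⧸ W)) // q.1.index = p ^ (w + i) ∧
      ∀ g ∈ q.1, act ι W g q.2 = q.2} ≃
      (ι × (G ⧸ W)) × {K : Subgroup G // K ≤ W ∧ K.relIndex W = p ^ i} :=
    { toFun := fun q => (q.1.2, ⟨MulAut.conj (Quotient.out q.1.2.2)⁻¹ • q.1.1, by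
        have h1 := (fix_iff ι W q.1.1 q.1.2).1 q.2.2
        refine ⟨h1, ?_⟩
        rw [hrel _ h1, index_smul', q.2.1]⟩)
      invFun := fun r => ⟨(MulAut.conj (Quotient.out r.1.2) • r.2.1, r.1), by
        have h1 := (hrel _ r.2.2.1).1 r.2.2.2
        refine ⟨by rw [index_smul', h1], ?_⟩
        rw [fix_iff]
        rw [smul_smul, ← map_mul, inv_mul_cancel, map_one, one_smul]
        exact r.2.2.1⟩
      left_inv := by
        rintro ⟨⟨K, x⟩, h⟩
        refine Subtype.ext (Prod.ext ?_ rfl)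
        show MulAut.conj (Quotient.out x.2) • MulAut.conj (Quotient.out x.2)⁻¹ • K = K
        rw [smul_smul, ← map_mul, mul_inv_cancel, map_one, one_smul]
      right_inv := by
        rintro ⟨x, ⟨K, h⟩⟩
        refine Prod.ext rfl (Subtype.ext ?_)
        show MulAut.conj (Quotient.out x.2)⁻¹ • MulAut.conj (Quotient.out x.2) • K = K
        rw [smul_smul, ← map_mul, inv_mul_cancel, map_one, one_smul] }
  unfold fixSum idxCount
  rw [Nat.card_congr e, Nat.card_prod, Nat.card_prod, ← hW]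
  rfl

theorem rat_rec {G X : Type} [Group G] [Finite G] [Finite X] (ξ : G →* Equiv.Perm X) (n : ℕ) :
    ((n + 1 : ℕ) : ℚ) * ((homCount ξ (n + 1) : ℚ) / ((n + 1).factorial : ℚ)) =
      ∑ m ∈ Finset.range (n + 1), (((fixSum ξ (m + 1) : ℕ) : ℤ) : ℚ) *
        ((homCount ξ (n - m) : ℚ) / ((n - m).factorial : ℚ)) := by
  have hn : (n.factorial : ℚ) ≠ 0 := by exact_mod_cast n.factorial_ne_zero
  have hn1 : ((n + 1 : ℕ) : ℚ) ≠ 0 := by exact_mod_cast Nat.succ_ne_zero n
  have h1 : ((n + 1 : ℕ) : ℚ) * ((homCount ξ (n + 1) : ℚ) / ((n + 1).factorial : ℚ)) =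
      (homCount ξ (n + 1) : ℚ) / (n.factorial : ℚ) := by
    rw [Nat.factorial_succ, Nat.cast_mul]
    field_simp
  rw [h1, homCount_succ]
  rw [Nat.cast_sum, Finset.sum_div]
  refine Finset.sum_congr rfl fun m hm => ?_
  have hm' : m ≤ n := Nat.lt_succ_iff.1 (Finset.mem_range.1 hm)
  have hnm : ((n - m).factorial : ℚ) ≠ 0 := by exact_mod_cast (n - m).factorial_ne_zero
  have h2 : ((n - m).factorial : ℚ) * (n.descFactorial m : ℚ) = (n.factorial : ℚ) := by
    exact_mod_cast Nat.factorial_mul_descFactorial hm'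
  push_cast
  rw [← h2]
  have h3 : (n.descFactorial m : ℚ) ≠ 0 := by
    intro h0
    rw [h0, mul_zero] at h2
    exact hn h2.symm
  field_simp

end IdxCongrAux

open IdxCongrAux

theorem idx_congr (p : ℕ) [Fact p.Prime] {G : Type} [Group G] [Finite G] (b j : ℕ)
    (hI : ∀ n ≤ p ^ (b + 1 + j), IntCong p G n) (U V : Subgroup G) (hVU : V ≤ U)
    (hU : U.index = p ^ b) (hV : V.relIndex U = p) :
    idxCount p U (j + 1) ≡ idxCount p V j [MOD p ^ (j + 1)] := by
  have hp : p.Prime := Fact.out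
  have hV' : V.index = p ^ (b + 1) := by
    rw [← Subgroup.relIndex_mul_index hVU, hV, hU, pow_succ, mul_comm]
  set k := b + 1 + j with hk
  let ξ := act (Fin p) U
  let ξ' := act (Fin 1) V
  have hcard : Nat.card (Fin p × (G ⧸ U)) = Nat.card (Fin 1 × (G ⧸ V)) := by
    rw [Nat.card_prod, Nat.card_prod]
    have h1 : Nat.card (G ⧸ U) = p ^ b := hU
    have h2 : Nat.card (G ⧸ V) = p ^ (b + 1) := hV'
    rw [h1, h2]
    simp [pow_succ, mul_comm]
  have key := ps_lemma p k (fun n => (homCount ξ n : ℚ) / (n.factorial : ℚ))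
    (fun n => (homCount ξ' n : ℚ) / (n.factorial : ℚ)) (fun m => (fixSum ξ m : ℤ))
    (fun m => (fixSum ξ' m : ℤ)) (by simp [homCount_zero]) (by simp [homCount_zero])
    (fun n _ => rat_rec ξ n) (fun n _ => rat_rec ξ' n) (by
      intro n hn
      obtain ⟨B, hB1, hB2, hB3⟩ := hI n hn _ _ ξ ξ' hcard
      obtain ⟨u, hu⟩ := hB2
      obtain ⟨v, hv⟩ := hB3
      have hn0 : (n.factorial : ℚ) ≠ 0 := by exact_mod_cast n.factorial_ne_zero
      refine ⟨B, u, v, by exact_mod_cast hB1, ?_, ?_⟩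
      · have : (B : ℚ) * (homCount ξ n : ℚ) = (n.factorial : ℚ) * u := by exact_mod_cast hu
        push_cast
        rw [← mul_div_assoc, this]
        field_simp
      · have : (B : ℚ) * ((homCount ξ n : ℚ) - (homCount ξ' n : ℚ)) =
            (p : ℚ) * (n.factorial : ℚ) * v := by exact_mod_cast hv
        push_cast
        rw [← sub_div, ← mul_div_assoc, this]
        field_simp)
  have hc1 : fixSum ξ (p ^ k) = p * p ^ b * idxCount p U (j + 1) := by
    have := card_fix (Fin p) p U b (j + 1) hU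
    rw [show b + (j + 1) = k by omega] at this
    simpa using this
  have hc2 : fixSum ξ' (p ^ k) = p ^ (b + 1) * idxCount p V j := by
    have := card_fix (Fin 1) p V (b + 1) j hV'
    simpa using this
  rw [hc1, hc2] at key
  have key2 : ((p : ℤ) ^ (b + 1)) * (p : ℤ) ^ (j + 1) ∣
      (p : ℤ) ^ (b + 1) * ((idxCount p U (j + 1) : ℤ) - (idxCount p V j : ℤ)) := by
    have e1 : ((p : ℤ) ^ (b + 1)) * (p : ℤ) ^ (j + 1) = (p : ℤ) ^ (k + 1) := by
      rw [← pow_add, show b + 1 + (j + 1) = k + 1 by omega]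
    have e2 : (p : ℤ) ^ (b + 1) * ((idxCount p U (j + 1) : ℤ) - (idxCount p V j : ℤ)) =
        ((p * p ^ b * idxCount p U (j + 1) : ℕ) : ℤ) - ((p ^ (b + 1) * idxCount p V j : ℕ) : ℤ) := by
      push_cast; ring
    rw [e1, e2]
    exact key
  have hpb : (p : ℤ) ^ (b + 1) ≠ 0 := pow_ne_zero _ (by exact_mod_cast hp.ne_zero)
  have key3 := Int.dvd_of_mul_dvd_mul_left hpb key2
  exact ((Nat.modEq_iff_dvd.2 (by exact_mod_cast key3)) : idxCount p V j ≡ idxCount p U (j + 1)
    [MOD p ^ (j + 1)]).symm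

end Vale.Agent.P241.F
end

section

set_option autoImplicit false

namespace Vale.Agent.P241.F

namespace GammaAux

variable {p : ℕ} [Fact p.Prime]

/-- Homomorphisms from a `p`-group are conjugate to homomorphisms into a Sylow subgroup. -/
theorem exists_conj_hom {H S : Type} [Group H] [Group S] [Finite S] (hH : IsPGroup p H)
    (P : Sylow p S) (ρ : H →* S) : ∃ f : H →* P, ∀ h, f h = 1 ↔ ρ h = 1 := by
  obtain ⟨x, hx⟩ := HomSylowAux.exists_inP hH P ρ
  have h1 : ∀ h, ((MulAut.conj x⁻¹).toMonoidHom.comp ρ) h = x⁻¹ * ρ h * x := by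
    intro h
    rw [MonoidHom.comp_apply, MulEquiv.coe_toMonoidHom, MulAut.conj_apply, inv_inv]
  refine ⟨((MulAut.conj x⁻¹).toMonoidHom.comp ρ).codRestrict (P : Subgroup S) fun h => ?_,
    fun h => ?_⟩
  · rw [h1]; exact hx h
  · rw [Subtype.ext_iff]
    change ((MulAut.conj x⁻¹).toMonoidHom.comp ρ) h = 1 ↔ ρ h = 1
    rw [h1]
    constructor
    · intro h2
      have h3 : ρ h = x * (x⁻¹ * ρ h * x) * x⁻¹ := by group
      rw [h3, h2]
      group
    · intro h2
      rw [h2]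
      group

/-- The Sylow subgroups of the symmetric groups. -/
abbrev Syl (p : ℕ) (n : ℕ) : Type := ((default : Sylow p (Equiv.Perm (Fin n))) :
  Subgroup (Equiv.Perm (Fin n)))

/-- The test groups. -/
abbrev Test (p : ℕ) (n : ℕ) : Type := Syl p n × Multiplicative (ZMod (p ^ n))

theorem test_pGroup (n : ℕ) : IsPGroup p (Test p n) := by
  obtain ⟨a, ha⟩ := IsPGroup.iff_card.1 (default : Sylow p (Equiv.Perm (Fin n))).2
  refine IsPGroup.of_card (n := a + n) ?_
  rw [Nat.card_prod, pow_add]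
  congr 1
  rw [Nat.card_congr Multiplicative.toAdd, Nat.card_zmod]

/-- Smaller symmetric groups. -/
theorem exists_embed {n i : ℕ} (h : n ≤ i) (P : Sylow p (Equiv.Perm (Fin n))) :
    ∃ f : P →* Test p i, Function.Injective f := by
  obtain ⟨f, hf⟩ := exists_conj_hom P.2 (default : Sylow p (Equiv.Perm (Fin i)))
    ((Equiv.Perm.viaEmbeddingHom (Fin.castLEEmb h)).comp (P : Subgroup (Equiv.Perm (Fin n))).subtype)
  refine ⟨(MonoidHom.inl _ _).comp f, ?_⟩
  rw [injective_iff_map_eq_one]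
  intro x hx
  have h1 : f x = 1 := (Prod.ext_iff.1 hx).1
  rw [hf, MonoidHom.comp_apply] at h1
  have h2 := Equiv.Perm.viaEmbeddingHom_injective (Fin.castLEEmb h)
    (h1.trans (map_one _).symm)
  exact Subtype.ext h2

/-- Groups which are not dead. -/
structure Alive (T : Tel p) where
  G : FiniteGrp.{0}
  pG : IsPGroup p G
  al : ¬ T.Dead G

theorem exists_tower (T : Tel p) {t : ℕ} (hT : RankBound T t)
    {G₀ : FiniteGrp.{0}} (hG : IsPGroup p G₀) (hA : ¬ T.Dead G₀) :
    ∃ A : ℕ → Alive T, (A 0).G = G₀ ∧ ∀ i, Sat T (A (i + 1)).G (Test p i) ∧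
      ∃ π : (A (i + 1)).G →* (A i).G, Function.Surjective π := by
  have h1 : ∀ (i : ℕ) (A : Alive T), ∃ B : Alive T, Sat T B.G (Test p i) ∧
      ∃ π : B.G →* A.G, Function.Surjective π := by
    intro i A
    obtain ⟨G, h1, h2, h3, h4⟩ := exists_sat T hT A.pG A.al (Test p i) (test_pGroup i)
    exact ⟨⟨G, h1, h2⟩, h3, h4⟩
  choose next hn using h1
  exact ⟨fun n => Nat.rec ⟨G₀, hG, hA⟩ (fun i A => next i A) n, rfl, fun i => hn i _⟩

/-! ### Subgroups and quotients -/

section quot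

variable {Γ : Type} [Group Γ]

theorem comap_map_of_le {G : Type} [Group G] (f : Γ →* G) (U : Subgroup Γ) (h : f.ker ≤ U) :
    (U.map f).comap f = U := by
  rw [Subgroup.comap_map_eq, sup_eq_left.2 h]

theorem relIndex_map {G : Type} [Group G] (f : Γ →* G) (U V : Subgroup Γ) (h : f.ker ≤ V) :
    (V.map f).relIndex (U.map f) = V.relIndex U := by
  conv_rhs => rw [← comap_map_of_le f V h]
  rw [Subgroup.relIndex_comap]

omit [Fact p.Prime] in
theorem elemAb_map {G : Type} [Group G] (f : Γ →* G) {U V : Subgroup Γ} (h : ElemAb p V U) :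
    ElemAb p (V.map f) (U.map f) := by
  obtain ⟨h1, h2, h3⟩ := h
  refine ⟨Subgroup.map_mono h1, ?_, ?_⟩
  · rintro _ ⟨x, hx, rfl⟩
    exact ⟨x ^ p, h2 x hx, map_pow f x p⟩
  · rintro _ ⟨x, hx, rfl⟩ _ ⟨y, hy, rfl⟩
    exact ⟨x * y * x⁻¹ * y⁻¹, h3 x hx y hy, by simp⟩

/-- The number of homomorphisms to a field is at most the order. -/
theorem card_hom_le (H : Type) [Group H] [Finite H] :
    Nat.card (H →* ℂ) ≤ Nat.card H := by
  have h1 := linearIndependent_monoidHom H ℂ
  have hfin : Finite (H →* ℂ) := h1.finite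
  have : Fintype (H →* ℂ) := Fintype.ofFinite _
  have : Fintype H := Fintype.ofFinite _
  have h2 := h1.fintype_card_le_finrank
  rw [Module.finrank_fintype_fun_eq_card] at h2
  rw [Nat.card_eq_fintype_card, Nat.card_eq_fintype_card]
  exact h2

end quot

/-! ### Cyclic quotients -/

/-- The homomorphisms with values in the `p ^ a`-torsion. -/
def torHom (p : ℕ) (G C : Type) [Group G] [CommGroup C] (a : ℕ) : Set (G →* C) :=
  {ρ | ∀ g, ρ g ^ p ^ a = 1}

/-- The common kernel. -/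
def torKer (p : ℕ) (G C : Type) [Group G] [CommGroup C] (a : ℕ) : Subgroup G :=
  ⨅ ρ ∈ torHom p G C a, MonoidHom.ker ρ

omit [Fact p.Prime] in
theorem mem_torKer {G C : Type} [Group G] [CommGroup C] (a : ℕ) (g : G) :
    g ∈ torKer p G C a ↔ ∀ ρ ∈ torHom p G C a, ρ g = 1 := by
  simp [torKer, Subgroup.mem_iInf, MonoidHom.mem_ker]

theorem torKer_elemAb {G C : Type} [Group G] [CommGroup C] (a : ℕ) :
    ElemAb p (torKer p G C (a + 1)) (torKer p G C a) := by
  refine ⟨fun g hg => ?_, fun x hx => ?_, fun x _ y _ => ?_⟩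
  · rw [mem_torKer] at hg ⊢
    intro ρ hρ
    refine hg ρ fun g => ?_
    rw [pow_succ, pow_mul, hρ g, one_pow]
  · rw [mem_torKer] at hx ⊢
    intro ρ hρ
    rw [map_pow]
    refine hx (ρ ^ p) fun g => ?_
    rw [MonoidHom.pow_apply, ← pow_mul, ← pow_succ']
    exact hρ g
  · rw [mem_torKer]
    intro ρ _
    simp

theorem torKer_zero {G C : Type} [Group G] [CommGroup C] : torKer p G C 0 = ⊤ := by
  rw [eq_top_iff]
  intro g _
  rw [mem_torKer]
  intro ρ hρ
  have := hρ g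
  rwa [pow_zero, pow_one] at this

theorem index_torKer_le {G C : Type} [Group G] [CommGroup C] {t : ℕ}
    (h : ∀ U V : Subgroup G, ElemAb p V U → V.relIndex U ≤ p ^ t) (a : ℕ) :
    (torKer p G C a).index ≤ p ^ (a * t) := by
  induction a with
  | zero => rw [torKer_zero, Subgroup.index_top, zero_mul, pow_zero]
  | succ a ih =>
    have h1 := torKer_elemAb (p := p) (G := G) (C := C) a
    rw [← Subgroup.relIndex_mul_index h1.1, add_mul, one_mul, pow_add, mul_comm]
    exact Nat.mul_le_mul ih (h _ _ h1)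

theorem finite_hom (H : Type) [Group H] [Finite H] : Finite (H →* ℂ) :=
  (linearIndependent_monoidHom H ℂ).finite

theorem torKer_normal {G C : Type} [Group G] [CommGroup C] (a : ℕ) :
    (torKer p G C a).Normal := by
  refine ⟨fun x hx g => ?_⟩
  rw [mem_torKer] at hx ⊢
  intro ρ hρ
  rw [map_mul, map_mul, hx ρ hρ, mul_one, map_inv, mul_inv_cancel]

theorem exists_injective_hom (M : ℕ) :
    ∃ f : Multiplicative (ZMod (p ^ M)) →* ℂ, Function.Injective f :=
  ⟨(ZMod.stdAddChar (N := p ^ M)).toMonoidHom, fun _ _ h =>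
    ZMod.injective_stdAddChar (N := p ^ M) h⟩

theorem card_torHom_le {G : Type} [Group G] [Finite G] (M a : ℕ) :
    Nat.card (torHom p G (Multiplicative (ZMod (p ^ M))) a) ≤
      (torKer p G (Multiplicative (ZMod (p ^ M))) a).index := by
  obtain ⟨f, hf⟩ := exists_injective_hom (p := p) M
  have hN := torKer_normal (p := p) (G := G) (C := Multiplicative (ZMod (p ^ M))) a
  have hle : ∀ ρ : torHom p G (Multiplicative (ZMod (p ^ M))) a,
      ∀ g ∈ torKer p G (Multiplicative (ZMod (p ^ M))) a, ρ.1 g = 1 := by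
    intro ρ g hg
    exact (mem_torKer a g).1 hg ρ.1 ρ.2
  have hfin := finite_hom (G ⧸ torKer p G (Multiplicative (ZMod (p ^ M))) a)
  refine (Nat.card_le_card_of_injective (fun ρ => f.comp (QuotientGroup.lift _ ρ.1 (hle ρ))) ?_).trans
    (card_hom_le _)
  intro ρ ρ' h
  apply Subtype.ext
  ext1 g
  have h1 := DFunLike.congr_fun h (g : G ⧸ torKer p G (Multiplicative (ZMod (p ^ M))) a)
  exact hf h1

/-- Cyclic quotients from a homomorphism. -/
theorem exists_quotient {Γ C : Type} [Group Γ] [CommGroup C] [IsCyclic C] [Finite C]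
    (hC : IsPGroup p C) (ρ : Γ →* C) (m : ℕ) (h : ∃ g, ρ g ^ p ^ m ≠ 1) :
    ∃ N : Subgroup Γ, ρ.ker ≤ N ∧ ∃ _ : N.Normal, IsCyclic (Γ ⧸ N) ∧ N.index = p ^ (m + 1) := by
  obtain ⟨⟨_, g₀, rfl⟩, hr⟩ := IsCyclic.exists_generator (α := ρ.range)
  have hr' : ∀ x, ∃ k : ℤ, ρ g₀ ^ k = ρ x := by
    intro x
    obtain ⟨k, hk⟩ := hr ⟨ρ x, x, rfl⟩
    exact ⟨k, congrArg Subtype.val hk⟩
  obtain ⟨a, ha⟩ := IsPGroup.iff_orderOf.1 hC (ρ g₀)
  have ham : m < a := by
    by_contra hcon
    obtain ⟨g, hg⟩ := h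
    obtain ⟨k, hk⟩ := hr' g
    apply hg
    rw [← hk, ← zpow_natCast, ← zpow_mul, mul_comm, zpow_mul, zpow_natCast]
    have : ρ g₀ ^ p ^ m = 1 := by
      rw [← orderOf_dvd_iff_pow_eq_one, ha]
      exact pow_dvd_pow p (by omega)
    rw [this, one_zpow]
  obtain ⟨c, rfl⟩ : ∃ c, a = m + 1 + c := ⟨a - (m + 1), by omega⟩
  obtain ⟨ρ₂, hρ₂⟩ : ∃ ρ₂ : Γ →* C, ∀ x, ρ₂ x = ρ x ^ p ^ c :=
    ⟨(powMonoidHom (p ^ c)).comp ρ, fun x => rfl⟩
  refine ⟨ρ₂.ker, fun x hx => ?_, inferInstance, ?_, ?_⟩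
  · rw [MonoidHom.mem_ker] at hx ⊢
    rw [hρ₂, hx, one_pow]
  · exact isCyclic_of_injective (QuotientGroup.kerLift ρ₂) (QuotientGroup.kerLift_injective ρ₂)
  · rw [Subgroup.index_ker]
    have h1 : ρ₂.range = Subgroup.zpowers (ρ₂ g₀) := by
      apply le_antisymm
      · rintro _ ⟨x, rfl⟩
        obtain ⟨k, hk⟩ := hr' x
        refine ⟨k, ?_⟩
        simp only
        rw [hρ₂, hρ₂, ← hk, ← zpow_natCast, ← zpow_natCast, ← zpow_mul, ← zpow_mul, mul_comm]
      · rw [Subgroup.zpowers_le]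
        exact ⟨g₀, rfl⟩
    rw [h1, Nat.card_zpowers, hρ₂, orderOf_pow_of_dvd (pow_ne_zero _ (Fact.out : p.Prime).ne_zero),
      ha, pow_add, Nat.mul_div_cancel _ (pow_pos (Fact.out : p.Prime).pos _)]
    rw [ha]
    exact pow_dvd_pow p (by omega)

/-! ### The tower -/

section tower

variable {T : Tel p} {A : ℕ → Alive T} {Γ : Type} [Group Γ] {pr : ∀ i, Γ →* (A i).G}

theorem ker_anti (π : ∀ i, (A (i + 1)).G →* (A i).G) (hpr : ∀ i x, π i (pr (i + 1) x) = pr i x)
    {i j : ℕ} (h : i ≤ j) : (pr j).ker ≤ (pr i).ker := by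
  induction j, h using Nat.le_induction with
  | base => exact le_rfl
  | succ j _ ih =>
    refine le_trans (fun x hx => ?_) ih
    rw [MonoidHom.mem_ker] at hx ⊢
    rw [← hpr, hx, map_one]

theorem factor (hanti : ∀ i j, i ≤ j → (pr j).ker ≤ (pr i).ker)
    (hs : ∀ i, Function.Surjective (pr i)) {Q : Type} [Group Q] [Finite Q] (i : ℕ)
    (hQ : Sat T (A i).G Q) (ρ : Γ →* Q) (j : ℕ) (hj : (pr j).ker ≤ ρ.ker) :
    (pr i).ker ≤ ρ.ker := by
  obtain ⟨l, hil, hjl⟩ : ∃ l, i ≤ l ∧ j ≤ l := ⟨max i j, le_max_left _ _, le_max_right _ _⟩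
  have h1 : (pr l).ker ≤ ρ.ker := (hanti j l hjl).trans hj
  obtain ⟨ρ', hρ'⟩ : ∃ ρ' : (A l).G →* Q, ∀ x, ρ' (pr l x) = ρ x :=
    ⟨(pr l).liftOfSurjective (hs l) ⟨ρ, h1⟩, fun x =>
      MonoidHom.liftOfRightInverse_comp_apply _ _ _ ⟨ρ, h1⟩ x⟩
  obtain ⟨π', hπ'⟩ : ∃ π' : (A l).G →* (A i).G, ∀ x, π' (pr l x) = pr i x :=
    ⟨(pr l).liftOfSurjective (hs l) ⟨pr i, hanti i l hil⟩, fun x =>
      MonoidHom.liftOfRightInverse_comp_apply _ _ _ ⟨pr i, hanti i l hil⟩ x⟩
  have hsur : Function.Surjective π' := by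
    intro y
    obtain ⟨x, rfl⟩ := hs i y
    exact ⟨pr l x, hπ' x⟩
  intro x hx
  rw [MonoidHom.mem_ker] at hx ⊢
  rw [← hρ']
  exact Sat.factor T hQ (A l).al π' hsur ρ' _ ((hπ' x).trans hx)

theorem perm_factor (hA : ∀ i, Sat T (A (i + 1)).G (Test p i))
    (hanti : ∀ i j, i ≤ j → (pr j).ker ≤ (pr i).ker)
    (hs : ∀ i, Function.Surjective (pr i)) {n i : ℕ} (hn : n < i) (ρ : Γ →* Equiv.Perm (Fin n))
    (j : ℕ) (hj : (pr j).ker ≤ ρ.ker) : (pr i).ker ≤ ρ.ker := by
  obtain ⟨ρ', hρ'⟩ : ∃ ρ' : (A j).G →* Equiv.Perm (Fin n), ∀ x, ρ' (pr j x) = ρ x :=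
    ⟨(pr j).liftOfSurjective (hs j) ⟨ρ, hj⟩, fun x =>
      MonoidHom.liftOfRightInverse_comp_apply _ _ _ ⟨ρ, hj⟩ x⟩
  obtain ⟨f, hf⟩ := exists_conj_hom (A j).pG (default : Sylow p (Equiv.Perm (Fin n))) ρ'
  obtain ⟨i, rfl⟩ : ∃ i', i = i' + 1 := ⟨i - 1, by omega⟩
  obtain ⟨e, he⟩ := exists_embed (show n ≤ i by omega) (default : Sylow p (Equiv.Perm (Fin n)))
  have h1 := factor hanti hs (i + 1) (Sat.mono T (hA i) e he) (f.comp (pr j)) j (fun x hx => by
    rw [MonoidHom.mem_ker] at hx ⊢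
    rw [MonoidHom.comp_apply, hx, map_one])
  intro x hx
  have h2 := h1 hx
  rw [MonoidHom.mem_ker, MonoidHom.comp_apply, hf, hρ'] at h2
  exact h2

theorem le_of_index (hA : ∀ i, Sat T (A (i + 1)).G (Test p i))
    (hanti : ∀ i j, i ≤ j → (pr j).ker ≤ (pr i).ker)
    (hs : ∀ i, Function.Surjective (pr i)) {K : Subgroup Γ} (j : ℕ) (hj : (pr j).ker ≤ K) {i : ℕ}
    (hi : K.index < i) (hK : K.index ≠ 0) : (pr i).ker ≤ K := by
  have : Finite (Γ ⧸ K) := Nat.finite_of_card_ne_zero hK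
  obtain ⟨e⟩ : Nonempty (Γ ⧸ K ≃ Fin K.index) := ⟨Finite.equivFinOfCardEq rfl⟩
  have h1 : (e.permCongrHom.toMonoidHom.comp (MulAction.toPermHom Γ (Γ ⧸ K))).ker =
      K.normalCore := by
    rw [Subgroup.normalCore_eq_ker]
    ext x
    simp only [MonoidHom.mem_ker, MonoidHom.comp_apply]
    exact map_eq_one_iff e.permCongrHom.toMonoidHom e.permCongrHom.injective
  have h2 := perm_factor hA hanti hs hi
    (e.permCongrHom.toMonoidHom.comp (MulAction.toPermHom Γ (Γ ⧸ K))) j (by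
      rw [h1]
      exact Subgroup.normal_le_normalCore.2 hj)
  rw [h1] at h2
  exact h2.trans K.normalCore_le

/-- Subgroups of `Γ × 1` and of the finite quotient. -/
theorem cnt_eq [TopologicalSpace Γ] [NonarchimedeanGroup Γ]
    (hA : ∀ i, Sat T (A (i + 1)).G (Test p i))
    (hanti : ∀ i j, i ≤ j → (pr j).ker ≤ (pr i).ker)
    (hs : ∀ i, Function.Surjective (pr i)) (ho : ∀ i, IsOpen ((pr i).ker : Set Γ))
    (hU : ∀ U : Subgroup Γ, IsOpen (U : Set Γ) → ∃ i, (pr i).ker ≤ U)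
    {W : Subgroup Γ} {i s b : ℕ} (hW : (pr i).ker ≤ W) (hb : W.index = p ^ b)
    (hi : p ^ (b + s) < i) : cnt p PUnit W s = idxCount p (W.map (pr i)) s := by
  have hp0 : p ≠ 0 := (Fact.out : p.Prime).ne_zero
  have hfst : Function.Surjective (MonoidHom.fst Γ PUnit.{1}) := fun x => ⟨(x, PUnit.unit), rfl⟩
  have hcomp : Function.Surjective ((pr i).comp (MonoidHom.fst Γ PUnit.{1})) :=
    (hs i).comp hfst
  have hprod : W.prod (⊤ : Subgroup PUnit.{1}) = W.comap (MonoidHom.fst Γ PUnit.{1}) := by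
    ext x
    simp [Subgroup.mem_prod]
  have hmapW : (W.comap (MonoidHom.fst Γ PUnit.{1})).map (MonoidHom.fst Γ PUnit.{1}) = W :=
    Subgroup.map_comap_eq_self_of_surjective hfst W
  have hWc : (W.map (pr i)).comap (pr i) = W := comap_map_of_le _ W hW
  symm
  unfold cnt idxCount
  refine Nat.card_congr (Equiv.ofBijective (fun K => ⟨K.1.comap ((pr i).comp
    (MonoidHom.fst Γ PUnit.{1})), ?_, ?_, ?_⟩) ⟨?_, ?_⟩)
  · rw [hprod, ← Subgroup.comap_comap]
    apply Subgroup.comap_mono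
    exact (Subgroup.comap_mono K.2.1).trans hWc.le
  · rw [hprod, Subgroup.relIndex_comap, ← Subgroup.map_map, hmapW]
    exact K.2.2
  · refine Subgroup.isOpen_mono (H₁ := (pr i).ker) ?_ (ho i)
    intro x hx
    rw [MonoidHom.mem_ker] at hx
    rw [Subgroup.mem_comap, Subgroup.mem_comap, MonoidHom.comp_apply]
    change pr i x ∈ K.1
    rw [hx]
    exact one_mem _
  · intro K K' h
    apply Subtype.ext
    exact Subgroup.comap_injective hcomp (congrArg Subtype.val h)
  · rintro ⟨K, h1, h2, h3⟩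
    obtain ⟨K₀, hK₀⟩ : ∃ K₀ : Subgroup Γ, K₀ = K.comap (MonoidHom.inl Γ PUnit.{1}) := ⟨_, rfl⟩
    have hK : K = K₀.comap (MonoidHom.fst Γ PUnit.{1}) := by
      ext x
      rw [hK₀, Subgroup.mem_comap, Subgroup.mem_comap]
      rfl
    have h4 : K₀ ≤ W := by
      intro x hx
      have h5 : (x, PUnit.unit) ∈ K := by
        rw [hK]
        exact hx
      exact (Subgroup.mem_prod.1 (h1 h5)).1
    have h5 : K₀.relIndex W = p ^ s := by
      rw [hK, hprod, Subgroup.relIndex_comap, hmapW] at h2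
      exact h2
    have h6 : K₀.index = p ^ (b + s) := by
      rw [← Subgroup.relIndex_mul_index h4, h5, hb, ← pow_add, add_comm]
    obtain ⟨j, hj⟩ := hU K₀ (by rw [hK₀]; exact h3)
    have h7 : (pr i).ker ≤ K₀ := le_of_index hA hanti hs j hj (by rw [h6]; exact hi)
      (by rw [h6]; exact pow_ne_zero _ hp0)
    refine ⟨⟨K₀.map (pr i), Subgroup.map_mono h4, ?_⟩, ?_⟩
    · rw [relIndex_map _ _ _ h7, h5]
    · apply Subtype.ext
      change (K₀.map (pr i)).comap ((pr i).comp (MonoidHom.fst Γ PUnit.{1})) = K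
      rw [← Subgroup.comap_comap, comap_map_of_le _ _ h7, ← hK]

theorem qp_aux [TopologicalSpace Γ] [NonarchimedeanGroup Γ]
    (hA : ∀ i, Sat T (A (i + 1)).G (Test p i))
    (hanti : ∀ i j, i ≤ j → (pr j).ker ≤ (pr i).ker)
    (hs : ∀ i, Function.Surjective (pr i)) (ho : ∀ i, IsOpen ((pr i).ker : Set Γ))
    (hU : ∀ U : Subgroup Γ, IsOpen (U : Set Γ) → ∃ i, (pr i).ker ≤ U)
    (hP : ProP p Γ) : QP p Γ PUnit := by
  intro U V hV hVU hUV j
  obtain ⟨b, hb⟩ := hP U (Subgroup.isOpen_mono hVU hV)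
  obtain ⟨i₀, hi₀⟩ := hU V hV
  obtain ⟨i, hi1, hi2⟩ : ∃ i, i₀ ≤ i + 1 ∧ p ^ (b + 1 + j) < i + 1 :=
    ⟨max i₀ (p ^ (b + 1 + j)), (le_max_left _ _).trans (Nat.le_succ _),
      Nat.lt_succ_of_le (le_max_right _ _)⟩
  have hkV : (pr (i + 1)).ker ≤ V := (hanti _ _ hi1).trans hi₀
  have hkU : (pr (i + 1)).ker ≤ U := hkV.trans hVU
  have hVi : V.index = p ^ (b + 1) := by
    rw [← Subgroup.relIndex_mul_index hVU, hUV, hb, pow_succ']
  rw [cnt_eq hA hanti hs ho hU hkU hb (s := j + 1) (by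
      have : b + (j + 1) = b + 1 + j := by ring
      rw [this]; exact hi2),
    cnt_eq hA hanti hs ho hU hkV hVi (s := j) hi2]
  refine idx_congr p b j (fun n hn => ?_) (U.map (pr (i + 1))) (V.map (pr (i + 1)))
    (Subgroup.map_mono hVU) ?_ ?_
  · obtain ⟨f, hf⟩ := exists_embed (show n ≤ i by omega) (default : Sylow p (Equiv.Perm (Fin n)))
    exact intCong_of_sat T (A (i + 1)).pG (A (i + 1)).al n default (Sat.mono T (hA i) f hf)
  · rw [Subgroup.index_map_eq _ (hs _) hkU, hb]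
  · rw [relIndex_map _ _ _ hkV, hUV]

theorem cycQ_aux [TopologicalSpace Γ] [NonarchimedeanGroup Γ] {t : ℕ} (hT : RankBound T t)
    (hA : ∀ i, Sat T (A (i + 1)).G (Test p i))
    (hs : ∀ i, Function.Surjective (pr i)) (ho : ∀ i, IsOpen ((pr i).ker : Set Γ)) :
    CycQ p Γ := by
  intro m
  rcases Nat.eq_zero_or_pos m with rfl | hm
  · refine ⟨⊤, isOpen_univ, inferInstance, ?_, ?_⟩
    · have : Subsingleton (Γ ⧸ (⊤ : Subgroup Γ)) := QuotientGroup.subsingleton_quotient_top
      infer_instance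
    · rw [Subgroup.index_top, pow_zero]
  obtain ⟨m, rfl⟩ : ∃ m', m = m' + 1 := ⟨m - 1, by omega⟩
  obtain ⟨M, hM⟩ : ∃ M, M = m * t + 1 := ⟨_, rfl⟩
  have hsat : Sat T (A (M + 1)).G (Multiplicative (ZMod (p ^ M))) :=
    Sat.mono T (hA M) (MonoidHom.inr _ _) (fun _ _ h => (Prod.ext_iff.1 h).2)
  have h1 := dvd_card_hom T (A (M + 1)).pG (A (M + 1)).al M hsat
  have h2 : ∃ ρ : (A (M + 1)).G →* Multiplicative (ZMod (p ^ M)), ∃ g, ρ g ^ p ^ m ≠ 1 := by
    by_contra hcon
    push Not at hcon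
    have h3 := (card_torHom_le (p := p) (G := (A (M + 1)).G) M m).trans
      (index_torKer_le (hT _ (A (M + 1)).pG (A (M + 1)).al) m)
    have h4 : torHom p (A (M + 1)).G (Multiplicative (ZMod (p ^ M))) m = Set.univ :=
      Set.eq_univ_of_forall hcon
    rw [h4, Nat.card_congr (Equiv.Set.univ _)] at h3
    have hfin : Finite ((A (M + 1)).G →* Multiplicative (ZMod (p ^ M))) := DFunLike.finite _
    have h5 := Nat.le_of_dvd Nat.card_pos h1
    have h6 : p ^ (m * t) < p ^ M := Nat.pow_lt_pow_right (Fact.out : p.Prime).one_lt (by omega)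
    omega
  obtain ⟨ρ, g, hg⟩ := h2
  obtain ⟨x, rfl⟩ := hs _ g
  have hC : IsPGroup p (Multiplicative (ZMod (p ^ M))) := by
    refine IsPGroup.of_card (n := M) ?_
    rw [Nat.card_congr Multiplicative.toAdd, Nat.card_zmod]
  obtain ⟨N, h3, h4⟩ := exists_quotient hC (ρ.comp (pr (M + 1))) m ⟨x, hg⟩
  refine ⟨N, Subgroup.isOpen_mono (H₁ := (pr (M + 1)).ker) (fun y hy => h3 ?_) (ho _), h4⟩
  rw [MonoidHom.mem_ker] at hy ⊢
  rw [MonoidHom.comp_apply, hy, map_one]

end tower

end GammaAux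

theorem exists_gamma {p : ℕ} [Fact p.Prime] (T : Tel p) {t : ℕ} (hT : RankBound T t)
    {G₀ : FiniteGrp.{0}} (hG : IsPGroup p G₀) (hA : ¬ T.Dead G₀) :
    ∃ (Γ : Type) (_ : Group Γ) (_ : TopologicalSpace Γ) (_ : NonarchimedeanGroup Γ)
      (_ : CompactSpace Γ), ProP p Γ ∧ RP p Γ t ∧ CycQ p Γ ∧ QP p Γ PUnit ∧
        ∃ π : Γ →* G₀, Function.Surjective π ∧ IsOpen (π.ker : Set Γ) := by
  obtain ⟨A, hA0, hA⟩ := GammaAux.exists_tower T hT hG hA
  choose hsat π hπ using hA
  obtain ⟨Γ, i1, i2, i3, i4, pr, hpr, hs, ho, hU⟩ :=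
    exists_invLim (fun i => ((A i).G : Type)) π hπ
  have hanti : ∀ i j, i ≤ j → (pr j).ker ≤ (pr i).ker := fun i j h =>
    GammaAux.ker_anti π hpr h
  have hP : ProP p Γ := by
    intro U hUo
    obtain ⟨i, hi⟩ := hU U hUo
    rw [← Subgroup.index_map_eq U (hs i) hi]
    exact (A i).pG.index _
  have hR : RP p Γ t := by
    intro U V hV hUV
    obtain ⟨i, hi⟩ := hU V hV
    rw [← GammaAux.relIndex_map _ _ _ hi]
    exact hT _ (A i).pG (A i).al _ _ (GammaAux.elemAb_map (pr i) hUV)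
  refine ⟨Γ, i1, i2, i3, i4, hP, hR, GammaAux.cycQ_aux hT hsat hs ho,
    GammaAux.qp_aux hsat hanti hs ho hU hP, ?_⟩
  have h0 : ∀ (B : FiniteGrp.{0}), (A 0).G = B → ∃ π : Γ →* B, Function.Surjective π ∧
      IsOpen (π.ker : Set Γ) := by
    rintro _ rfl
    exact ⟨pr 0, hs 0, ho 0⟩
  exact h0 _ hA0

end Vale.Agent.P241.F
end

section

set_option autoImplicit false
set_option linter.all false

namespace Vale.Agent.P241.F

variable {p : ℕ} [Fact p.Prime] {Δ : Type} [Group Δ] [TopologicalSpace Δ]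

theorem RP.mono {e e' : ℕ} (h : RP p Δ e) (he : e ≤ e') : RP p Δ e' :=
  fun U V hV hE => (h U V hV hE).trans (Nat.pow_le_pow_right (Fact.out : p.Prime).pos he)

namespace ProBasicAux

theorem isOpen_normalCore [NonarchimedeanGroup Δ] [CompactSpace Δ] (U : Subgroup Δ)
    (hU : IsOpen (U : Set Δ)) : IsOpen (U.normalCore : Set Δ) := by
  haveI : Finite (Δ ⧸ U) := Subgroup.quotient_finite_of_isOpen U hU
  haveI : U.FiniteIndex := Subgroup.finiteIndex_of_finite_quotient
  exact Subgroup.isOpen_of_isClosed_of_finiteIndex _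
    (U.normalCore_isClosed (Subgroup.isClosed_of_isOpen U hU))

theorem finiteIndex_of_isOpen [NonarchimedeanGroup Δ] [CompactSpace Δ] (U : Subgroup Δ)
    (hU : IsOpen (U : Set Δ)) : U.FiniteIndex := by
  haveI : Finite (Δ ⧸ U) := Subgroup.quotient_finite_of_isOpen U hU
  exact Subgroup.finiteIndex_of_finite_quotient

/-- finitely many subgroups above a subgroup of finite index -/
theorem finite_above {G : Type} [Group G] (U : Subgroup G) [U.FiniteIndex] :
    {V : Subgroup G | U ≤ V}.Finite := by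
  have hinj : Set.InjOn (fun V : Subgroup G => ((↑) : G → G ⧸ U) '' (V : Set G))
      {V : Subgroup G | U ≤ V} := by
    have key : ∀ V : Subgroup G, U ≤ V → ∀ W : Subgroup G, U ≤ W →
        (((↑) : G → G ⧸ U) '' (V : Set G)) ⊆ (((↑) : G → G ⧸ U) '' (W : Set G)) → V ≤ W := by
      intro V hV W hW h x hx
      obtain ⟨y, hy, hxy⟩ := h ⟨x, hx, rfl⟩
      have h1 : y⁻¹ * x ∈ U := QuotientGroup.eq.1 hxy
      have h2 := W.mul_mem hy (hW h1)
      simpa using h2
    intro V hV W hW h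
    exact le_antisymm (key V hV W hW h.le) (key W hW V hV h.ge)
  exact Set.Finite.of_finite_image (Set.toFinite _) hinj

/-- an index `p` subgroup of a finite `p`-group, in the relative form -/
theorem elemAb_of_relIndex [NonarchimedeanGroup Δ] [CompactSpace Δ] (hp : ProP p Δ)
    (V W : Subgroup Δ) (hV : IsOpen (V : Set Δ)) (hVW : V ≤ W) (hi : V.relIndex W = p) :
    ElemAb p V W := by
  have hpp : p.Prime := Fact.out
  -- the core of `V` in `Δ`
  obtain ⟨k, hk⟩ := hp V.normalCore (isOpen_normalCore V hV)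
  have hNV : V.normalCore ≤ V := V.normalCore_le
  have hNW : V.normalCore ≤ W := hNV.trans hVW
  -- the group `W / N`
  let N : Subgroup W := V.normalCore.subgroupOf W
  haveI hN : N.Normal := inferInstanceAs ((V.normalCore.subgroupOf W).Normal)
  have hNV' : N ≤ V.subgroupOf W := Subgroup.comap_mono hNV
  have hcard : ∃ j, Nat.card (W ⧸ N) = p ^ j := by
    have h1 : N.index ∣ V.normalCore.index := by
      exact Subgroup.relIndex_dvd_index_of_normal V.normalCore W
    rw [hk] at h1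
    obtain ⟨j, -, hj⟩ := (Nat.dvd_prime_pow hpp).1 h1
    exact ⟨j, hj⟩
  obtain ⟨j, hj⟩ := hcard
  have hidx : (Subgroup.map (QuotientGroup.mk' N) (V.subgroupOf W)).index = p := by
    rw [Subgroup.index_map, QuotientGroup.ker_mk', sup_eq_left.2 hNV',
      MonoidHom.range_eq_top.2 (QuotientGroup.mk'_surjective N), Subgroup.index_top, mul_one]
    exact hi
  haveI : Finite (W ⧸ N) := Nat.finite_of_card_ne_zero (by rw [hj]; exact (pow_pos hpp.pos j).ne')
  have hj0 : j ≠ 0 := by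
    rintro rfl
    have h2 := Subgroup.index_dvd_card (Subgroup.map (QuotientGroup.mk' N) (V.subgroupOf W))
    rw [hidx, hj, pow_zero] at h2
    exact hpp.one_lt.ne' (Nat.dvd_one.1 h2)
  have hnorm : (Subgroup.map (QuotientGroup.mk' N) (V.subgroupOf W)).Normal := by
    apply Subgroup.normal_of_index_eq_minFac_card
    rw [hidx, hj, Nat.Prime.pow_minFac hpp hj0]
  have hcomap : Subgroup.comap (QuotientGroup.mk' N)
      (Subgroup.map (QuotientGroup.mk' N) (V.subgroupOf W)) = V.subgroupOf W := by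
    rw [Subgroup.comap_map_eq, QuotientGroup.ker_mk', sup_eq_left.2 hNV']
  haveI hn2 : (V.subgroupOf W).Normal := by
    rw [← hcomap]
    exact hnorm.comap _
  have hcardQ : Nat.card (W ⧸ V.subgroupOf W) = p := hi
  haveI : Finite (W ⧸ V.subgroupOf W) :=
    Nat.finite_of_card_ne_zero (by rw [hcardQ]; exact hpp.ne_zero)
  haveI hcyc : IsCyclic (W ⧸ V.subgroupOf W) := isCyclic_of_prime_card (p := p) hcardQ
  refine ⟨hVW, ?_, ?_⟩
  · intro x hx
    have h1 : ((⟨x, hx⟩ : W) : W ⧸ V.subgroupOf W) ^ p = 1 := by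
      have := pow_card_eq_one' (x := ((⟨x, hx⟩ : W) : W ⧸ V.subgroupOf W))
      rwa [hcardQ] at this
    have h2 : ((⟨x, hx⟩ ^ p : W) : W ⧸ V.subgroupOf W) = 1 := by
      rw [QuotientGroup.mk_pow]; exact h1
    have h3 := (QuotientGroup.eq_one_iff _).1 h2
    exact h3
  · intro x hx y hy
    letI := IsCyclic.commGroup (α := W ⧸ V.subgroupOf W)
    have h2 : (((⟨x, hx⟩ : W) * ⟨y, hy⟩ * (⟨x, hx⟩ : W)⁻¹ * (⟨y, hy⟩ : W)⁻¹ : W) :
        W ⧸ V.subgroupOf W) = 1 := by
      have hcomm : ((⟨x, hx⟩ : W) : W ⧸ V.subgroupOf W) * ((⟨y, hy⟩ : W) : W ⧸ V.subgroupOf W) =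
        ((⟨y, hy⟩ : W) : W ⧸ V.subgroupOf W) * ((⟨x, hx⟩ : W) : W ⧸ V.subgroupOf W) :=
        mul_comm _ _
      rw [QuotientGroup.mk_mul, QuotientGroup.mk_mul, QuotientGroup.mk_mul, QuotientGroup.mk_inv,
        QuotientGroup.mk_inv, hcomm]
      group
    have h3 := (QuotientGroup.eq_one_iff _).1 h2
    exact h3

theorem ElemAb.inf {G : Type} [Group G] {V V' U : Subgroup G} (h : ElemAb p V U)
    (h' : ElemAb p V' U) : ElemAb p (V ⊓ V') U :=
  ⟨inf_le_left.trans h.1, fun x hx => ⟨h.2.1 x hx, h'.2.1 x hx⟩,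
    fun x hx y hy => ⟨h.2.2 x hx y hy, h'.2.2 x hx y hy⟩⟩

theorem ElemAb.refl {G : Type} [Group G] (U : Subgroup G) : ElemAb p U U :=
  ⟨le_rfl, fun _ hx => U.pow_mem hx p, fun _ hx _ hy => U.mul_mem (U.mul_mem (U.mul_mem hx hy)
    (U.inv_mem hx)) (U.inv_mem hy)⟩

theorem finite_relIndex_p [NonarchimedeanGroup Δ] [CompactSpace Δ] (hp : ProP p Δ) {e : ℕ}
    (hR : RP p Δ e) (W : Subgroup Δ) (hW : IsOpen (W : Set Δ)) :
    {V : Subgroup Δ | IsOpen (V : Set Δ) ∧ V ≤ W ∧ V.relIndex W = p}.Finite := by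
  -- the elementary abelian quotient of `W` of maximal order
  have hex : ∃ n, ∃ U : Subgroup Δ, IsOpen (U : Set Δ) ∧ ElemAb p U W ∧ U.relIndex W = n :=
    ⟨_, W, hW, ElemAb.refl W, rfl⟩
  have hbd : ∀ n, (∃ U : Subgroup Δ, IsOpen (U : Set Δ) ∧ ElemAb p U W ∧ U.relIndex W = n) →
      n ≤ p ^ e := by
    rintro n ⟨U, hU, hE, rfl⟩
    exact hR W U hU hE
  classical
  obtain ⟨U, hU, hE, hUn⟩ := Nat.findGreatest_spec (P := fun n => ∃ U : Subgroup Δ,
    IsOpen (U : Set Δ) ∧ ElemAb p U W ∧ U.relIndex W = n) (n := p ^ e)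
    (hbd _ hex.choose_spec) hex.choose_spec
  haveI := finiteIndex_of_isOpen U hU
  refine (finite_above U).subset ?_
  rintro V ⟨hV, hVW, hVi⟩
  have hE2 : ElemAb p (V ⊓ U) W := ElemAb.inf (elemAb_of_relIndex hp V W hV hVW hVi) hE
  have hVU : IsOpen ((V ⊓ U : Subgroup Δ) : Set Δ) := hV.inter hU
  have h1 : (V ⊓ U).relIndex W ≤ U.relIndex W := by
    rw [hUn]
    exact Nat.le_findGreatest (hbd _ ⟨_, hVU, hE2, rfl⟩) ⟨_, hVU, hE2, rfl⟩
  have h2 : (V ⊓ U).relIndex U * U.relIndex W = (V ⊓ U).relIndex W :=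
    Subgroup.relIndex_mul_relIndex _ _ _ inf_le_right hE.1
  have h3 : 0 < U.relIndex W := Nat.pos_of_ne_zero (by
    intro h0
    have := Subgroup.relIndex_dvd_index_of_le hE.1
    rw [h0] at this
    exact Subgroup.FiniteIndex.index_ne_zero (Nat.eq_zero_of_zero_dvd this))
  have h4 : (V ⊓ U).relIndex U ≤ 1 := by
    rw [← h2] at h1
    by_contra hlt
    push Not at hlt
    nlinarith
  have h5 : (V ⊓ U).relIndex U ≠ 0 := by
    haveI := finiteIndex_of_isOpen (V ⊓ U) hVU
    intro h0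
    have := Subgroup.relIndex_dvd_index_of_le (inf_le_right : V ⊓ U ≤ U)
    rw [h0] at this
    exact Subgroup.FiniteIndex.index_ne_zero (Nat.eq_zero_of_zero_dvd this)
  have h6 : (V ⊓ U).relIndex U = 1 := by omega
  have h7 := Subgroup.relIndex_eq_one.1 h6
  exact h7.trans inf_le_left

theorem exists_above [NonarchimedeanGroup Δ] [CompactSpace Δ] (hp : ProP p Δ) (m : ℕ)
    (U : Subgroup Δ) (hU : IsOpen (U : Set Δ)) (hi : U.index = p ^ (m + 1)) :
    ∃ W : Subgroup Δ, IsOpen (W : Set Δ) ∧ W.index = p ^ m ∧ U ≤ W ∧ U.relIndex W = p := by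
  have hpp : p.Prime := Fact.out
  obtain ⟨k, hk⟩ := hp U.normalCore (isOpen_normalCore U hU)
  have hNU : U.normalCore ≤ U := U.normalCore_le
  haveI : Finite (Δ ⧸ U.normalCore) :=
    Nat.finite_of_card_ne_zero (by
      change U.normalCore.index ≠ 0
      rw [hk]; exact (pow_pos hpp.pos k).ne')
  have hcard : Nat.card (Δ ⧸ U.normalCore) = p ^ k := hk
  have hidx : (Subgroup.map (QuotientGroup.mk' U.normalCore) U).index = p ^ (m + 1) := by
    rw [Subgroup.index_map, QuotientGroup.ker_mk', sup_eq_left.2 hNU,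
      MonoidHom.range_eq_top.2 (QuotientGroup.mk'_surjective _), Subgroup.index_top, mul_one, hi]
  have hmul := Subgroup.card_mul_index (Subgroup.map (QuotientGroup.mk' U.normalCore) U)
  rw [hidx, hcard] at hmul
  have hmk : m + 1 ≤ k := by
    have : p ^ (m + 1) ∣ p ^ k := ⟨_, by rw [← hmul, mul_comm]⟩
    exact (Nat.pow_dvd_pow_iff_le_right hpp.one_lt).1 this
  obtain ⟨r, rfl⟩ := Nat.exists_eq_add_of_le hmk
  have hcU : Nat.card (Subgroup.map (QuotientGroup.mk' U.normalCore) U) = p ^ r := by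
    have h2 : p ^ (m + 1 + r) = p ^ r * p ^ (m + 1) := by rw [← pow_add, add_comm r]
    rw [h2] at hmul
    exact Nat.eq_of_mul_eq_mul_right (pow_pos hpp.pos _) hmul
  obtain ⟨K, hK, hUK⟩ := Sylow.exists_subgroup_card_pow_succ (p := p) (n := r)
    (by rw [hcard]; exact pow_dvd_pow _ (by omega)) hcU
  have hKi : K.index = p ^ m := by
    have h3 := Subgroup.card_mul_index K
    rw [hK, hcard] at h3
    have h4 : p ^ (m + 1 + r) = p ^ (r + 1) * p ^ m := by rw [← pow_add]; congr 1; omega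
    rw [h4] at h3
    exact Nat.eq_of_mul_eq_mul_left (pow_pos hpp.pos _) h3
  refine ⟨K.comap (QuotientGroup.mk' U.normalCore), ?_, ?_, ?_, ?_⟩
  · refine Subgroup.isOpen_mono (H₁ := U.normalCore) ?_ (isOpen_normalCore U hU)
    intro x hx
    have : (QuotientGroup.mk' U.normalCore) x = 1 := (QuotientGroup.eq_one_iff x).2 hx
    change (QuotientGroup.mk' U.normalCore) x ∈ K
    rw [this]
    exact K.one_mem
  · rw [Subgroup.index_comap_of_surjective _ (QuotientGroup.mk'_surjective _), hKi]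
  · exact Subgroup.map_le_iff_le_comap.1 hUK
  · have h5 := Subgroup.relIndex_mul_index (Subgroup.map_le_iff_le_comap.1 hUK)
    rw [Subgroup.index_comap_of_surjective _ (QuotientGroup.mk'_surjective _), hKi, hi,
      pow_succ, mul_comm] at h5
    exact Nat.eq_of_mul_eq_mul_left (pow_pos hpp.pos _) h5

end ProBasicAux

open ProBasicAux

theorem finite_open_index [NonarchimedeanGroup Δ] [CompactSpace Δ] (hp : ProP p Δ) {e : ℕ}
    (hR : RP p Δ e) (m : ℕ) :
    {U : Subgroup Δ | IsOpen (U : Set Δ) ∧ U.index = p ^ m}.Finite := by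
  induction m with
  | zero =>
    refine (Set.finite_singleton (⊤ : Subgroup Δ)).subset ?_
    rintro U ⟨-, hU⟩
    rw [pow_zero] at hU
    exact Subgroup.index_eq_one.1 hU
  | succ m ih =>
    refine (ih.biUnion (t := fun W => {V : Subgroup Δ | IsOpen (V : Set Δ) ∧ V ≤ W ∧
      V.relIndex W = p}) fun W hW => finite_relIndex_p hp hR W hW.1).subset ?_
    rintro U ⟨hU, hi⟩
    obtain ⟨W, hW, hWi, hUW, hr⟩ := exists_above hp m U hU hi
    exact Set.mem_biUnion (show W ∈ {U : Subgroup Δ | IsOpen (U : Set Δ) ∧ U.index = p ^ m} from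
      ⟨hW, hWi⟩) ⟨hU, hUW, hr⟩

/-- A common open normal subgroup of `Δ`, contained in all open subgroups of index `≤ p ^ m`. -/
theorem exists_normal_le [NonarchimedeanGroup Δ] [CompactSpace Δ] (hp : ProP p Δ) {e : ℕ}
    (hR : RP p Δ e) (m : ℕ) : ∃ O : Subgroup Δ, O.Normal ∧ IsOpen (O : Set Δ) ∧
      ∀ U : Subgroup Δ, IsOpen (U : Set Δ) → U.index ≤ p ^ m → O ≤ U := by
  have hpp : p.Prime := Fact.out
  have hfin : {U : Subgroup Δ | IsOpen (U : Set Δ) ∧ U.index ≤ p ^ m}.Finite := by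
    refine ((Set.finite_Iic m).biUnion (t := fun k => {U : Subgroup Δ | IsOpen (U : Set Δ) ∧
      U.index = p ^ k}) fun k _ => finite_open_index hp hR k).subset ?_
    rintro U ⟨hU, hi⟩
    obtain ⟨k, hk⟩ := hp U hU
    rw [hk] at hi
    exact Set.mem_biUnion (show k ∈ Set.Iic m from (Nat.pow_le_pow_iff_right hpp.one_lt).1 hi)
      ⟨hU, hk⟩
  have hopen : IsOpen ((sInf {U : Subgroup Δ | IsOpen (U : Set Δ) ∧ U.index ≤ p ^ m} :
      Subgroup Δ) : Set Δ) := by
    rw [Subgroup.coe_sInf]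
    exact hfin.isOpen_biInter fun U hU => hU.1
  refine ⟨(sInf {U : Subgroup Δ | IsOpen (U : Set Δ) ∧ U.index ≤ p ^ m}).normalCore,
    inferInstance, isOpen_normalCore _ hopen, fun U hU hi => ?_⟩
  exact (Subgroup.normalCore_le _).trans (sInf_le ⟨hU, hi⟩)

namespace ProBasicAux

/-- Elements whose `p^d`-th power is in `N`, for a cyclic quotient. -/
theorem exists_root {G : Type} [Group G] (N : Subgroup G) [hN : N.Normal]
    (hc : IsCyclic (G ⧸ N)) (i d : ℕ) (hi : N.index = p ^ (i + d)) :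
    ∃ R : Subgroup G, (∀ x, x ∈ R ↔ x ^ (p ^ d) ∈ N) ∧ N ≤ R ∧
      (∃ _ : R.Normal, IsCyclic (G ⧸ R)) ∧ R.index = p ^ i := by
  have hpp : p.Prime := Fact.out
  letI := IsCyclic.commGroup (α := G ⧸ N)
  have hcard : Nat.card (G ⧸ N) = p ^ (i + d) := hi
  haveI : Finite (G ⧸ N) :=
    Nat.finite_of_card_ne_zero (by rw [hcard]; exact (pow_pos hpp.pos _).ne')
  let f : G ⧸ N →* G ⧸ N := powMonoidHom (p ^ d)
  have hmem : ∀ x : G, x ∈ f.ker.comap (QuotientGroup.mk' N) ↔ x ^ (p ^ d) ∈ N := by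
    intro x
    rw [Subgroup.mem_comap, MonoidHom.mem_ker, ← QuotientGroup.eq_one_iff]
    exact Iff.rfl
  refine ⟨f.ker.comap (QuotientGroup.mk' N), hmem, ?_, ⟨?_, ?_⟩, ?_⟩
  · intro x hx
    rw [hmem]
    exact N.pow_mem hx _
  · infer_instance
  · have hle : N ≤ f.ker.comap (QuotientGroup.mk' N) := by
      intro x hx
      rw [hmem]
      exact N.pow_mem hx _
    have hsurj : Function.Surjective (QuotientGroup.map N (f.ker.comap (QuotientGroup.mk' N))
        (MonoidHom.id G) hle) := by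
      intro y
      obtain ⟨x, rfl⟩ := QuotientGroup.mk_surjective y
      exact ⟨(x : G ⧸ N), rfl⟩
    exact isCyclic_of_surjective _ hsurj
  · rw [Subgroup.index_comap_of_surjective _ (QuotientGroup.mk'_surjective _)]
    have h1 := IsCyclic.index_powMonoidHom_ker (G := G ⧸ N) (p ^ d)
    change f.ker.index = _ at h1
    rw [h1, hcard, Nat.gcd_eq_right (pow_dvd_pow _ (by omega)), pow_add,
      Nat.mul_div_cancel _ (pow_pos hpp.pos _)]

end ProBasicAux

theorem exists_zpSeq [NonarchimedeanGroup Δ] [CompactSpace Δ] (hp : ProP p Δ) {e : ℕ}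
    (hR : RP p Δ e) (hC : CycQ p Δ) : ∃ M : ℕ → Subgroup Δ, ZpSeq p M := by
  have hpp : p.Prime := Fact.out
  let S : ℕ → Set (Subgroup Δ) := fun m => {N | IsOpen (N : Set Δ) ∧
    (∃ _ : N.Normal, IsCyclic (Δ ⧸ N)) ∧ N.index = p ^ m}
  have hfin : ∀ m, (S m).Finite := fun m =>
    (finite_open_index hp hR m).subset fun N hN => ⟨hN.1, hN.2.2⟩
  haveI hne : ∀ m, Nonempty (S m) := by
    intro m
    obtain ⟨N, h1, h2, h3, h4⟩ := hC m
    exact ⟨⟨N, h1, ⟨h2, h3⟩, h4⟩⟩
  have hroot : ∀ (i j : ℕ) (_ : i ≤ j) (N : S j), ∃ R : S i,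
      (∀ x, x ∈ (R : Subgroup Δ) ↔ x ^ (p ^ (j - i)) ∈ (N : Subgroup Δ)) := by
    rintro i j hij ⟨N, h1, ⟨h2, h3⟩, h4⟩
    obtain ⟨R, hR1, hR2, hR3, hR4⟩ := exists_root (p := p) N h3 i (j - i)
      (by rw [h4, Nat.add_sub_cancel' hij])
    exact ⟨⟨R, Subgroup.isOpen_mono hR2 h1, hR3, hR4⟩, hR1⟩
  choose π hπ using hroot
  haveI : Finite (S 0) := (hfin 0).to_subtype
  obtain ⟨f, hf⟩ := exists_seq_forall_proj_of_forall_finite (α := fun m => S m)
    (fun {i j} hij N => π i j hij N)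
    (by
      intro i a
      apply Subtype.ext
      ext x
      rw [hπ]
      simp)
    (by
      intro i j k hij hjk a
      apply Subtype.ext
      ext x
      rw [hπ, hπ, hπ, ← pow_mul, ← pow_add]
      have : j - i + (k - j) = k - i := by omega
      rw [this])
    (by
      intro i a
      haveI : Finite (S (i + 1)) := (hfin (i + 1)).to_subtype
      exact Set.toFinite _)
  refine ⟨fun m => (f m : Subgroup Δ), ⟨fun m => (f m).2.1, fun m => (f m).2.2.1.1, ?_, ?_,
    fun m => (f m).2.2.2⟩⟩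
  · intro m x hx
    have h1 := hf (Nat.le_succ m)
    rw [← h1, hπ]
    exact Subgroup.pow_mem _ hx _
  · intro m
    obtain ⟨h1, h2⟩ := (f m).2.2.1
    exact h2

theorem closed_nonarch [NonarchimedeanGroup Δ] (D : Subgroup Δ) : NonarchimedeanGroup D where
  is_nonarchimedean := by
    intro U hU
    rw [nhds_subtype_eq_comap] at hU
    obtain ⟨W, hW, hWU⟩ := hU
    obtain ⟨V, hV⟩ := NonarchimedeanGroup.is_nonarchimedean (G := Δ) W (by simpa using hW)
    refine ⟨V.comap D.subtype continuous_subtype_val, ?_⟩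
    intro x hx
    exact hWU (hV hx)

theorem step_proP [NonarchimedeanGroup Δ] [CompactSpace Δ] (hp : ProP p Δ)
    (D : Subgroup Δ) : ProP p D := by
  have hpp : p.Prime := Fact.out
  intro U hU
  have h1 : (U : Set D) ∈ nhds (1 : D) := hU.mem_nhds U.one_mem
  rw [nhds_subtype_eq_comap] at h1
  obtain ⟨W, hW, hWU⟩ := h1
  obtain ⟨V, hV⟩ := NonarchimedeanGroup.is_nonarchimedean (G := Δ) W (by simpa using hW)
  obtain ⟨k, hk⟩ := hp (V : Subgroup Δ).normalCore (isOpen_normalCore _ V.isOpen)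
  have hle : (V : Subgroup Δ).normalCore.subgroupOf D ≤ U := by
    intro x hx
    exact hWU (hV ((Subgroup.normalCore_le _) hx))
  have h2 : U.index ∣ ((V : Subgroup Δ).normalCore.subgroupOf D).index :=
    Subgroup.index_dvd_of_le hle
  have h3 : ((V : Subgroup Δ).normalCore.subgroupOf D).index ∣ (V : Subgroup Δ).normalCore.index :=
    Subgroup.relIndex_dvd_index_of_normal _ _
  have h4 := h2.trans h3
  rw [hk] at h4
  obtain ⟨j, -, hj⟩ := (Nat.dvd_prime_pow hpp).1 h4
  exact ⟨j, hj⟩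

end Vale.Agent.P241.F
end

section

set_option autoImplicit false

namespace Vale.Agent.P241.F

variable {p : ℕ} [Fact p.Prime] {Δ : Type} [Group Δ] [TopologicalSpace Δ]

namespace StepAux

omit [Fact p.Prime] in
lemma zp_anti {M : ℕ → Subgroup Δ} (hM : ZpSeq p M) : Antitone M :=
  antitone_nat_of_succ_le hM.anti

omit [Fact p.Prime] in
lemma zp_zero {M : ℕ → Subgroup Δ} (hM : ZpSeq p M) : M 0 = ⊤ := by
  have h := hM.index 0
  rw [pow_zero, Subgroup.index_eq_one] at h
  exact h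

/-- An element outside `M 1` generates all the quotients `Δ / M l`. -/
lemma zp_gen {M : ℕ → Subgroup Δ} (hM : ZpSeq p M) {u : Δ} (hu : u ∉ M 1) (l : ℕ) (a : ℤ) :
    u ^ a ∈ M l ↔ (p : ℤ) ^ l ∣ a := by
  have hpp : p.Prime := Fact.out
  rcases Nat.eq_zero_or_pos l with rfl | hl
  · rw [zp_zero hM]
    simp
  have _ := hM.normal l
  have _ := hM.normal 1
  have _ := hM.cyclic l
  have hcard : Nat.card (Δ ⧸ M l) = p ^ l := hM.index l
  obtain ⟨g, hg⟩ := IsCyclic.exists_generator (α := Δ ⧸ M l)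
  have hog : orderOf g = p ^ l := by
    rw [orderOf_eq_card_of_forall_mem_zpowers hg, hcard]
  obtain ⟨s, hs⟩ := Subgroup.mem_zpowers_iff.1 (hg (u : Δ ⧸ M l))
  have hps : ¬ (p : ℤ) ∣ s := by
    rintro ⟨r, rfl⟩
    obtain ⟨w, hw⟩ := QuotientGroup.mk_surjective (g ^ r)
    apply hu
    have h1 : ((w ^ p : Δ) : Δ ⧸ M l) = (u : Δ ⧸ M l) := by
      rw [← hs, QuotientGroup.mk_pow, hw, ← zpow_natCast, ← zpow_mul, mul_comm]
    have h2 : (w ^ p)⁻¹ * u ∈ M l := QuotientGroup.eq.1 h1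
    have h3 : w ^ p ∈ M 1 := by
      have := Subgroup.pow_index_mem (M 1) w
      rwa [hM.index 1, pow_one] at this
    have h4 : (w ^ p)⁻¹ * u ∈ M 1 := zp_anti hM hl h2
    have := (M 1).mul_mem h3 h4
    rwa [mul_inv_cancel_left] at this
  rw [← QuotientGroup.eq_one_iff, QuotientGroup.mk_zpow, ← hs, ← zpow_mul,
    ← orderOf_dvd_iff_zpow_eq_one, hog]
  push_cast
  constructor
  · intro h
    have hcop : IsCoprime ((p : ℤ) ^ l) s := by
      apply IsCoprime.pow_left
      exact (Nat.prime_iff_prime_int.1 hpp).coprime_iff_not_dvd.2 hps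
    exact hcop.dvd_of_dvd_mul_left h
  · intro h
    exact h.mul_left s

lemma exists_notMem {M : ℕ → Subgroup Δ} (hM : ZpSeq p M) : ∃ u, u ∉ M 1 := by
  have hpp : p.Prime := Fact.out
  by_contra h
  push Not at h
  have h1 : M 1 = ⊤ := by
    ext x
    simp [h x]
  have h2 := hM.index 1
  rw [h1, Subgroup.index_top, pow_one] at h2
  exact hpp.one_lt.ne h2

omit [Fact p.Prime] in
lemma isClosed_of_invariant [NonarchimedeanGroup Δ] {N : Subgroup Δ} (hN : IsOpen (N : Set Δ))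
    {S : Set Δ} (hS : ∀ y ∈ S, ∀ n ∈ N, y * n ∈ S) : IsClosed S := by
  rw [← isOpen_compl_iff, isOpen_iff_mem_nhds]
  intro y hy
  have h1 : (fun z => y⁻¹ * z) ⁻¹' (N : Set Δ) ∈ nhds y := by
    apply (hN.preimage (continuous_const_mul y⁻¹)).mem_nhds
    change y⁻¹ * y ∈ N
    rw [inv_mul_cancel]
    exact N.one_mem
  refine Filter.mem_of_superset h1 fun z hz hzS => hy ?_
  have hz' : y⁻¹ * z ∈ N := hz
  have := hS z hzS _ (N.inv_mem hz')
  rwa [mul_inv_rev, inv_inv, mul_inv_cancel_left] at this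

end StepAux

open StepAux in
/-- The comparison of `D₂ × ℤ` with an open subgroup of `Δ` (note 4711, section 6), where
`D₂ = ⨅ m, M m`. For `O` open normal in `Δ` there are `m`, `v ∈ M m ∩ O` such that for all `C`,
with `N = O ⊓ M (m + C)`: `v` commutes with `D₂` modulo `N`, every element of `M m` is in
`x * v ^ a * N` with `x ∈ D₂`, and `x * v ^ a ∈ N ↔ x ∈ O ∧ p ^ C ∣ a`. -/
theorem zpSeq_compare [NonarchimedeanGroup Δ] [CompactSpace Δ] (hp : ProP p Δ)
    {M : ℕ → Subgroup Δ} (hM : ZpSeq p M) (O : Subgroup Δ) (hO : O.Normal)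
    (hO' : IsOpen (O : Set Δ)) :
    ∃ (m : ℕ) (v : Δ), v ∈ O ∧ v ∈ M m ∧ ∀ C : ℕ,
      (∀ x ∈ (⨅ i, M i : Subgroup Δ), x * v * x⁻¹ * v⁻¹ ∈ O ⊓ M (m + C)) ∧
      (∀ g ∈ M m, ∃ x ∈ (⨅ i, M i : Subgroup Δ), ∃ a : ℤ, (x * v ^ a)⁻¹ * g ∈ O ⊓ M (m + C)) ∧
      ∀ x ∈ (⨅ i, M i : Subgroup Δ), ∀ a : ℤ,
        x * v ^ a ∈ O ⊓ M (m + C) ↔ x ∈ O ∧ (p : ℤ) ^ C ∣ a := by
  have hpp : p.Prime := Fact.out
  obtain ⟨m, hm⟩ := hp O hO'
  obtain ⟨u, hu⟩ := exists_notMem hM
  have hvO : u ^ (p ^ m) ∈ O := by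
    have := Subgroup.pow_index_mem O u
    rwa [hm] at this
  have hgen := zp_gen hM hu
  have hvpow : ∀ a : ℤ, (u ^ (p ^ m)) ^ a = u ^ ((p : ℤ) ^ m * a) := by
    intro a
    rw [← zpow_natCast, ← zpow_mul]
    push_cast
    rfl
  have hvM : ∀ (C : ℕ) (a : ℤ), (u ^ (p ^ m)) ^ a ∈ M (m + C) ↔ (p : ℤ) ^ C ∣ a := by
    intro C a
    rw [hvpow, hgen, pow_add]
    exact mul_dvd_mul_iff_left (pow_ne_zero _ (by exact_mod_cast hpp.ne_zero))
  refine ⟨m, u ^ (p ^ m), hvO, ?_, fun C => ⟨?_, ?_, ?_⟩⟩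
  · have := (hvM 0 1).2 (by simp)
    simpa using this
  · intro x hx
    have hxM : x ∈ M (m + C) := Subgroup.mem_iInf.1 hx _
    refine ⟨O.mul_mem (hO.conj_mem _ hvO x) (O.inv_mem hvO), ?_⟩
    have h1 : u ^ (p ^ m) * x⁻¹ * (u ^ (p ^ m))⁻¹ ∈ M (m + C) :=
      (hM.normal _).conj_mem _ ((M (m + C)).inv_mem hxM) _
    have h2 := (M (m + C)).mul_mem hxM h1
    have e : x * u ^ p ^ m * x⁻¹ * (u ^ p ^ m)⁻¹ = x * (u ^ (p ^ m) * x⁻¹ * (u ^ (p ^ m))⁻¹) := by
      group
    rw [e]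
    exact h2
  · intro g hg
    set v := u ^ (p ^ m) with hv
    set N : Subgroup Δ := O ⊓ M (m + C) with hN
    have hNn : N.Normal := by
      have _ := hM.normal (m + C)
      have _ := hO
      exact Subgroup.normal_inf_normal O (M (m + C))
    have hNo : IsOpen (N : Set Δ) := hO'.inter (hM.isOpen _)
    set S : Set Δ := {y | ∃ a : ℤ, (y * v ^ a)⁻¹ * g ∈ N} with hS
    have hScl : IsClosed S := by
      refine isClosed_of_invariant hNo ?_
      rintro y ⟨a, ha⟩ n hn
      refine ⟨a, ?_⟩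
      have h1 : (v ^ a)⁻¹ * n⁻¹ * v ^ a ∈ N := by
        have := hNn.conj_mem _ (N.inv_mem hn) (v ^ a)⁻¹
        rwa [inv_inv] at this
      have h2 := N.mul_mem h1 ha
      have e : (y * n * v ^ a)⁻¹ * g = (v ^ a)⁻¹ * n⁻¹ * v ^ a * ((y * v ^ a)⁻¹ * g) := by group
      rw [e]
      exact h2
    have hne : ∀ l, ((M l : Set Δ) ∩ S).Nonempty := by
      intro l
      -- work at level `l' = max l m`
      have _ := hM.normal (m + l)
      have _ := hM.cyclic (m + l)
      have hog : orderOf (u : Δ ⧸ M (m + l)) = p ^ (m + l) := by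
        apply Nat.dvd_antisymm
        · rw [orderOf_dvd_iff_pow_eq_one, ← QuotientGroup.mk_pow, QuotientGroup.eq_one_iff]
          have := (hgen (m + l) ((p ^ (m + l) : ℕ) : ℤ)).2 (by push_cast; exact dvd_rfl)
          rwa [zpow_natCast] at this
        · have h1 : (u : Δ ⧸ M (m + l)) ^ (orderOf (u : Δ ⧸ M (m + l)) : ℤ) = 1 := by
            rw [zpow_natCast, pow_orderOf_eq_one]
          rw [← QuotientGroup.mk_zpow, QuotientGroup.eq_one_iff, hgen] at h1
          exact_mod_cast h1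
      have hfin : Finite (Δ ⧸ M (m + l)) := by
        apply Nat.finite_of_card_ne_zero
        have : Nat.card (Δ ⧸ M (m + l)) = p ^ (m + l) := hM.index _
        rw [this]
        exact pow_ne_zero _ hpp.ne_zero
      have htop : Subgroup.zpowers (u : Δ ⧸ M (m + l)) = ⊤ := by
        apply Subgroup.eq_top_of_card_eq
        rw [Nat.card_zpowers, hog]
        exact (hM.index (m + l)).symm
      have hgmem : (g : Δ ⧸ M (m + l)) ∈ Subgroup.zpowers (u : Δ ⧸ M (m + l)) := by
        rw [htop]; trivial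
      obtain ⟨b, hb⟩ := Subgroup.mem_zpowers_iff.1 hgmem
      rw [← QuotientGroup.mk_zpow] at hb
      have hb' : (u ^ b)⁻¹ * g ∈ M (m + l) := QuotientGroup.eq.1 hb
      have hbm : u ^ b ∈ M m := by
        have h1 : (u ^ b)⁻¹ * g ∈ M m := zp_anti hM (Nat.le_add_right m l) hb'
        have h2 := (M m).mul_mem hg ((M m).inv_mem h1)
        have e : g * ((u ^ b)⁻¹ * g)⁻¹ = u ^ b := by group
        rwa [e] at h2
      rw [hgen] at hbm
      obtain ⟨a, rfl⟩ := hbm
      rw [← hvpow] at hb'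
      have hy : g * (v ^ a)⁻¹ ∈ M (m + l) := by
        have := (hM.normal (m + l)).mem_comm hb'
        exact this
      refine ⟨g * (v ^ a)⁻¹, zp_anti hM (Nat.le_add_left l m) hy, a, ?_⟩
      rw [inv_mul_cancel_right, inv_mul_cancel]
      exact N.one_mem
    have hcl : ∀ l, IsClosed ((M l : Set Δ) ∩ S) := fun l =>
      ((M l).isClosed_of_isOpen (hM.isOpen l)).inter hScl
    obtain ⟨x, hx⟩ := IsCompact.nonempty_iInter_of_sequence_nonempty_isCompact_isClosed
      (fun l => (M l : Set Δ) ∩ S) (fun l => Set.inter_subset_inter_left _ (hM.anti l)) hne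
      (hcl 0).isCompact hcl
    rw [Set.mem_iInter] at hx
    obtain ⟨a, ha⟩ := (hx 0).2
    exact ⟨x, Subgroup.mem_iInf.2 fun i => (hx i).1, a, ha⟩
  · intro x hx a
    have hxM : x ∈ M (m + C) := Subgroup.mem_iInf.1 hx _
    rw [Subgroup.mem_inf, (M (m + C)).mul_mem_cancel_left hxM, hvM,
      O.mul_mem_cancel_right (O.zpow_mem hvO a)]

end Vale.Agent.P241.F
end

section

set_option autoImplicit false

namespace Vale.Agent.P241.F

variable {p : ℕ} [Fact p.Prime] {Δ : Type} [Group Δ] [TopologicalSpace Δ]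

namespace StepRAux

/-- Multiples of `p`. -/
def mulP (p : ℕ) : Subgroup (Multiplicative ℤ) :=
  (AddMonoidHom.toMultiplicative (Int.castAddHom (ZMod p))).ker

omit [Fact p.Prime] in
lemma mem_mulP (a : Multiplicative ℤ) : a ∈ mulP p ↔ (p : ℤ) ∣ Multiplicative.toAdd a := by
  rw [← ZMod.intCast_zmod_eq_zero_iff_dvd]
  rfl

omit [Fact p.Prime] in
lemma index_mulP : (mulP p).index = p := by
  have hs : Function.Surjective (AddMonoidHom.toMultiplicative (Int.castAddHom (ZMod p))) := by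
    intro y
    obtain ⟨a, ha⟩ := ZMod.intCast_surjective (Multiplicative.toAdd y)
    exact ⟨Multiplicative.ofAdd a, ha⟩
  rw [mulP, Subgroup.index_ker, MonoidHom.range_eq_top.2 hs, Subgroup.card_top]
  exact Nat.card_zmod p

lemma relIndex_prod_mulP {D : Type} [Group D] {U V : Subgroup D} (hVU : V ≤ U) :
    (V.prod (mulP p)).relIndex (U.prod ⊤) = p * V.relIndex U := by
  rw [← Subgroup.relIndex_mul_relIndex (V.prod (mulP p)) (V.prod ⊤) (U.prod ⊤)
    (Subgroup.prod_mono le_rfl le_top) (Subgroup.prod_mono hVU le_rfl)]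
  have h1 : (V.prod (mulP p)).relIndex (V.prod ⊤) = p := by
    have e : V.prod (mulP p) = V.prod ⊤ ⊓ (mulP p).comap (MonoidHom.snd D (Multiplicative ℤ)) := by
      ext x
      simp [Subgroup.mem_prod]
    rw [e, Subgroup.inf_relIndex_left, Subgroup.relIndex_comap]
    have e2 : (V.prod ⊤).map (MonoidHom.snd D (Multiplicative ℤ)) = ⊤ := by
      ext x
      simp only [Subgroup.mem_map, Subgroup.mem_prod, Subgroup.mem_top, and_true, iff_true]
      exact ⟨(1, x), V.one_mem, rfl⟩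
    rw [e2, Subgroup.relIndex_top_right, index_mulP]
  have h2 : (V.prod (⊤ : Subgroup (Multiplicative ℤ))).relIndex (U.prod ⊤) = V.relIndex U := by
    have e : V.prod (⊤ : Subgroup (Multiplicative ℤ)) =
        V.comap (MonoidHom.fst D (Multiplicative ℤ)) := by
      ext x
      simp [Subgroup.mem_prod]
    rw [e, Subgroup.relIndex_comap]
    have e2 : (U.prod ⊤).map (MonoidHom.fst D (Multiplicative ℤ)) = U := by
      ext x
      simp only [Subgroup.mem_map, Subgroup.mem_prod, Subgroup.mem_top, and_true]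
      constructor
      · rintro ⟨y, hy, rfl⟩
        exact hy
      · intro hx
        exact ⟨(x, 1), hx, rfl⟩
    rw [e2]
  rw [h1, h2]

/-- An open subgroup of a subgroup contains the trace of an open normal subgroup. -/
lemma exists_normal_trace [NonarchimedeanGroup Δ] [CompactSpace Δ] {D : Subgroup Δ}
    {V : Subgroup D} (hV : IsOpen (V : Set D)) :
    ∃ O : Subgroup Δ, O.Normal ∧ IsOpen (O : Set Δ) ∧ ∀ x : D, (x : Δ) ∈ O → x ∈ V := by
  obtain ⟨W, hW, hWV⟩ := isOpen_induced_iff.1 hV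
  have h1 : (1 : Δ) ∈ W := by
    have : (1 : D) ∈ Subtype.val ⁻¹' W := by
      rw [hWV]
      exact V.one_mem
    exact this
  obtain ⟨O₁, hO₁⟩ := NonarchimedeanGroup.is_nonarchimedean W (hW.mem_nhds h1)
  obtain ⟨O, hO⟩ := IsTopologicalGroup.exist_openNormalSubgroup_sub_clopen_nhds_of_one
    (W := (O₁ : Set Δ)) O₁.isClopen O₁.one_mem
  refine ⟨O.toSubgroup, O.isNormal', O.isOpen', fun x hx => ?_⟩
  have h2 : x ∈ Subtype.val ⁻¹' W := hO₁ (hO hx)
  rw [hWV] at h2
  exact h2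

end StepRAux

open StepRAux in
theorem step_RP [NonarchimedeanGroup Δ] [CompactSpace Δ] (hp : ProP p Δ) {e : ℕ}
    (hR : RP p Δ (e + 1)) {M : ℕ → Subgroup Δ} (hM : ZpSeq p M) :
    RP p (⨅ m, M m : Subgroup Δ) e := by
  have hpp : p.Prime := Fact.out
  intro U V hV hE
  obtain ⟨O, hO, hO', hOV⟩ := exists_normal_trace hV
  obtain ⟨m, v, hvO, hvM, hC⟩ := zpSeq_compare hp hM O hO hO'
  obtain ⟨hcomm, -, hmem⟩ := hC 1
  obtain ⟨N, hN⟩ : ∃ N, N = O ⊓ M (m + 1) := ⟨_, rfl⟩
  rw [← hN] at hcomm hmem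
  have hNn : N.Normal := by
    have _ := hM.normal (m + 1)
    have _ := hO
    rw [hN]
    exact Subgroup.normal_inf_normal O (M (m + 1))
  have hNo : IsOpen (N : Set Δ) := by
    rw [hN]
    exact hO'.inter (hM.isOpen _)
  have hcm : ∀ (x : (⨅ m, M m : Subgroup Δ)) (a : Multiplicative ℤ),
      Commute (((QuotientGroup.mk' N).comp (⨅ m, M m : Subgroup Δ).subtype) x)
        (zpowersHom (Δ ⧸ N) (v : Δ ⧸ N) a) := by
    intro x a
    rw [zpowersHom_apply]
    apply Commute.zpow_right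
    have h1 := (QuotientGroup.eq_one_iff (N := N) _).2 (hcomm x x.2)
    change (x : Δ ⧸ N) * (v : Δ ⧸ N) = (v : Δ ⧸ N) * (x : Δ ⧸ N)
    rw [QuotientGroup.mk_mul, QuotientGroup.mk_mul, QuotientGroup.mk_mul, QuotientGroup.mk_inv,
      QuotientGroup.mk_inv, mul_inv_eq_one, mul_inv_eq_iff_eq_mul] at h1
    exact h1
  obtain ⟨φ, hφ⟩ : ∃ φ : (⨅ m, M m : Subgroup Δ) × Multiplicative ℤ →* Δ ⧸ N,
      ∀ x a, φ (x, a) = (((x : Δ) * v ^ (Multiplicative.toAdd a) : Δ) : Δ ⧸ N) :=
    ⟨MonoidHom.noncommCoprod _ _ hcm, fun x a => by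
      rw [MonoidHom.noncommCoprod_apply, zpowersHom_apply]
      simp⟩
  have hker : φ.ker ≤ V.prod (mulP p) := by
    rintro ⟨x, a⟩ hx
    rw [MonoidHom.mem_ker, hφ, QuotientGroup.eq_one_iff, hmem x x.2] at hx
    rw [Subgroup.mem_prod]
    exact ⟨hOV x hx.1, (mem_mulP a).2 (by simpa using hx.2)⟩
  obtain ⟨hVU, hpow, hco⟩ := hE
  have hUV : V.prod (mulP p) ≤ U.prod ⊤ := Subgroup.prod_mono hVU le_top
  have key := hR (((U.prod ⊤).map φ).comap (QuotientGroup.mk' N))
    (((V.prod (mulP p)).map φ).comap (QuotientGroup.mk' N)) ?_ ?_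
  · rw [Subgroup.relIndex_comap, Subgroup.map_comap_eq_self_of_surjective
      (QuotientGroup.mk'_surjective N), Subgroup.relIndex_map_map, sup_of_le_left hker,
      sup_of_le_left (hker.trans hUV), relIndex_prod_mulP hVU, pow_succ'] at key
    exact Nat.le_of_mul_le_mul_left key hpp.pos
  · refine Subgroup.isOpen_mono (H₁ := N) ?_ hNo
    intro n hn
    rw [Subgroup.mem_comap, QuotientGroup.mk'_apply, (QuotientGroup.eq_one_iff n).2 hn]
    exact Subgroup.one_mem _
  · refine ⟨Subgroup.comap_mono (Subgroup.map_mono hUV), ?_, ?_⟩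
    · intro x hx
      rw [Subgroup.mem_comap, Subgroup.mem_map] at hx ⊢
      obtain ⟨⟨y, a⟩, hy, hyx⟩ := hx
      rw [Subgroup.mem_prod] at hy
      refine ⟨(y, a) ^ p, ?_, by rw [map_pow, map_pow, hyx]⟩
      rw [Subgroup.mem_prod]
      refine ⟨hpow y hy.1, (mem_mulP _).2 ?_⟩
      simp
    · intro x hx y hy
      rw [Subgroup.mem_comap, Subgroup.mem_map] at hx hy ⊢
      obtain ⟨⟨x₁, a⟩, hx₁, hxx⟩ := hx
      obtain ⟨⟨y₁, b⟩, hy₁, hyy⟩ := hy
      rw [Subgroup.mem_prod] at hx₁ hy₁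
      refine ⟨(x₁, a) * (y₁, b) * (x₁, a)⁻¹ * (y₁, b)⁻¹, ?_, ?_⟩
      · rw [Subgroup.mem_prod]
        refine ⟨hco x₁ hx₁.1 y₁ hy₁.1, (mem_mulP _).2 ?_⟩
        simp
      · simp only [map_mul, map_inv, hxx, hyy]

end Vale.Agent.P241.F
end

section

set_option autoImplicit false

namespace Vale.Agent.P241.F

namespace StepQAux

theorem pow_index_mem_of_normalizes {G : Type} [Group G] (K : Subgroup G) (z : G)
    (hz : z ∈ Subgroup.normalizer (K : Set G)) : z ^ K.index ∈ K := by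
  have h1 := Subgroup.pow_index_mem (K.subgroupOf (Subgroup.normalizer (K : Set G))) ⟨z, hz⟩
  have h2 : K.relIndex (Subgroup.normalizer (K : Set G)) ∣ K.index :=
    Subgroup.relIndex_dvd_index_of_le Subgroup.le_normalizer
  obtain ⟨c, hc⟩ := h2
  rw [hc, pow_mul]
  refine K.pow_mem ?_ c
  have h3 := Subgroup.mem_subgroupOf.1 h1
  simpa [Subgroup.relIndex] using h3

theorem pow_relIndex_mem {G : Type} [Group G] (K T : Subgroup G) (z : G)
    (hzT : z ∈ T) (hz : ∀ k ∈ K, z * k * z⁻¹ ∈ K) (hz' : ∀ k ∈ K, z⁻¹ * k * z ∈ K) :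
    z ^ K.relIndex T ∈ K := by
  have h := pow_index_mem_of_normalizes (K.subgroupOf T) ⟨z, hzT⟩ ?_
  · have h3 := Subgroup.mem_subgroupOf.1 h
    simpa [Subgroup.relIndex] using h3
  · rw [Subgroup.mem_normalizer_iff]
    intro k
    rw [Subgroup.mem_subgroupOf, Subgroup.mem_subgroupOf]
    constructor
    · intro hk
      simpa using hz _ hk
    · intro hk
      have := hz' _ hk
      simpa [mul_assoc] using this

theorem card_sub_eq {G F : Type} [Group G] [Group F] (f : G →* F) (T : Subgroup G) (q : ℕ)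
    (P : Subgroup G → Prop) (hker : f.ker ≤ T) (h1 : ∀ K : Subgroup G, f.ker ≤ K → P K)
    (h2 : ∀ K : Subgroup G, K ≤ T → K.relIndex T = q → P K → f.ker ≤ K) :
    Nat.card {K : Subgroup G // K ≤ T ∧ K.relIndex T = q ∧ P K} =
      Nat.card {K : Subgroup F // K ≤ T.map f ∧ K.relIndex (T.map f) = q} := by
  refine Nat.card_congr ⟨fun K => ⟨K.1.map f, ?_, ?_⟩, fun K => ⟨K.1.comap f, ?_, ?_, ?_⟩, ?_, ?_⟩
  · exact Subgroup.map_mono K.2.1
  · rw [Subgroup.relIndex_map_map, sup_eq_left.2 hker, sup_eq_left.2 (h2 K.1 K.2.1 K.2.2.1 K.2.2.2)]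
    exact K.2.2.1
  · calc K.1.comap f ≤ (T.map f).comap f := Subgroup.comap_mono K.2.1
      _ = T := by rw [Subgroup.comap_map_eq, sup_eq_left.2 hker]
  · rw [Subgroup.relIndex_comap]
    exact K.2.2
  · exact h1 _ (by
      intro x hx
      rw [Subgroup.mem_comap, MonoidHom.mem_ker.1 hx]
      exact K.1.one_mem)
  · intro K
    apply Subtype.ext
    change (K.1.map f).comap f = K.1
    rw [Subgroup.comap_map_eq, sup_eq_left.2 (h2 K.1 K.2.1 K.2.2.1 K.2.2.2)]
  · intro K
    apply Subtype.ext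
    change (K.1.comap f).map f = K.1
    rw [Subgroup.map_comap_eq]
    refine inf_eq_right.2 (K.2.1.trans ?_)
    rintro _ ⟨x, -, rfl⟩
    exact ⟨x, rfl⟩

variable {p : ℕ} [Fact p.Prime]

theorem mem_of_dvd {D : Type} [Group D] [TopologicalSpace D] (A : Type) [Group A]
    (W X : Subgroup D) (s C : ℕ) (hsC : s ≤ C)
    (hX : ∀ K : Subgroup D, IsOpen (K : Set D) → K ≤ W → K.relIndex W ≤ p ^ s → X ≤ K)
    (K : Subgroup (D × (Multiplicative ℤ × A))) (hK : K ≤ W.prod ⊤)
    (hK' : K.relIndex (W.prod ⊤) = p ^ s)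
    (hKo : IsOpen ((K.comap (MonoidHom.inl D (Multiplicative ℤ × A)) : Subgroup D) : Set D))
    (x : D) (hx : x ∈ X) (a : ℤ) (ha : (p : ℤ) ^ C ∣ a) :
    (x, (Multiplicative.ofAdd a, (1 : A))) ∈ K := by
  have hp : p ≠ 0 := (Fact.out : p.Prime).ne_zero
  have h0 : K.relIndex (W.prod ⊤) ≠ 0 := by rw [hK']; exact pow_ne_zero _ hp
  have h1 : (x, (1 : Multiplicative ℤ × A)) ∈ K := by
    have h2 := hX (K.comap (MonoidHom.inl D (Multiplicative ℤ × A))) hKo ?_ ?_ hx
    · exact h2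
    · intro y hy
      exact (Subgroup.mem_prod.1 (hK hy)).1
    · rw [Subgroup.relIndex_comap, ← hK']
      refine Subgroup.relIndex_le_of_le_right ?_ h0
      rintro _ ⟨y, hy, rfl⟩
      exact Subgroup.mem_prod.2 ⟨hy, Subgroup.mem_top _⟩
  have h2 : ((1 : D), (Multiplicative.ofAdd (1 : ℤ), (1 : A))) ^ (p ^ s) ∈ K := by
    rw [← hK']
    refine pow_relIndex_mem K _ _ ?_ ?_ ?_
    · exact Subgroup.mem_prod.2 ⟨W.one_mem, Subgroup.mem_top _⟩
    · rintro ⟨k1, k2, k3⟩ hk
      have : ((1 : D), (Multiplicative.ofAdd (1 : ℤ), (1 : A))) * (k1, k2, k3) *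
          ((1 : D), (Multiplicative.ofAdd (1 : ℤ), (1 : A)))⁻¹ = (k1, k2, k3) := by
        simp
      rw [this]
      exact hk
    · rintro ⟨k1, k2, k3⟩ hk
      have : ((1 : D), (Multiplicative.ofAdd (1 : ℤ), (1 : A)))⁻¹ * (k1, k2, k3) *
          ((1 : D), (Multiplicative.ofAdd (1 : ℤ), (1 : A))) = (k1, k2, k3) := by
        simp
      rw [this]
      exact hk
  obtain ⟨c, hc⟩ := (pow_dvd_pow (p : ℤ) hsC).trans ha
  have h3 := K.mul_mem h1 (K.zpow_mem h2 c)
  have h5 : ((1 : D), (Multiplicative.ofAdd (1 : ℤ), (1 : A))) =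
      (MonoidHom.inr D (Multiplicative ℤ × A)).comp (MonoidHom.inl (Multiplicative ℤ) A)
        (Multiplicative.ofAdd 1) := rfl
  have h4 : (x, (1 : Multiplicative ℤ × A)) *
      (((1 : D), (Multiplicative.ofAdd (1 : ℤ), (1 : A))) ^ (p ^ s)) ^ c =
      (x, (Multiplicative.ofAdd a, (1 : A))) := by
    rw [h5, ← map_pow, ← map_zpow]
    have h6 : ((Multiplicative.ofAdd (1 : ℤ)) ^ (p ^ s)) ^ c = Multiplicative.ofAdd a := by
      apply Multiplicative.toAdd.injective
      rw [hc]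
      simp
    rw [h6]
    simp
  rwa [h4] at h3

variable {Δ : Type} [Group Δ] [TopologicalSpace Δ]

omit [Fact p.Prime] in
theorem approx [NonarchimedeanGroup Δ] [CompactSpace Δ] {M : ℕ → Subgroup Δ} (hM : ZpSeq p M)
    (O : Subgroup Δ) (hO : O.Normal) (hO' : IsOpen (O : Set Δ)) (K : Subgroup Δ)
    (hK : IsOpen (K : Set Δ)) (h : O ⊓ (⨅ i, M i) ≤ K) (m C : ℕ) :
    ∃ Y : Subgroup Δ, Y.Normal ∧ Y ≤ K ∧ ∃ C' ≥ C, O ⊓ M (m + C') ≤ Y := by
  obtain ⟨N', hN'⟩ := IsTopologicalGroup.exist_openNormalSubgroup_sub_clopen_nhds_of_one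
    (W := (K : Set Δ)) ⟨Subgroup.isClosed_of_isOpen K hK, hK⟩ K.one_mem
  have hN1 : (N'.toSubgroup).Normal := N'.isNormal'
  have hD : (⨅ i, M i : Subgroup Δ).Normal := Subgroup.normal_iInf_normal hM.normal
  have hOD : (O ⊓ (⨅ i, M i : Subgroup Δ)).Normal := inferInstance
  refine ⟨(O ⊓ (⨅ i, M i)) ⊔ N'.toSubgroup, inferInstance, sup_le h hN', ?_⟩
  have hYo : IsOpen (((O ⊓ (⨅ i, M i)) ⊔ N'.toSubgroup : Subgroup Δ) : Set Δ) :=
    Subgroup.isOpen_mono le_sup_right N'.isOpen'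
  have hanti : Antitone M := antitone_nat_of_succ_le hM.anti
  have h2 := exists_subset_nhds_of_compactSpace
    (V := fun i : ℕ => ((O ⊓ M (m + (C + i)) : Subgroup Δ) : Set Δ))
    (U := (((O ⊓ (⨅ i, M i)) ⊔ N'.toSubgroup : Subgroup Δ) : Set Δ)) ?_ ?_ ?_
  · obtain ⟨i, hi⟩ := h2
    exact ⟨C + i, Nat.le_add_right _ _, hi⟩
  · refine directed_of_isDirected_le ?_
    intro a b hab
    exact inf_le_inf_left O (hanti (by omega))
  · intro i
    exact Subgroup.isClosed_of_isOpen _ (hO'.inter (hM.isOpen _))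
  · intro x hx
    refine hYo.mem_nhds ?_
    refine Subgroup.mem_sup_left ?_
    rw [Set.mem_iInter] at hx
    refine ⟨(hx 0).1, ?_⟩
    have h3 : x ∈ (⨅ i, M i : Subgroup Δ) := by
      rw [Subgroup.mem_iInf]
      intro i
      exact hanti (by omega : i ≤ m + (C + i)) (hx i).2
    exact h3

theorem ker_le [NonarchimedeanGroup Δ] [CompactSpace Δ] {M : ℕ → Subgroup Δ} (hM : ZpSeq p M)
    (O : Subgroup Δ) (hO : O.Normal) (hO' : IsOpen (O : Set Δ)) (m : ℕ) (v : Δ)
    (hvm : v ∈ M m)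
    (hc : ∀ C : ℕ,
      (∀ x ∈ (⨅ i, M i : Subgroup Δ), x * v * x⁻¹ * v⁻¹ ∈ O ⊓ M (m + C)) ∧
      (∀ g ∈ M m, ∃ x ∈ (⨅ i, M i : Subgroup Δ), ∃ a : ℤ, (x * v ^ a)⁻¹ * g ∈ O ⊓ M (m + C)) ∧
      ∀ x ∈ (⨅ i, M i : Subgroup Δ), ∀ a : ℤ,
        x * v ^ a ∈ O ⊓ M (m + C) ↔ x ∈ O ∧ (p : ℤ) ^ C ∣ a)
    (A : Type) [Group A] (s C : ℕ) (hsC : s ≤ C) (W : Subgroup (⨅ i, M i : Subgroup Δ))
    (hXW : O.subgroupOf (⨅ i, M i) ≤ W)
    (hX : ∀ K : Subgroup (⨅ i, M i : Subgroup Δ), IsOpen (K : Set (⨅ i, M i : Subgroup Δ)) →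
      K ≤ W → K.relIndex W ≤ p ^ s → O.subgroupOf (⨅ i, M i) ≤ K)
    (T : Subgroup Δ)
    (hT : ∀ g, g ∈ T ↔ ∃ x ∈ W, ∃ a : ℤ, ((x : Δ) * v ^ a)⁻¹ * g ∈ O ⊓ M (m + C))
    (K : Subgroup (Δ × A)) (hK : K ≤ T.prod ⊤) (hK' : K.relIndex (T.prod ⊤) = p ^ s)
    (hKo : IsOpen ((K.comap (MonoidHom.inl Δ A) : Subgroup Δ) : Set Δ)) :
    ∀ g ∈ O ⊓ M (m + C), (g, (1 : A)) ∈ K := by
  have hp0 : p ≠ 0 := (Fact.out : p.Prime).ne_zero
  have h0 : K.relIndex (T.prod ⊤) ≠ 0 := by rw [hK']; exact pow_ne_zero _ hp0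
  have hanti : Antitone M := antitone_nat_of_succ_le hM.anti
  have hMn := hM.normal (m + C)
  have hNn : (O ⊓ M (m + C)).Normal := inferInstance
  have hDM : ∀ i, (⨅ i, M i : Subgroup Δ) ≤ M i := fun i => iInf_le _ i
  have hK1T : K.comap (MonoidHom.inl Δ A) ≤ T := fun y hy => (Subgroup.mem_prod.1 (hK hy)).1
  have hmap : (T.map (MonoidHom.inl Δ A)) ≤ T.prod ⊤ := by
    rintro _ ⟨y, hy, rfl⟩
    exact Subgroup.mem_prod.2 ⟨hy, Subgroup.mem_top _⟩
  have hK1i : (K.comap (MonoidHom.inl Δ A)).relIndex T ≤ p ^ s := by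
    rw [Subgroup.relIndex_comap, ← hK']
    exact Subgroup.relIndex_le_of_le_right hmap h0
  have hK1i0 : (K.comap (MonoidHom.inl Δ A)).relIndex T ≠ 0 := by
    rw [Subgroup.relIndex_comap]
    intro h
    exact h0 (Subgroup.relIndex_eq_zero_of_le_right hmap h)
  have hWT : W.map (⨅ i, M i : Subgroup Δ).subtype ≤ T := by
    rintro _ ⟨y, hy, rfl⟩
    rw [hT]
    refine ⟨y, hy, 0, ?_⟩
    simp
  have hXK : O ⊓ (⨅ i, M i) ≤ K.comap (MonoidHom.inl Δ A) := by
    have h1 := hX ((K.comap (MonoidHom.inl Δ A)).subgroupOf (⨅ i, M i)) ?_ ?_ ?_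
    · intro x hx
      exact h1 (show (⟨x, hx.2⟩ : (⨅ i, M i : Subgroup Δ)) ∈ O.subgroupOf (⨅ i, M i) from hx.1)
    · exact hKo.preimage continuous_subtype_val
    · intro x hx
      obtain ⟨y, hy, a, hya⟩ := (hT x).1 (hK1T hx)
      have h2 := hNn.conj_mem _ hya (v ^ a)
      have h3 : v ^ a * (((y : Δ) * v ^ a)⁻¹ * (x : Δ)) * (v ^ a)⁻¹ =
          ((y⁻¹ * x : (⨅ i, M i : Subgroup Δ)) : Δ) * v ^ (-a) := by
        push_cast
        rw [zpow_neg]
        group
      rw [h3, (hc C).2.2 _ (y⁻¹ * x).2] at h2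
      have h4 : y⁻¹ * x ∈ W := hXW h2.1
      have h5 := W.mul_mem hy h4
      simpa using h5
    · rw [Subgroup.subgroupOf, Subgroup.relIndex_comap]
      exact (Subgroup.relIndex_le_of_le_right hWT hK1i0).trans hK1i
  obtain ⟨Y, hYn, hYK, C', hCC', hY⟩ := approx hM O hO hO' _ hKo hXK m C
  have hcomm : ∀ g ∈ M m, Commute (g : Δ ⧸ Y) (v : Δ ⧸ Y) := by
    intro g hg
    obtain ⟨x, hx, a, hxa⟩ := (hc C').2.1 g hg
    have h1 : ((x * v ^ a : Δ) : Δ ⧸ Y) = (g : Δ ⧸ Y) := QuotientGroup.eq.2 (hY hxa)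
    have h2 : Commute ((x : Δ) : Δ ⧸ Y) (v : Δ ⧸ Y) := by
      have h3 := hY ((hc C').1 x hx)
      have h4 : ((x * v * x⁻¹ * v⁻¹ : Δ) : Δ ⧸ Y) = 1 := (QuotientGroup.eq_one_iff _).2 h3
      have h5 : ((x : Δ) : Δ ⧸ Y) * (v : Δ ⧸ Y) * ((x : Δ) : Δ ⧸ Y)⁻¹ * (v : Δ ⧸ Y)⁻¹ = 1 := h4
      exact mul_inv_eq_iff_eq_mul.1 (mul_inv_eq_one.1 h5)
    rw [← h1]
    exact h2.mul_left ((Commute.refl _).zpow_left a)
  have hc1 : ∀ g ∈ M m, v * g * v⁻¹ * g⁻¹ ∈ Y := by
    intro g hg
    have h1 := hcomm g hg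
    have h2 : ((v * g * v⁻¹ * g⁻¹ : Δ) : Δ ⧸ Y) = 1 := by
      change (v : Δ ⧸ Y) * (g : Δ ⧸ Y) * (v : Δ ⧸ Y)⁻¹ * (g : Δ ⧸ Y)⁻¹ = 1
      rw [← h1.eq, mul_inv_cancel_right, mul_inv_cancel]
    exact (QuotientGroup.eq_one_iff _).1 h2
  have hc2 : ∀ g ∈ M m, v⁻¹ * g * v * g⁻¹ ∈ Y := by
    intro g hg
    have h1 := hcomm g hg
    have h2 : ((v⁻¹ * g * v * g⁻¹ : Δ) : Δ ⧸ Y) = 1 := by
      change (v : Δ ⧸ Y)⁻¹ * (g : Δ ⧸ Y) * (v : Δ ⧸ Y) * (g : Δ ⧸ Y)⁻¹ = 1
      rw [mul_assoc ((v : Δ ⧸ Y)⁻¹), h1.eq, inv_mul_cancel_left, mul_inv_cancel]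
    exact (QuotientGroup.eq_one_iff _).1 h2
  have hTM : T ≤ M m := by
    intro g hg
    obtain ⟨x, -, a, hxa⟩ := (hT g).1 hg
    have h1 : (x : Δ) * v ^ a ∈ M m := (M m).mul_mem (hDM m x.2) ((M m).zpow_mem hvm a)
    have h2 := (M m).mul_mem h1 (hanti (Nat.le_add_right m C) hxa.2)
    rwa [mul_inv_cancel_left] at h2
  have hz : ((v, (1 : A)) : Δ × A) ^ (p ^ s) ∈ K := by
    rw [← hK']
    refine pow_relIndex_mem K _ _ ?_ ?_ ?_
    · refine Subgroup.mem_prod.2 ⟨?_, Subgroup.mem_top _⟩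
      rw [hT]
      refine ⟨1, W.one_mem, 1, ?_⟩
      simp
    · rintro ⟨k1, k2⟩ hk
      have h1 : ((v * k1 * v⁻¹ * k1⁻¹, (1 : A)) : Δ × A) ∈ K :=
        hYK (hc1 k1 (hTM (Subgroup.mem_prod.1 (hK hk)).1))
      have h2 := K.mul_mem h1 hk
      simpa using h2
    · rintro ⟨k1, k2⟩ hk
      have h1 : ((v⁻¹ * k1 * v * k1⁻¹, (1 : A)) : Δ × A) ∈ K :=
        hYK (hc2 k1 (hTM (Subgroup.mem_prod.1 (hK hk)).1))
      have h2 := K.mul_mem h1 hk
      simpa using h2
  intro g hg
  obtain ⟨x, hx, a, hxa⟩ := (hc C').2.1 g (hanti (Nat.le_add_right m C) hg.2)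
  have h1 : (x * v ^ a)⁻¹ * g ∈ O ⊓ M (m + C) := ⟨hxa.1, hanti (by omega) hxa.2⟩
  have h2 : x * v ^ a ∈ O ⊓ M (m + C) := by
    have h3 := (O ⊓ M (m + C)).mul_mem hg ((O ⊓ M (m + C)).inv_mem h1)
    simpa using h3
  obtain ⟨h3, h4⟩ := ((hc C).2.2 x hx a).1 h2
  obtain ⟨c, hc'⟩ := (pow_dvd_pow (p : ℤ) hsC).trans h4
  have h5 : ((x, (1 : A)) : Δ × A) ∈ K := hXK ⟨h3, hx⟩
  have h6 : (((x * v ^ a)⁻¹ * g, (1 : A)) : Δ × A) ∈ K := hYK (hY hxa)
  have h7 : ((v ^ a, (1 : A)) : Δ × A) ∈ K := by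
    have h8 := K.zpow_mem hz c
    have h9 : (((v, (1 : A)) : Δ × A) ^ (p ^ s)) ^ c = (v ^ a, (1 : A)) := by
      have h10 : ((v, (1 : A)) : Δ × A) = MonoidHom.inl Δ A v := rfl
      have h11 : ((v ^ a, (1 : A)) : Δ × A) = MonoidHom.inl Δ A (v ^ a) := rfl
      rw [h10, h11, ← map_pow, ← map_zpow, hc', zpow_mul]
      norm_cast
    rwa [h9] at h8
  have h12 := K.mul_mem (K.mul_mem h5 h7) h6
  rwa [Prod.mk_mul_mk, Prod.mk_mul_mk, mul_inv_cancel_left, one_mul, one_mul] at h12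

omit [TopologicalSpace Δ] [Fact p.Prime] in
theorem psi_aux (D N : Subgroup Δ) [N.Normal] (v : Δ) (h : ∀ x ∈ D, x * v * x⁻¹ * v⁻¹ ∈ N)
    (A : Type) [Group A] : ∃ f : D × (Multiplicative ℤ × A) →* (Δ ⧸ N) × A,
      ∀ (x : D) (a : ℤ) (b : A), f (x, (Multiplicative.ofAdd a, b)) =
        (QuotientGroup.mk ((x : Δ) * v ^ a), b) := by
  have hcomm : ∀ x : D, Commute ((x : Δ) : Δ ⧸ N) (v : Δ ⧸ N) := by
    intro x
    have h4 : (((x : Δ) * v * (x : Δ)⁻¹ * v⁻¹ : Δ) : Δ ⧸ N) = 1 :=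
      (QuotientGroup.eq_one_iff _).2 (h x x.2)
    have h5 : ((x : Δ) : Δ ⧸ N) * (v : Δ ⧸ N) * ((x : Δ) : Δ ⧸ N)⁻¹ * (v : Δ ⧸ N)⁻¹ = 1 := h4
    exact mul_inv_eq_iff_eq_mul.1 (mul_inv_eq_one.1 h5)
  refine ⟨MonoidHom.mk' (fun q => (QuotientGroup.mk ((q.1 : Δ) *
    v ^ (Multiplicative.toAdd q.2.1)), q.2.2)) ?_, fun x a b => rfl⟩
  rintro ⟨x, a, b⟩ ⟨x', a', b'⟩
  refine Prod.ext ?_ rfl
  change (((x : Δ) * (x' : Δ) * v ^ (Multiplicative.toAdd a + Multiplicative.toAdd a') : Δ) :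
    Δ ⧸ N) = (((x : Δ) * v ^ (Multiplicative.toAdd a) : Δ) : Δ ⧸ N) *
      (((x' : Δ) * v ^ (Multiplicative.toAdd a') : Δ) : Δ ⧸ N)
  rw [zpow_add, QuotientGroup.mk_mul, QuotientGroup.mk_mul, QuotientGroup.mk_mul,
    QuotientGroup.mk_mul, QuotientGroup.mk_mul, QuotientGroup.mk_zpow, QuotientGroup.mk_zpow]
  have h6 := (hcomm x').zpow_right (Multiplicative.toAdd a)
  simp only [mul_assoc]
  rw [← mul_assoc ((x' : Δ) : Δ ⧸ N), h6.eq, mul_assoc]

omit [TopologicalSpace Δ] [Fact p.Prime] in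
theorem exists_tilde (D N : Subgroup Δ) [N.Normal] (v : Δ)
    (h : ∀ x ∈ D, x * v * x⁻¹ * v⁻¹ ∈ N) : ∃ T : Subgroup D → Subgroup Δ,
      (∀ W g, g ∈ T W ↔ ∃ x ∈ W, ∃ a : ℤ, ((x : Δ) * v ^ a)⁻¹ * g ∈ N) ∧
      ∀ V U : Subgroup D, V ≤ U → (∀ (x : D) (a : ℤ), (x : Δ) * v ^ a ∈ N → x ∈ V) →
        (T V).relIndex (T U) = V.relIndex U := by
  obtain ⟨f, hf⟩ := psi_aux D N v h Unit
  have hπ : Function.Surjective ((QuotientGroup.mk' N).prod (1 : Δ →* Unit)) := by
    rintro ⟨y, b⟩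
    obtain ⟨g, rfl⟩ := QuotientGroup.mk'_surjective N y
    exact ⟨g, rfl⟩
  refine ⟨fun W => ((W.prod ⊤).map f).comap ((QuotientGroup.mk' N).prod 1), ?_, ?_⟩
  · intro W g
    constructor
    · rintro ⟨⟨x, a, b⟩, hx, hxg⟩
      refine ⟨x, (Subgroup.mem_prod.1 hx).1, Multiplicative.toAdd a, ?_⟩
      have h1 := hf x (Multiplicative.toAdd a) b
      rw [ofAdd_toAdd, hxg] at h1
      exact QuotientGroup.eq.1 (congrArg Prod.fst h1).symm
    · rintro ⟨x, hx, a, hxa⟩
      refine ⟨(x, (Multiplicative.ofAdd a, ())), Subgroup.mem_prod.2 ⟨hx, Subgroup.mem_top _⟩, ?_⟩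
      rw [hf]
      exact Prod.ext (QuotientGroup.eq.2 hxa) rfl
  · intro V U hVU hV
    have hker : f.ker ≤ V.prod ⊤ := by
      rintro ⟨x, a, b⟩ hx
      have h1 := hf x (Multiplicative.toAdd a) b
      rw [ofAdd_toAdd, MonoidHom.mem_ker.1 hx] at h1
      have h2 : (QuotientGroup.mk ((x : Δ) * v ^ (Multiplicative.toAdd a)) : Δ ⧸ N) = 1 :=
        (congrArg Prod.fst h1).symm
      exact Subgroup.mem_prod.2 ⟨hV x _ ((QuotientGroup.eq_one_iff _).1 h2), Subgroup.mem_top _⟩
    have hle : V.prod (⊤ : Subgroup (Multiplicative ℤ × Unit)) ≤ U.prod ⊤ :=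
      Subgroup.prod_mono hVU le_rfl
    rw [Subgroup.relIndex_comap, Subgroup.map_comap_eq_self_of_surjective hπ,
      Subgroup.relIndex_map_map, sup_eq_left.2 hker, sup_eq_left.2 (hker.trans hle)]
    have h1 : V.prod (⊤ : Subgroup (Multiplicative ℤ × Unit)) =
        V.comap (MonoidHom.fst D (Multiplicative ℤ × Unit)) := by
      ext x
      simp [Subgroup.mem_prod]
    rw [h1, Subgroup.relIndex_comap]
    congr 1
    ext x
    constructor
    · rintro ⟨y, hy, rfl⟩
      exact (Subgroup.mem_prod.1 hy).1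
    · intro hx
      exact ⟨(x, 1), Subgroup.mem_prod.2 ⟨hx, Subgroup.mem_top _⟩, rfl⟩

theorem cnt_eq [NonarchimedeanGroup Δ] [CompactSpace Δ] {M : ℕ → Subgroup Δ} (hM : ZpSeq p M)
    (O : Subgroup Δ) (hO : O.Normal) (hO' : IsOpen (O : Set Δ)) (m : ℕ) (v : Δ)
    (hvm : v ∈ M m)
    (hc : ∀ C : ℕ,
      (∀ x ∈ (⨅ i, M i : Subgroup Δ), x * v * x⁻¹ * v⁻¹ ∈ O ⊓ M (m + C)) ∧
      (∀ g ∈ M m, ∃ x ∈ (⨅ i, M i : Subgroup Δ), ∃ a : ℤ, (x * v ^ a)⁻¹ * g ∈ O ⊓ M (m + C)) ∧
      ∀ x ∈ (⨅ i, M i : Subgroup Δ), ∀ a : ℤ,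
        x * v ^ a ∈ O ⊓ M (m + C) ↔ x ∈ O ∧ (p : ℤ) ^ C ∣ a)
    (A : Type) [Group A] (s C : ℕ) (hsC : s ≤ C) (W : Subgroup (⨅ i, M i : Subgroup Δ))
    (hXW : O.subgroupOf (⨅ i, M i) ≤ W)
    (hX : ∀ K : Subgroup (⨅ i, M i : Subgroup Δ), IsOpen (K : Set (⨅ i, M i : Subgroup Δ)) →
      K ≤ W → K.relIndex W ≤ p ^ s → O.subgroupOf (⨅ i, M i) ≤ K)
    (T : Subgroup Δ)
    (hT : ∀ g, g ∈ T ↔ ∃ x ∈ W, ∃ a : ℤ, ((x : Δ) * v ^ a)⁻¹ * g ∈ O ⊓ M (m + C)) :
    cnt p (Multiplicative ℤ × A) W s = cnt p A T s := by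
  have hMn := hM.normal (m + C)
  have hNn : (O ⊓ M (m + C)).Normal := inferInstance
  have hNo : IsOpen ((O ⊓ M (m + C) : Subgroup Δ) : Set Δ) := hO'.inter (hM.isOpen _)
  have hNT : O ⊓ M (m + C) ≤ T := by
    intro g hg
    rw [hT]
    refine ⟨1, W.one_mem, 0, ?_⟩
    simpa using hg
  obtain ⟨f, hf⟩ := psi_aux (⨅ i, M i) (O ⊓ M (m + C)) v (hc C).1 A
  have hker : ∀ (x : (⨅ i, M i : Subgroup Δ)) (a : Multiplicative ℤ) (b : A),
      (x, (a, b)) ∈ f.ker ↔ (x : Δ) ∈ O ∧ (p : ℤ) ^ C ∣ Multiplicative.toAdd a ∧ b = 1 := by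
    intro x a b
    have h1 := hf x (Multiplicative.toAdd a) b
    rw [ofAdd_toAdd] at h1
    rw [MonoidHom.mem_ker, h1, Prod.ext_iff]
    change (QuotientGroup.mk ((x : Δ) * v ^ (Multiplicative.toAdd a)) :
      Δ ⧸ (O ⊓ M (m + C))) = 1 ∧ b = 1 ↔ _
    rw [QuotientGroup.eq_one_iff, (hc C).2.2 x x.2]
    tauto
  have e1 := card_sub_eq f (W.prod ⊤) (p ^ s)
    (fun K => IsOpen ((K.comap (MonoidHom.inl (⨅ i, M i : Subgroup Δ) (Multiplicative ℤ × A)) :
      Subgroup (⨅ i, M i : Subgroup Δ)) : Set (⨅ i, M i : Subgroup Δ))) ?_ ?_ ?_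
  · have e2 := card_sub_eq ((QuotientGroup.mk' (O ⊓ M (m + C))).prodMap (MonoidHom.id A))
      (T.prod ⊤) (p ^ s)
      (fun K => IsOpen ((K.comap (MonoidHom.inl Δ A) : Subgroup Δ) : Set Δ)) ?_ ?_ ?_
    · have e3 : (W.prod ⊤).map f = (T.prod ⊤).map
          ((QuotientGroup.mk' (O ⊓ M (m + C))).prodMap (MonoidHom.id A)) := by
        ext y
        constructor
        · rintro ⟨⟨x, a, b⟩, hx, rfl⟩
          refine ⟨((x : Δ) * v ^ (Multiplicative.toAdd a), b),
            Subgroup.mem_prod.2 ⟨?_, Subgroup.mem_top _⟩, ?_⟩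
          · rw [hT]
            refine ⟨x, (Subgroup.mem_prod.1 hx).1, Multiplicative.toAdd a, ?_⟩
            simp
          · exact (hf x (Multiplicative.toAdd a) b).symm
        · rintro ⟨⟨g, b⟩, hg, rfl⟩
          obtain ⟨x, hx, a, hxa⟩ := (hT g).1 (Subgroup.mem_prod.1 hg).1
          refine ⟨(x, (Multiplicative.ofAdd a, b)),
            Subgroup.mem_prod.2 ⟨hx, Subgroup.mem_top _⟩, ?_⟩
          rw [hf]
          exact Prod.ext (QuotientGroup.eq.2 hxa) rfl
      rw [e3] at e1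
      exact e1.trans e2.symm
    · rintro ⟨g, b⟩ hg
      have h1 : (QuotientGroup.mk g : Δ ⧸ (O ⊓ M (m + C))) = 1 :=
        congrArg Prod.fst (MonoidHom.mem_ker.1 hg)
      exact Subgroup.mem_prod.2 ⟨hNT ((QuotientGroup.eq_one_iff _).1 h1), Subgroup.mem_top _⟩
    · intro K hK
      refine Subgroup.isOpen_mono (H₁ := O ⊓ M (m + C)) ?_ hNo
      intro g hg
      refine hK ?_
      rw [MonoidHom.mem_ker]
      exact Prod.ext ((QuotientGroup.eq_one_iff _).2 hg) rfl
    · rintro K hK hK' hKo ⟨g, b⟩ hg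
      have h1 : (QuotientGroup.mk g : Δ ⧸ (O ⊓ M (m + C))) = 1 :=
        congrArg Prod.fst (MonoidHom.mem_ker.1 hg)
      have h2 : b = 1 := congrArg Prod.snd (MonoidHom.mem_ker.1 hg)
      rw [h2]
      exact ker_le hM O hO hO' m v hvm hc A s C hsC W hXW hX T hT K hK hK' hKo g
        ((QuotientGroup.eq_one_iff _).1 h1)
  · rintro ⟨x, a, b⟩ hx
    exact Subgroup.mem_prod.2 ⟨hXW ((hker x a b).1 hx).1, Subgroup.mem_top _⟩
  · intro K hK
    refine Subgroup.isOpen_mono (H₁ := O.subgroupOf (⨅ i, M i)) ?_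
      (hO'.preimage continuous_subtype_val)
    intro x hx
    exact hK ((hker x 1 1).2 ⟨hx, by simp, rfl⟩)
  · rintro K hK hK' hKo ⟨x, a, b⟩ hx
    obtain ⟨h1, h2, h3⟩ := (hker x a b).1 hx
    rw [h3]
    exact mem_of_dvd A W (O.subgroupOf (⨅ i, M i)) s C hsC hX K hK hK' hKo x h1 _ h2

end StepQAux

variable {p : ℕ} [Fact p.Prime] {Δ : Type} [Group Δ] [TopologicalSpace Δ]

theorem step_QP [NonarchimedeanGroup Δ] [CompactSpace Δ] (hp : ProP p Δ) {e : ℕ}
    (hR : RP p Δ (e + 1)) {M : ℕ → Subgroup Δ} (hM : ZpSeq p M) (A : Type) [Group A]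
    (hQ : QP p Δ A) : QP p (⨅ m, M m : Subgroup Δ) (Multiplicative ℤ × A) := by
  intro U V hVo hVU hidx j
  have hp0 : p ≠ 0 := (Fact.out : p.Prime).ne_zero
  have hDc : IsClosed ((⨅ m, M m : Subgroup Δ) : Set Δ) := by
    rw [Subgroup.coe_iInf]
    exact isClosed_iInter fun i => Subgroup.isClosed_of_isOpen _ (hM.isOpen i)
  have : CompactSpace (⨅ m, M m : Subgroup Δ) := isCompact_iff_compactSpace.1 hDc.isCompact
  have : NonarchimedeanGroup (⨅ m, M m : Subgroup Δ) := closed_nonarch _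
  have hpD : ProP p (⨅ m, M m : Subgroup Δ) := step_proP hp _
  have hRD : RP p (⨅ m, M m : Subgroup Δ) e := step_RP hp hR hM
  obtain ⟨b, hb⟩ := hpD V hVo
  obtain ⟨X, -, hXo, hX⟩ := exists_normal_le hpD hRD (j + 1 + b)
  obtain ⟨S, hSo, hS⟩ := isOpen_induced_iff.1 hXo
  have hS1 : (1 : Δ) ∈ S := by
    have h1 : (1 : (⨅ m, M m : Subgroup Δ)) ∈ Subtype.val ⁻¹' S := by
      rw [hS]
      exact X.one_mem
    exact h1
  obtain ⟨O1, hO1⟩ := NonarchimedeanGroup.is_nonarchimedean S (hSo.mem_nhds hS1)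
  obtain ⟨O, hO⟩ := IsTopologicalGroup.exist_openNormalSubgroup_sub_clopen_nhds_of_one
    (W := (O1 : Set Δ)) ⟨Subgroup.isClosed_of_isOpen _ O1.isOpen', O1.isOpen'⟩
    (one_mem O1)
  have hOn : (O.toSubgroup).Normal := O.isNormal'
  have hOo : IsOpen ((O.toSubgroup : Subgroup Δ) : Set Δ) := O.isOpen'
  have hOX : O.toSubgroup.subgroupOf (⨅ m, M m) ≤ X := by
    intro x hx
    have h1 : x ∈ Subtype.val ⁻¹' S := hO1 (hO hx)
    rw [hS] at h1
    exact h1
  obtain ⟨m, v, -, hvm, hc⟩ := zpSeq_compare hp hM O.toSubgroup hOn hOo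
  have hMn := hM.normal (m + (j + 1))
  have hNn : (O.toSubgroup ⊓ M (m + (j + 1))).Normal := inferInstance
  obtain ⟨T, hT, hT'⟩ := StepQAux.exists_tilde (⨅ m, M m)
    (O.toSubgroup ⊓ M (m + (j + 1))) v (hc (j + 1)).1
  have hXle : ∀ (W : Subgroup (⨅ m, M m : Subgroup Δ)) (s : ℕ), s ≤ j + 1 → V ≤ W →
      ∀ K : Subgroup (⨅ i, M i : Subgroup Δ), IsOpen (K : Set (⨅ i, M i : Subgroup Δ)) →
      K ≤ W → K.relIndex W ≤ p ^ s → O.toSubgroup.subgroupOf (⨅ i, M i) ≤ K := by
    intro W s hs hVW K hKo hKW hKi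
    refine hOX.trans (hX K hKo ?_)
    have h1 : W.index ∣ p ^ b := by
      rw [← hb]
      exact Subgroup.index_dvd_of_le hVW
    have h2 : W.index ≤ p ^ b := Nat.le_of_dvd (pow_pos (Nat.pos_of_ne_zero hp0) _) h1
    calc K.index = K.relIndex W * W.index := (Subgroup.relIndex_mul_index hKW).symm
      _ ≤ p ^ s * p ^ b := Nat.mul_le_mul hKi h2
      _ ≤ p ^ (j + 1) * p ^ b := Nat.mul_le_mul_right _
          (Nat.pow_le_pow_right (Nat.pos_of_ne_zero hp0) hs)
      _ = p ^ (j + 1 + b) := (pow_add _ _ _).symm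
  have hXV : O.toSubgroup.subgroupOf (⨅ i, M i) ≤ V :=
    hXle V 0 (by omega) le_rfl V hVo le_rfl (by simp)
  have c1 := StepQAux.cnt_eq hM O.toSubgroup hOn hOo m v hvm hc A (j + 1) (j + 1) le_rfl U
    (hXV.trans hVU) (hXle U (j + 1) le_rfl hVU) (T U) (hT U)
  have c2 := StepQAux.cnt_eq hM O.toSubgroup hOn hOo m v hvm hc A j (j + 1) (by omega) V
    hXV (hXle V j (by omega) le_rfl) (T V) (hT V)
  rw [c1, c2]
  refine hQ (T U) (T V) ?_ ?_ ?_ j
  · refine Subgroup.isOpen_mono (H₁ := O.toSubgroup ⊓ M (m + (j + 1))) ?_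
      (hOo.inter (hM.isOpen _))
    intro g hg
    rw [hT]
    exact ⟨1, V.one_mem, 0, by simpa using hg⟩
  · intro g hg
    rw [hT] at hg ⊢
    obtain ⟨x, hx, a, hxa⟩ := hg
    exact ⟨x, hVU hx, a, hxa⟩
  · rw [hT' V U hVU, hidx]
    intro x a hxa
    exact hXV (((hc (j + 1)).2.2 x x.2 a).1 hxa).1

end Vale.Agent.P241.F
end

section

set_option autoImplicit false

namespace Vale.Agent.P241.F

/-- The number of open subgroups of index `p ^ c` of `Δ × A` projecting onto `Δ`. -/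
noncomputable def ontoCount (p : ℕ) (Δ : Type) [Group Δ] [TopologicalSpace Δ] (A : Type) [Group A]
    (c : ℕ) : ℕ :=
  Nat.card {K : Subgroup (Δ × A) // K.index = p ^ c ∧
    IsOpen ((K.comap (MonoidHom.inl Δ A) : Subgroup Δ) : Set Δ) ∧ ∀ g, ∃ a, (g, a) ∈ K}

namespace CycQPaAux

section algebra

variable {D A : Type} [Group D] [CommGroup A]

/-- The subgroup of `D × A` attached to a homomorphism `M → D / N`. -/
def gr (N : Subgroup D) [N.Normal] (M : Subgroup A) (φ : M →* D ⧸ N) : Subgroup (D × A) where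
  carrier := {x | ∃ h : x.2 ∈ M, φ ⟨x.2, h⟩ = (x.1 : D ⧸ N)}
  one_mem' := ⟨M.one_mem, map_one φ⟩
  mul_mem' := by
    rintro x y ⟨hx, hx'⟩ ⟨hy, hy'⟩
    refine ⟨M.mul_mem hx hy, ?_⟩
    have h : (⟨(x * y).2, M.mul_mem hx hy⟩ : M) = ⟨x.2, hx⟩ * ⟨y.2, hy⟩ := rfl
    rw [h, map_mul, hx', hy']
    rfl
  inv_mem' := by
    rintro x ⟨hx, hx'⟩
    refine ⟨M.inv_mem hx, ?_⟩
    have h : (⟨(x⁻¹).2, M.inv_mem hx⟩ : M) = (⟨x.2, hx⟩ : M)⁻¹ := rfl
    rw [h, map_inv, hx']
    rfl

theorem mem_gr (N : Subgroup D) [N.Normal] (M : Subgroup A) (φ : M →* D ⧸ N) (x : D × A) :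
    x ∈ gr N M φ ↔ ∃ h : x.2 ∈ M, φ ⟨x.2, h⟩ = (x.1 : D ⧸ N) := Iff.rfl

theorem comap_inl_gr (N : Subgroup D) [N.Normal] (M : Subgroup A) (φ : M →* D ⧸ N) :
    (gr N M φ).comap (MonoidHom.inl D A) = N := by
  ext g
  rw [Subgroup.mem_comap, mem_gr]
  constructor
  · rintro ⟨h, h'⟩
    have h1 : (⟨((MonoidHom.inl D A) g).2, h⟩ : M) = 1 := rfl
    rw [h1, map_one] at h'
    exact (QuotientGroup.eq_one_iff g).1 h'.symm
  · intro hg
    refine ⟨M.one_mem, ?_⟩
    have h1 : (⟨((MonoidHom.inl D A) g).2, M.one_mem⟩ : M) = 1 := rfl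
    rw [h1, map_one]
    exact ((QuotientGroup.eq_one_iff g).2 hg).symm

theorem onto_gr (N : Subgroup D) [N.Normal] (M : Subgroup A) (φ : M →* D ⧸ N)
    (hφ : Function.Surjective φ) (g : D) : ∃ a, (g, a) ∈ gr N M φ := by
  obtain ⟨a, ha⟩ := hφ (g : D ⧸ N)
  exact ⟨a.1, a.2, ha⟩

theorem index_of_onto (K : Subgroup (D × A)) (hK : ∀ g, ∃ a, (g, a) ∈ K) :
    K.index = (K.comap (MonoidHom.inr D A)).index := by
  rw [Subgroup.index_eq_card, Subgroup.index_eq_card]
  symm
  refine Nat.card_congr (Equiv.ofBijective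
    (Quotient.map' (fun a => ((1 : D), a)) ?_) ⟨?_, ?_⟩)
  · intro a b hab
    rw [QuotientGroup.leftRel_apply] at hab ⊢
    rw [Subgroup.mem_comap] at hab
    simpa using hab
  · intro a b
    induction a using QuotientGroup.induction_on with | _ a => ?_
    induction b using QuotientGroup.induction_on with | _ b => ?_
    intro h
    have h' := QuotientGroup.eq.1 (show (((1 : D), a) : (D × A) ⧸ K) = ((1 : D), b) from h)
    refine QuotientGroup.eq.2 ?_
    rw [Subgroup.mem_comap]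
    simpa using h'
  · intro x
    induction x using QuotientGroup.induction_on with | _ x => ?_
    obtain ⟨b, hb⟩ := hK x.1
    refine ⟨((x.2 * b⁻¹ : A) : A ⧸ _), ?_⟩
    change (((1 : D), x.2 * b⁻¹) : (D × A) ⧸ K) = x
    refine QuotientGroup.eq.2 ?_
    have : ((1 : D), x.2 * b⁻¹)⁻¹ * x = (x.1, b) := by
      ext <;> simp
    rw [this]
    exact hb

theorem index_gr (N : Subgroup D) [N.Normal] (M : Subgroup A) (φ : M →* D ⧸ N)
    (hφ : Function.Surjective φ) : (gr N M φ).index = N.index * M.index := by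
  rw [index_of_onto _ (onto_gr N M φ hφ)]
  have hle : (gr N M φ).comap (MonoidHom.inr D A) ≤ M := by
    intro a ha
    rw [Subgroup.mem_comap, mem_gr] at ha
    exact ha.1
  rw [← Subgroup.relIndex_mul_index hle]
  congr 1
  have hk : ((gr N M φ).comap (MonoidHom.inr D A)).subgroupOf M = φ.ker := by
    ext a
    rw [Subgroup.mem_subgroupOf, Subgroup.mem_comap, mem_gr, MonoidHom.mem_ker]
    constructor
    · rintro ⟨h, h'⟩
      simpa using h'
    · intro h
      exact ⟨a.2, by simpa using h⟩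
  rw [Subgroup.relIndex, hk, Subgroup.index_ker, MonoidHom.range_eq_top.2 hφ,
    Subgroup.index_eq_card]
  exact Nat.card_congr Subgroup.topEquiv.toEquiv

theorem exists_gr (K : Subgroup (D × A)) (hK : ∀ g, ∃ a, (g, a) ∈ K) (N : Subgroup D) [N.Normal]
    (hN : K.comap (MonoidHom.inl D A) = N) :
    ∃ (M : Subgroup A) (φ : M →* D ⧸ N), Function.Surjective φ ∧ gr N M φ = K := by
  have hN' : ∀ g, (g, (1 : A)) ∈ K ↔ g ∈ N := by
    intro g
    rw [← hN]
    rfl
  let M : Subgroup A := K.map (MonoidHom.snd D A)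
  have hM : ∀ a : M, ∃ g, (g, a.1) ∈ K := by
    rintro ⟨a, ⟨x, hx, rfl⟩⟩
    exact ⟨x.1, hx⟩
  choose f hf using hM
  have key : ∀ (a : M) (g : D), (g, a.1) ∈ K → ((f a : D) : D ⧸ N) = g := by
    intro a g hg
    refine QuotientGroup.eq.2 ?_
    rw [← hN']
    have := K.mul_mem (K.inv_mem (hf a)) hg
    simpa using this
  let φ : M →* D ⧸ N := MonoidHom.mk' (fun a => ((f a : D) : D ⧸ N)) (by
    intro a b
    rw [key (a * b) (f a * f b) (K.mul_mem (hf a) (hf b))]
    rfl)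
  refine ⟨M, φ, ?_, ?_⟩
  · intro x
    induction x using QuotientGroup.induction_on with | _ g => ?_
    obtain ⟨a, ha⟩ := hK g
    exact ⟨⟨a, ⟨(g, a), ha, rfl⟩⟩, key _ _ ha⟩
  · ext x
    rw [mem_gr]
    constructor
    · rintro ⟨h, h'⟩
      have h2 : (f ⟨x.2, h⟩ : D ⧸ N) = x.1 := h'
      have h3 := (hN' _).2 (QuotientGroup.eq.1 h2)
      have h4 := K.mul_mem (hf ⟨x.2, h⟩) h3
      have h5 : (f ⟨x.2, h⟩, x.2) * ((f ⟨x.2, h⟩)⁻¹ * x.1, (1 : A)) = x := by
        ext <;> simp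
      rw [← h5]
      exact h4
    · intro hx
      exact ⟨⟨x, hx, rfl⟩, key ⟨x.2, ⟨x, hx, rfl⟩⟩ x.1 hx⟩

theorem gr_inj (N : Subgroup D) [N.Normal] (M M' : Subgroup A) (φ : M →* D ⧸ N)
    (φ' : M' →* D ⧸ N) (h : gr N M φ = gr N M' φ') : M = M' ∧ HEq φ φ' := by
  have hM : M = M' := by
    ext a
    constructor
    · intro ha
      obtain ⟨g, hg⟩ := QuotientGroup.mk_surjective (φ ⟨a, ha⟩)
      have h1 : (g, a) ∈ gr N M φ := ⟨ha, hg.symm⟩
      rw [h] at h1
      exact h1.1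
    · intro ha
      obtain ⟨g, hg⟩ := QuotientGroup.mk_surjective (φ' ⟨a, ha⟩)
      have h1 : (g, a) ∈ gr N M' φ' := ⟨ha, hg.symm⟩
      rw [← h] at h1
      exact h1.1
  subst hM
  refine ⟨rfl, heq_of_eq ?_⟩
  ext a
  obtain ⟨g, hg⟩ := QuotientGroup.mk_surjective (φ a)
  have h1 : (g, a.1) ∈ gr N M φ := ⟨a.2, hg.symm⟩
  rw [h] at h1
  obtain ⟨h2, h3⟩ := h1
  rw [← hg]
  exact h3.symm

end algebra

section count

variable {p : ℕ} [Fact p.Prime] {Δ : Type} [Group Δ] [TopologicalSpace Δ]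

/-- surjections onto `Q` -/
abbrev Epi (A Q : Type) [Group A] [Group Q] : Type := {φ : A →* Q // Function.Surjective φ}

/-- precomposition with an isomorphism -/
def epiCongr {A B Q : Type} [Group A] [Group B] [Group Q] (e : A ≃* B) : Epi A Q ≃ Epi B Q where
  toFun φ := ⟨φ.1.comp e.symm.toMonoidHom, φ.2.comp e.symm.surjective⟩
  invFun φ := ⟨φ.1.comp e.toMonoidHom, φ.2.comp e.surjective⟩
  left_inv φ := by
    apply Subtype.ext
    ext a
    simp
  right_inv φ := by
    apply Subtype.ext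
    ext a
    simp

/-- the fibre over `N` -/
abbrev Fib (p : ℕ) (A : Type) [CommGroup A] (N : Subgroup Δ) (c : ℕ) : Type :=
  {K : Subgroup (Δ × A) // (K.index = p ^ c ∧
    IsOpen ((K.comap (MonoidHom.inl Δ A) : Subgroup Δ) : Set Δ) ∧ ∀ g, ∃ a, (g, a) ∈ K) ∧
      K.comap (MonoidHom.inl Δ A) = N}

theorem fib_equiv (A : Type) [CommGroup A] (N : Subgroup Δ) [N.Normal]
    (hN : IsOpen (N : Set Δ)) (h j : ℕ) (hi : N.index = p ^ h) :
    Nonempty ((Σ M : {M : Subgroup A // M.index = p ^ j}, Epi M.1 (Δ ⧸ N)) ≃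
      Fib p A N (h + j)) := by
  have hp : 0 < p := (Fact.out : p.Prime).pos
  refine ⟨Equiv.ofBijective (fun x => ⟨gr N x.1.1 x.2.1, ⟨?_, ?_, ?_⟩, ?_⟩) ⟨?_, ?_⟩⟩
  · rw [index_gr _ _ _ x.2.2, hi, x.1.2, pow_add]
  · rw [comap_inl_gr]
    exact hN
  · exact onto_gr _ _ _ x.2.2
  · exact comap_inl_gr _ _ _
  · rintro ⟨⟨M, hM⟩, ⟨φ, hφ⟩⟩ ⟨⟨M', hM'⟩, ⟨φ', hφ'⟩⟩ hx
    have h1 : gr N M φ = gr N M' φ' := congrArg Subtype.val hx
    obtain ⟨h2, h3⟩ := gr_inj N M M' φ φ' h1
    subst h2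
    obtain rfl := eq_of_heq h3
    rfl
  · rintro ⟨K, ⟨hK1, hK2, hK3⟩, hK4⟩
    obtain ⟨M, φ, hφ, hgr⟩ := exists_gr K hK3 N hK4
    have hM : M.index = p ^ j := by
      have h1 := index_gr N M φ hφ
      rw [hgr, hK1, hi, pow_add] at h1
      exact (Nat.eq_of_mul_eq_mul_left (pow_pos hp h) h1).symm
    exact ⟨⟨⟨M, hM⟩, ⟨φ, hφ⟩⟩, Subtype.ext hgr⟩

theorem fib_card {k : ℕ} (A : Type) [CommGroup A]
    (hA : Nonempty (A ≃* Multiplicative (Fin (k + 1) → ℤ))) (N : Subgroup Δ) [N.Normal]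
    (hN : IsOpen (N : Set Δ)) (h j : ℕ) (hi : N.index = p ^ h) :
    Finite (Fib p A N (h + j)) ∧
      Nat.card (Fib p A N (h + j)) = Nat.card (Epi A (Δ ⧸ N)) * latCount p A j := by
  have hp : 0 < p := (Fact.out : p.Prime).pos
  obtain ⟨e⟩ := fib_equiv A N hN h j hi
  have hfq : Finite (Δ ⧸ N) := by
    refine Nat.finite_of_card_ne_zero ?_
    rw [← Subgroup.index_eq_card, hi]
    exact (pow_pos hp h).ne'
  have hf1 : Finite (A →* Δ ⧸ N) := lat_hom_finite hA _
  have hf2 : Finite {M : Subgroup A // M.index = p ^ j} := lat_finite hA j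
  have hiso : ∀ M : {M : Subgroup A // M.index = p ^ j}, Nonempty (A ≃* M.1) := fun M =>
    lat_iso hA M.1 (by rw [M.2]; exact (pow_pos hp j).ne')
  have hf3 : ∀ M : {M : Subgroup A // M.index = p ^ j}, Finite (Epi M.1 (Δ ⧸ N)) := by
    intro M
    obtain ⟨e'⟩ := hiso M
    exact Finite.of_equiv _ (epiCongr (Q := Δ ⧸ N) e')
  have hfs : Finite (Σ M : {M : Subgroup A // M.index = p ^ j}, Epi M.1 (Δ ⧸ N)) :=
    inferInstance
  refine ⟨Finite.of_equiv _ e, ?_⟩
  rw [← Nat.card_congr e]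
  have := Fintype.ofFinite {M : Subgroup A // M.index = p ^ j}
  rw [Nat.card_sigma]
  have : ∀ M : {M : Subgroup A // M.index = p ^ j},
      Nat.card (Epi M.1 (Δ ⧸ N)) = Nat.card (Epi A (Δ ⧸ N)) := by
    intro M
    obtain ⟨e'⟩ := hiso M
    exact (Nat.card_congr (epiCongr (Q := Δ ⧸ N) e')).symm
  rw [Finset.sum_congr rfl fun M _ => this M, Finset.sum_const, smul_eq_mul, mul_comm]
  congr 1
  rw [latCount, Nat.card_eq_fintype_card]
  rfl

end count

end CycQPaAux

namespace CycQPaAux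

section

variable {p : ℕ} [Fact p.Prime]

theorem lat_mod {k : ℕ} {A : Type} [CommGroup A]
    (hA : Nonempty (A ≃* Multiplicative (Fin (k + 1) → ℤ))) (j d : ℕ) :
    latCount p A (j + d) ≡ latCount p A j [MOD p ^ (j + 1)] := by
  induction d with
  | zero => exact Nat.ModEq.refl _
  | succ d ih =>
    exact ((latCount_succ hA (j + d)).of_dvd (pow_dvd_pow p (by omega))).trans ih

theorem normal_of_commutator_le {G : Type} [Group G] {N : Subgroup G} (h : commutator G ≤ N) :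
    N.Normal := by
  rw [← Subgroup.commutator_top_left_le_iff]
  exact (Subgroup.commutator_mono le_rfl le_top).trans h

end

end CycQPaAux

open CycQPaAux

variable {p : ℕ} [Fact p.Prime] {Δ : Type} [Group Δ] [TopologicalSpace Δ]

/-- Goursat. -/
theorem ontoCount_eq [NonarchimedeanGroup Δ] [CompactSpace Δ] (hp : ProP p Δ) {k : ℕ}
    (A : Type) [CommGroup A] (hA : Nonempty (A ≃* Multiplicative (Fin (k + 1) → ℤ)))
    (hfin : {N : Subgroup Δ | IsOpen (N : Set Δ) ∧ commutator Δ ≤ N}.Finite) :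
    ∃ (h E : ℕ), 0 < E ∧ ∀ c, h ≤ c →
      ontoCount p Δ A c ≡ E * latCount p A c [MOD p ^ (c + 1 - h)] := by
  classical
  have hp0 : 0 < p := (Fact.out : p.Prime).pos
  let S : Set (Subgroup Δ) := {N | IsOpen (N : Set Δ) ∧ commutator Δ ≤ N}
  have hS : Finite S := hfin
  have hSf := Fintype.ofFinite S
  have hn : ∀ N : S, N.1.Normal := fun N => normal_of_commutator_le N.2.2
  choose hh hhh using fun N : S => hp N.1 N.2.1
  have hle : ∀ N : S, hh N ≤ Finset.univ.sup hh := fun N =>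
    Finset.le_sup (f := hh) (Finset.mem_univ N)
  refine ⟨Finset.univ.sup hh, ∑ N : S, Nat.card (Epi A (Δ ⧸ N.1)), ?_, ?_⟩
  · let T : S := ⟨⊤, isOpen_univ, le_top⟩
    have hT : 0 < Nat.card (Epi A (Δ ⧸ T.1)) := by
      have : Subsingleton (Δ ⧸ T.1) := QuotientGroup.subsingleton_quotient_top
      have : Finite (A →* Δ ⧸ T.1) := lat_hom_finite hA _
      have : Nonempty (Epi A (Δ ⧸ T.1)) := ⟨⟨1, fun x => ⟨1, Subsingleton.elim _ _⟩⟩⟩
      exact Nat.card_pos
    exact lt_of_lt_of_le hT (Finset.single_le_sum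
      (f := fun N : S => Nat.card (Epi A (Δ ⧸ N.1))) (fun _ _ => Nat.zero_le _)
      (Finset.mem_univ T))
  · intro c hc
    let f : {K : Subgroup (Δ × A) // K.index = p ^ c ∧
        IsOpen ((K.comap (MonoidHom.inl Δ A) : Subgroup Δ) : Set Δ) ∧ ∀ g, ∃ a, (g, a) ∈ K} → S :=
      fun K => ⟨K.1.comap (MonoidHom.inl Δ A), K.2.2.1, by
        rw [commutator_def, Subgroup.commutator_le]
        intro x _ y _
        obtain ⟨a, ha⟩ := K.2.2.2 x
        obtain ⟨b, hb⟩ := K.2.2.2 y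
        have h1 : (x, a) * (y, b) * (x, a)⁻¹ * (y, b)⁻¹ ∈ K.1 :=
          K.1.mul_mem (K.1.mul_mem (K.1.mul_mem ha hb) (K.1.inv_mem ha)) (K.1.inv_mem hb)
        have h2 : (x, a) * (y, b) * (x, a)⁻¹ * (y, b)⁻¹ = (x * y * x⁻¹ * y⁻¹, (1 : A)) := by
          ext
          · simp
          · simp
        rw [h2] at h1
        exact h1⟩
    have hfib : ∀ N : S, Finite {K // f K = N} ∧
        Nat.card {K // f K = N} = Nat.card (Epi A (Δ ⧸ N.1)) * latCount p A (c - hh N) := by
      intro N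
      have e : Fib p A N.1 c ≃ {K // f K = N} :=
        { toFun := fun K => ⟨⟨K.1, K.2.1⟩, Subtype.ext K.2.2⟩
          invFun := fun K => ⟨K.1.1, K.1.2, congrArg Subtype.val K.2⟩
          left_inv := fun _ => rfl
          right_inv := fun _ => rfl }
      have hc' : hh N + (c - hh N) = c := by
        have := hle N
        omega
      obtain ⟨h1, h2⟩ := fib_card (p := p) A hA N.1 N.2.1 (hh N) (c - hh N) (hhh N)
      rw [hc'] at h1 h2
      exact ⟨Finite.of_equiv _ e, by rw [← Nat.card_congr e, h2]⟩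
    have hfin2 : ∀ N : S, Finite {K // f K = N} := fun N => (hfib N).1
    have h1 : ontoCount p Δ A c = ∑ N : S, Nat.card {K // f K = N} := by
      rw [ontoCount, ← Nat.card_congr (Equiv.sigmaFiberEquiv f), Nat.card_sigma]
    rw [h1, Finset.sum_congr rfl fun N _ => (hfib N).2, Finset.sum_mul]
    refine Nat.ModEq.sum fun N _ => Nat.ModEq.mul_left _ ?_
    have h3 := lat_mod (p := p) hA (c - hh N) (hh N)
    have hc' : c - hh N + hh N = c := by
      have := hle N
      omega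
    rw [hc'] at h3
    exact (h3.of_dvd (pow_dvd_pow p (by have := hle N; omega))).symm

theorem cnt_finite [NonarchimedeanGroup Δ] [CompactSpace Δ] (hp : ProP p Δ) {e : ℕ}
    (hR : RP p Δ e) {k : ℕ} (A : Type) [CommGroup A]
    (hA : Nonempty (A ≃* Multiplicative (Fin (k + 1) → ℤ))) (U : Subgroup Δ) (j : ℕ)
    (hU : IsOpen (U : Set Δ)) :
    Finite {K : Subgroup (Δ × A) // K ≤ U.prod ⊤ ∧ K.relIndex (U.prod ⊤) = p ^ j ∧
        IsOpen ((K.comap (MonoidHom.inl Δ A) : Subgroup Δ) : Set Δ)} := by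
  have hp0 : 0 < p := (Fact.out : p.Prime).pos
  obtain ⟨b, hb⟩ := hp U hU
  obtain ⟨O, hOn, hOo, hO⟩ := exists_normal_le hp hR (b + j)
  obtain ⟨eA⟩ := hA
  have hfg : Group.FG A := by
    have h1 : AddGroup.FG (Fin (k + 1) → ℤ) := by
      rw [← Module.Finite.iff_addGroup_fg]
      infer_instance
    have h2 : Group.FG (Multiplicative (Fin (k + 1) → ℤ)) := inferInstance
    exact Group.fg_of_surjective (f := eA.symm.toMonoidHom) eA.symm.surjective
  have hn0 : (p ^ j).factorial ≠ 0 := Nat.factorial_ne_zero _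
  have hfi := Subgroup.finiteIndex_range_powMonoidHom_of_fg A hn0
  let R : Subgroup (Δ × A) := O.prod (powMonoidHom (α := A) (p ^ j).factorial).range
  have hRn : R.Normal := Subgroup.prod_normal _ _
  have hOi : O.index ≠ 0 := by
    obtain ⟨a, ha⟩ := hp O hOo
    rw [ha]
    exact (pow_pos hp0 a).ne'
  have hRi : R.index ≠ 0 := by
    rw [Subgroup.index_prod]
    exact Nat.mul_ne_zero hOi hfi.index_ne_zero
  have hq : Finite ((Δ × A) ⧸ R) := by
    refine Nat.finite_of_card_ne_zero ?_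
    rwa [← Subgroup.index_eq_card]
  have hle : ∀ K : Subgroup (Δ × A), K ≤ U.prod ⊤ → K.relIndex (U.prod ⊤) = p ^ j →
      IsOpen ((K.comap (MonoidHom.inl Δ A) : Subgroup Δ) : Set Δ) → R ≤ K := by
    intro K hK1 hK2 hK3
    have hne : K.relIndex (U.prod ⊤) ≠ 0 := by
      rw [hK2]
      exact (pow_pos hp0 j).ne'
    have h1 : K.comap (MonoidHom.inl Δ A) ≤ U := by
      intro g hg
      exact (hK1 hg).1
    have h2 : (K.comap (MonoidHom.inl Δ A)).relIndex U ≤ p ^ j := by
      rw [Subgroup.relIndex_comap, ← hK2]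
      refine Subgroup.relIndex_le_of_le_right ?_ hne
      rintro _ ⟨g, hg, rfl⟩
      exact ⟨hg, Subgroup.mem_top _⟩
    have h3 : O ≤ K.comap (MonoidHom.inl Δ A) := by
      refine hO _ hK3 ?_
      rw [← Subgroup.relIndex_mul_index h1, hb, pow_add, mul_comm]
      exact Nat.mul_le_mul_left _ h2
    rintro ⟨g, a⟩ ⟨hg, ⟨a', ha'⟩⟩
    have h4 : ((1 : Δ), a') ^ (p ^ j).factorial ∈ K ⊓ U.prod ⊤ := by
      refine Subgroup.pow_mem_of_relIndex_ne_zero_of_dvd hne ⟨U.one_mem, Subgroup.mem_top _⟩ ?_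
      intro m hm hm'
      rw [hK2] at hm'
      exact Nat.dvd_factorial hm hm'
    have h5 : (g, (1 : A)) ∈ K := h3 hg
    have h6 := K.mul_mem h5 h4.1
    have h7 : (g, (1 : A)) * ((1 : Δ), a') ^ (p ^ j).factorial = (g, a) := by
      ext
      · simp
      · simpa using ha'
    rwa [h7] at h6
  have hfin : Finite {K : Subgroup (Δ × A) // R ≤ K} :=
    Finite.of_equiv _ (QuotientGroup.comapMk'OrderIso R).toEquiv
  refine Finite.of_injective (β := {K : Subgroup (Δ × A) // R ≤ K})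
    (fun K => ⟨K.1, hle K.1 K.2.1 K.2.2.1 K.2.2.2⟩) ?_
  intro K K' h
  exact Subtype.ext (congrArg (fun x : {K : Subgroup (Δ × A) // R ≤ K} => x.1) h)

end Vale.Agent.P241.F
end

section

set_option autoImplicit false

namespace Vale.Agent.P241.F

variable {p : ℕ} [Fact p.Prime] {Δ : Type} [Group Δ] [TopologicalSpace Δ]

namespace CycQPAux

/-- An open subgroup of index `p ^ (b + 1)` has index `p` in an open subgroup. -/
theorem exists_step [NonarchimedeanGroup Δ] (hp : ProP p Δ) (W : Subgroup Δ)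
    (hW : IsOpen (W : Set Δ)) {b : ℕ} (hb : W.index = p ^ (b + 1)) :
    ∃ W' : Subgroup Δ, W ≤ W' ∧ IsOpen (W' : Set Δ) ∧ W.relIndex W' = p ∧ W'.index = p ^ b := by
  have hp0 : p ≠ 0 := (Fact.out : p.Prime).ne_zero
  have hfi : W.FiniteIndex := ⟨by rw [hb]; exact pow_ne_zero _ hp0⟩
  have hNW : W.normalCore ≤ W := W.normalCore_le
  have hNfi : W.normalCore.FiniteIndex := inferInstance
  have hNo : IsOpen (W.normalCore : Set Δ) := Subgroup.isOpen_of_isClosed_of_finiteIndex _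
    (W.normalCore_isClosed (Subgroup.isClosed_of_isOpen _ hW))
  obtain ⟨k, hk⟩ := hp _ hNo
  have hker : (QuotientGroup.mk' W.normalCore).ker ≤ W := by
    rw [QuotientGroup.ker_mk']; exact hNW
  have hsurj := QuotientGroup.mk'_surjective W.normalCore
  have hHi : (W.map (QuotientGroup.mk' W.normalCore)).index = p ^ (b + 1) := by
    rw [Subgroup.index_map_eq _ hsurj hker, hb]
  have hG : Nat.card (Δ ⧸ W.normalCore) = p ^ k := hk
  have hdiv := Subgroup.card_mul_index (W.map (QuotientGroup.mk' W.normalCore))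
  rw [hHi, hG] at hdiv
  have hbk : b + 1 ≤ k := by
    have : p ^ (b + 1) ∣ p ^ k := ⟨_, by rw [mul_comm]; exact hdiv.symm⟩
    exact (Nat.pow_dvd_pow_iff_le_right (Fact.out : p.Prime).one_lt).1 this
  obtain ⟨n, rfl⟩ := Nat.exists_eq_add_of_le hbk
  have hcH : Nat.card (W.map (QuotientGroup.mk' W.normalCore)) = p ^ n := by
    rw [pow_add p (b + 1) n, mul_comm] at hdiv
    exact Nat.eq_of_mul_eq_mul_left (pow_pos (Nat.pos_of_ne_zero hp0) _) hdiv
  obtain ⟨K, hK, hHK⟩ := Sylow.exists_subgroup_card_pow_succ (p := p) (n := n)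
    (by rw [hG]; exact pow_dvd_pow _ (by omega)) hcH
  have hKi : K.index = p ^ b := by
    have h := Subgroup.card_mul_index K
    rw [hK, hG, show b + 1 + n = n + 1 + b by ring, pow_add p (n + 1) b] at h
    exact Nat.eq_of_mul_eq_mul_left (pow_pos (Nat.pos_of_ne_zero hp0) _) h
  have hWW : W ≤ K.comap (QuotientGroup.mk' W.normalCore) := Subgroup.map_le_iff_le_comap.1 hHK
  have hi : (K.comap (QuotientGroup.mk' W.normalCore)).index = p ^ b := by
    rw [Subgroup.index_comap_of_surjective _ hsurj, hKi]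
  refine ⟨_, hWW, Subgroup.isOpen_mono hWW hW, ?_, hi⟩
  have h := Subgroup.relIndex_mul_index hWW
  rw [hi, hb, pow_succ'] at h
  exact Nat.eq_of_mul_eq_mul_right (pow_pos (Nat.pos_of_ne_zero hp0) _) h

/-- A proper open subgroup is contained in an open subgroup of index `p`. -/
theorem exists_maximal [NonarchimedeanGroup Δ] (hp : ProP p Δ) (W : Subgroup Δ)
    (hW : IsOpen (W : Set Δ)) (hne : W ≠ ⊤) :
    ∃ M : Subgroup Δ, W ≤ M ∧ IsOpen (M : Set Δ) ∧ M.index = p := by
  obtain ⟨k, hk⟩ := hp W hW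
  cases k with
  | zero => exact absurd (Subgroup.index_eq_one.1 (by simpa using hk)) hne
  | succ b =>
    induction b generalizing W with
    | zero => exact ⟨W, le_rfl, hW, by simpa using hk⟩
    | succ b ih =>
      obtain ⟨W', h1, h2, h3, h4⟩ := exists_step hp W hW hk
      have hne' : W' ≠ ⊤ := by
        rintro rfl
        rw [Subgroup.index_top] at h4
        exact absurd h4.symm (Nat.one_lt_pow (Nat.succ_ne_zero b) (Fact.out : p.Prime).one_lt).ne'
      obtain ⟨M, hM1, hM2, hM3⟩ := ih W' h2 hne' h4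
      exact ⟨M, h1.trans hM1, hM2, hM3⟩

/-- The number of open subgroups of index `p ^ c` of `Δ × A` contained in `W × A`. -/
noncomputable def inCount (p : ℕ) {Δ : Type} [Group Δ] [TopologicalSpace Δ] (A : Type) [Group A]
    (W : Subgroup Δ) (c : ℕ) : ℕ :=
  Nat.card {K : Subgroup (Δ × A) // (K.index = p ^ c ∧
    IsOpen ((K.comap (MonoidHom.inl Δ A) : Subgroup Δ) : Set Δ)) ∧ K ≤ W.prod ⊤}

omit [TopologicalSpace Δ] in
theorem index_prod_top (A : Type) [Group A] (W : Subgroup Δ) :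
    (W.prod (⊤ : Subgroup A)).index = W.index := by
  rw [Subgroup.index_prod, Subgroup.index_top, mul_one]

theorem inCount_eq (A : Type) [Group A] (W : Subgroup Δ) {b c : ℕ} (hb : W.index = p ^ b)
    (hbc : b ≤ c) : inCount p A W c = cnt p A W (c - b) := by
  have hp0 : p ≠ 0 := (Fact.out : p.Prime).ne_zero
  unfold inCount cnt
  refine Nat.card_congr (Equiv.subtypeEquivRight fun K => ?_)
  constructor
  · rintro ⟨⟨h1, h2⟩, h3⟩
    refine ⟨h3, ?_, h2⟩
    have h := Subgroup.relIndex_mul_index h3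
    rw [index_prod_top, hb, h1] at h
    refine Nat.eq_of_mul_eq_mul_right (pow_pos (Nat.pos_of_ne_zero hp0) b) ?_
    rw [h, ← pow_add, Nat.sub_add_cancel hbc]
  · rintro ⟨h1, h2, h3⟩
    refine ⟨⟨?_, h3⟩, h1⟩
    have h := Subgroup.relIndex_mul_index h1
    rw [index_prod_top, hb, h2, ← pow_add, Nat.sub_add_cancel hbc] at h
    exact h.symm

theorem inCount_modEq [NonarchimedeanGroup Δ] (hp : ProP p Δ) (A : Type) [Group A]
    (hQ : QP p Δ A) {b c : ℕ} (hbc : b ≤ c) (W : Subgroup Δ) (hW : IsOpen (W : Set Δ))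
    (hb : W.index = p ^ b) :
    inCount p A W c ≡ inCount p A (⊤ : Subgroup Δ) c [MOD p ^ (c + 1 - b)] := by
  induction b generalizing W with
  | zero =>
    have : W = ⊤ := Subgroup.index_eq_one.1 (by simpa using hb)
    rw [this]
  | succ b ih =>
    obtain ⟨W', h1, h2, h3, h4⟩ := exists_step hp W hW hb
    have h5 := ih (by omega) W' h2 h4
    have h6 := hQ W' W hW h1 h3 (c - (b + 1))
    rw [inCount_eq A W hb hbc]
    rw [show c - (b + 1) + 1 = c - b by omega, ← inCount_eq A W' h4 (by omega)] at h6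
    rw [show c + 1 - (b + 1) = c - b by omega]
    refine h6.symm.trans (h5.of_dvd ?_)
    exact pow_dvd_pow _ (by omega)

theorem inf_isOpen (t : Finset (Subgroup Δ)) (h : ∀ M ∈ t, IsOpen (M : Set Δ)) :
    IsOpen ((t.inf id : Subgroup Δ) : Set Δ) := by
  classical
  induction t using Finset.induction_on with
  | empty => simp
  | insert M t hM ih =>
    rw [Finset.inf_insert, Subgroup.coe_inf]
    exact (h M (Finset.mem_insert_self _ _)).inter
      (ih fun M' h' => h M' (Finset.mem_insert_of_mem h'))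

omit [TopologicalSpace Δ] in
theorem fst_mem_iff {A : Type} [Group A] (K : Subgroup (Δ × A)) (W : Subgroup Δ) :
    K ≤ W.prod ⊤ ↔ K.map (MonoidHom.fst Δ A) ≤ W := by
  rw [Subgroup.map_le_iff_le_comap]
  constructor
  · intro h x hx
    exact (Subgroup.mem_prod.1 (h hx)).1
  · intro h x hx
    exact Subgroup.mem_prod.2 ⟨h hx, trivial⟩

theorem card_finset_subtype {X : Type} {Q R : X → Prop} (s : Finset {x // Q x})
    (hs : ∀ x : {x // Q x}, x ∈ s ↔ R x.1) : s.card = Nat.card {x // Q x ∧ R x} := by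
  rw [← Fintype.card_coe, ← Nat.card_eq_fintype_card]
  exact Nat.card_congr
    { toFun := fun x => ⟨x.1.1, x.1.2, (hs _).1 x.2⟩
      invFun := fun x => ⟨⟨x.1, x.2.1⟩, (hs _).2 x.2.2⟩
      left_inv := fun x => rfl
      right_inv := fun x => rfl }

theorem fst_isOpen [NonarchimedeanGroup Δ] {A : Type} [Group A] (K : Subgroup (Δ × A))
    (hK : IsOpen ((K.comap (MonoidHom.inl Δ A) : Subgroup Δ) : Set Δ)) :
    IsOpen ((K.map (MonoidHom.fst Δ A) : Subgroup Δ) : Set Δ) := by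
  refine Subgroup.isOpen_mono ?_ hK
  intro x hx
  exact ⟨_, hx, rfl⟩

end CycQPAux

open CycQPAux in
/-- Inclusion-exclusion over the maximal subgroups. -/
theorem ontoCount_dvd [NonarchimedeanGroup Δ] [CompactSpace Δ] (hp : ProP p Δ) {e : ℕ}
    (hR : RP p Δ e) (A : Type) [Group A] (hQ : QP p Δ A)
    (hfin : ∀ (U : Subgroup Δ) (j : ℕ), IsOpen (U : Set Δ) →
      Finite {K : Subgroup (Δ × A) // K ≤ U.prod ⊤ ∧ K.relIndex (U.prod ⊤) = p ^ j ∧
        IsOpen ((K.comap (MonoidHom.inl Δ A) : Subgroup Δ) : Set Δ)})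
    (hne : ∃ U : Subgroup Δ, IsOpen (U : Set Δ) ∧ U ≠ ⊤) :
    ∃ d : ℕ, ∀ c, d ≤ c → p ^ (c + 1 - d) ∣ ontoCount p Δ A c := by
  classical
  have hMf := finite_open_index hp hR 1
  set Mx : Finset (Subgroup Δ) := hMf.toFinset with hMxdef
  have hMx : ∀ M, M ∈ Mx ↔ IsOpen (M : Set Δ) ∧ M.index = p := by
    intro M; rw [hMxdef, Set.Finite.mem_toFinset]; simp
  have hMne : Mx.Nonempty := by
    obtain ⟨U, hU, hU'⟩ := hne
    obtain ⟨M, -, h1, h2⟩ := exists_maximal hp U hU hU'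
    exact ⟨M, (hMx M).2 ⟨h1, h2⟩⟩
  have hopen : ∀ t ⊆ Mx, IsOpen ((t.inf id : Subgroup Δ) : Set Δ) := fun t ht =>
    inf_isOpen t fun M hM => ((hMx M).1 (ht hM)).1
  obtain ⟨d, hd⟩ := hp (Mx.inf id) (hopen Mx subset_rfl)
  refine ⟨d, fun c hc => ?_⟩
  let α := {K : Subgroup (Δ × A) // K.index = p ^ c ∧
    IsOpen ((K.comap (MonoidHom.inl Δ A) : Subgroup Δ) : Set Δ)}
  have hα : Finite α := by
    have h := hfin ⊤ c isOpen_univ
    refine Finite.of_injective (β := {K : Subgroup (Δ × A) // K ≤ (⊤ : Subgroup Δ).prod ⊤ ∧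
      K.relIndex ((⊤ : Subgroup Δ).prod ⊤) = p ^ c ∧
        IsOpen ((K.comap (MonoidHom.inl Δ A) : Subgroup Δ) : Set Δ)})
      (fun K : α => ⟨K.1, by rw [Subgroup.top_prod_top]; exact le_top, by
        rw [Subgroup.top_prod_top, Subgroup.relIndex_top_right]; exact K.2.1, K.2.2⟩) ?_
    intro K K' hKK
    exact Subtype.ext (congrArg (fun z => z.1) hKK)
  have hft : Fintype α := Fintype.ofFinite α
  let S : Subgroup Δ → Finset α := fun M => Finset.univ.filter (fun K : α => K.1 ≤ M.prod ⊤)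
  have hincl := Finset.inclusion_exclusion_card_inf_compl Mx S
  have hL : (Mx.inf fun i ↦ (S i)ᶜ).card = ontoCount p Δ A c := by
    rw [card_finset_subtype (R := fun K => ∀ g, ∃ a, (g, a) ∈ K) (Mx.inf fun i ↦ (S i)ᶜ) ?_, ontoCount]
    · refine Nat.card_congr (Equiv.subtypeEquivRight fun K => ?_)
      exact and_assoc
    · intro K
      rw [Finset.mem_inf]
      simp only [S, Finset.mem_compl, Finset.mem_filter, Finset.mem_univ, true_and]
      constructor
      · intro h g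
        by_contra hg
        have hne' : (K.1.map (MonoidHom.fst Δ A)) ≠ ⊤ := by
          intro htop
          have : g ∈ K.1.map (MonoidHom.fst Δ A) := by rw [htop]; trivial
          obtain ⟨x, hx, hx'⟩ := this
          exact hg ⟨x.2, by rw [← hx']; exact hx⟩
        obtain ⟨M, h1, h2, h3⟩ := exists_maximal hp _ (fst_isOpen K.1 K.2.2) hne'
        exact h M ((hMx M).2 ⟨h2, h3⟩) ((fst_mem_iff _ _).2 h1)
      · intro h M hM hK
        have : M = ⊤ := by
          rw [eq_top_iff]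
          intro g _
          obtain ⟨a, ha⟩ := h g
          exact (Subgroup.mem_prod.1 (hK ha)).1
        have h4 := ((hMx M).1 hM).2
        rw [this, Subgroup.index_top] at h4
        exact (Fact.out : p.Prime).one_lt.ne h4
  have hT : ∀ t : Finset (Subgroup Δ), (t.inf S).card = inCount p A (t.inf id) c := by
    intro t
    rw [card_finset_subtype (R := fun K => K ≤ (t.inf id).prod ⊤) (t.inf S) ?_, inCount]
    intro K
    rw [Finset.mem_inf]
    simp only [S, Finset.mem_filter, Finset.mem_univ, true_and, fst_mem_iff, Finset.le_inf_iff, id]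
  rw [hL] at hincl
  have hcong : ∀ t ⊆ Mx, (inCount p A (t.inf id) c : ℤ) ≡ inCount p A (⊤ : Subgroup Δ) c
      [ZMOD ((p ^ (c + 1 - d) : ℕ) : ℤ)] := by
    intro t ht
    obtain ⟨b, hb⟩ := hp (t.inf id) (hopen t ht)
    have hle : Mx.inf id ≤ t.inf id := Finset.inf_mono ht
    have hbd : b ≤ d := by
      have := Subgroup.index_dvd_of_le hle
      rw [hb, hd] at this
      exact (Nat.pow_dvd_pow_iff_le_right (Fact.out : p.Prime).one_lt).1 this
    have h1 := inCount_modEq hp A hQ (hbd.trans hc) (t.inf id) (hopen t ht) hb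
    have h2 := h1.of_dvd (pow_dvd_pow p (show c + 1 - d ≤ c + 1 - b by omega))
    exact Int.natCast_modEq_iff.2 h2
  have hz := Finset.sum_powerset_neg_one_pow_card_of_nonempty hMne
  have hsum : ((p ^ (c + 1 - d) : ℕ) : ℤ) ∣ ∑ t ∈ Mx.powerset, (-1 : ℤ) ^ t.card * (t.inf S).card := by
    have h3 : ∑ t ∈ Mx.powerset, (-1 : ℤ) ^ t.card * (t.inf S).card =
        ∑ t ∈ Mx.powerset, (-1 : ℤ) ^ t.card *
          (((t.inf S).card : ℤ) - inCount p A (⊤ : Subgroup Δ) c) := by
      simp only [mul_sub]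
      rw [Finset.sum_sub_distrib, ← Finset.sum_mul, hz, zero_mul, sub_zero]
    rw [h3]
    refine Finset.dvd_sum fun t ht => Dvd.dvd.mul_left ?_ _
    rw [hT]
    exact (hcong t (Finset.mem_powerset.1 ht)).symm.dvd
  rw [← hincl] at hsum
  exact_mod_cast hsum

namespace CycQPAux

/-- The index of an open subgroup containing the commutator subgroup is bounded. -/
theorem index_bound [NonarchimedeanGroup Δ] (hp : ProP p Δ) {e : ℕ}
    (hR : RP p Δ e) {m : ℕ} (hm : ∀ N : Subgroup Δ, IsOpen (N : Set Δ) → ∀ _ : N.Normal,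
      IsCyclic (Δ ⧸ N) → N.index ≠ p ^ m) (N : Subgroup Δ) (hN : IsOpen (N : Set Δ))
    (hc : commutator Δ ≤ N) : N.index ≤ p ^ (m * e) := by
  classical
  have hpp : p.Prime := Fact.out
  have hnorm : N.Normal := by
    refine ⟨fun n hn g => ?_⟩
    have h := hc (Subgroup.commutator_mem_commutator (Subgroup.mem_top g) (Subgroup.mem_top n))
    have h2 := N.mul_mem h hn
    rw [commutatorElement_def] at h2
    simpa [mul_assoc] using h2
  obtain ⟨k, hk⟩ := hp N hN
  have hcomm : ∀ x y : Δ ⧸ N, x * y = y * x := by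
    intro x y
    obtain ⟨g, rfl⟩ := QuotientGroup.mk'_surjective N x
    obtain ⟨h, rfl⟩ := QuotientGroup.mk'_surjective N y
    rw [← map_mul, ← map_mul]
    have h1 := hc (Subgroup.commutator_mem_commutator (Subgroup.mem_top g⁻¹) (Subgroup.mem_top h⁻¹))
    rw [commutatorElement_def] at h1
    rw [eq_comm]
    refine QuotientGroup.eq.2 ?_
    simpa [mul_assoc] using h1
  let _ : CommGroup (Δ ⧸ N) := { (inferInstance : Group (Δ ⧸ N)) with mul_comm := hcomm }
  have hfin : Finite (Δ ⧸ N) := Nat.finite_of_card_ne_zero (by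
    rw [← Subgroup.index, hk]; exact pow_ne_zero _ hpp.ne_zero)
  obtain ⟨ι, hι, n, hn, ⟨φ⟩⟩ := CommGroup.equiv_prod_multiplicative_zmod_of_finite (Δ ⧸ N)
  have hcard : ∏ i, n i = p ^ k := by
    have h1 : Nat.card (Δ ⧸ N) = p ^ k := hk
    rw [Nat.card_congr φ.toEquiv, Nat.card_pi] at h1
    rw [← h1]
    refine Finset.prod_congr rfl fun i _ => ?_
    rw [Nat.card_congr Multiplicative.toAdd, Nat.card_zmod]
  have hs : ∀ i, ∃ s, n i = p ^ (s + 1) := by
    intro i
    have h2 : n i ∣ p ^ k := hcard ▸ Finset.dvd_prod_of_mem n (Finset.mem_univ i)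
    obtain ⟨s, -, hs⟩ := (Nat.dvd_prime_pow hpp).1 h2
    cases s with
    | zero => have := hn i; simp at hs; omega
    | succ s => exact ⟨s, hs⟩
  choose s hs using hs
  let q : Δ →* ((i : ι) → Multiplicative (ZMod (n i))) :=
    φ.toMonoidHom.comp (QuotientGroup.mk' N)
  have hq : Function.Surjective q := φ.surjective.comp (QuotientGroup.mk'_surjective N)
  have hqN : ∀ x ∈ N, q x = 1 := by
    intro x hx
    have : QuotientGroup.mk' N x = 1 := (QuotientGroup.eq_one_iff x).2 hx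
    change φ (QuotientGroup.mk' N x) = 1
    rw [this, map_one]
  have hsm : ∀ i, s i + 1 < m := by
    intro i
    by_contra hge
    push Not at hge
    have hd : p ^ m ∣ n i := by rw [hs i]; exact pow_dvd_pow _ hge
    let f : Δ →* Multiplicative (ZMod (p ^ m)) :=
      (AddMonoidHom.toMultiplicative (ZMod.castHom hd (ZMod (p ^ m))).toAddMonoidHom).comp
        ((Pi.evalMonoidHom _ i).comp q)
    have hf : Function.Surjective f := by
      intro y
      obtain ⟨z, hz⟩ := ZMod.castHom_surjective hd y.toAdd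
      obtain ⟨x, hx⟩ := hq (Pi.mulSingle i (Multiplicative.ofAdd z))
      refine ⟨x, ?_⟩
      change Multiplicative.ofAdd (ZMod.castHom hd (ZMod (p ^ m)) (Multiplicative.toAdd (q x i))) = y
      rw [hx, Pi.mulSingle_eq_same, toAdd_ofAdd, hz, ofAdd_toAdd]
    have hNf : N ≤ f.ker := by
      intro x hx
      change Multiplicative.ofAdd (ZMod.castHom hd (ZMod (p ^ m)) (Multiplicative.toAdd (q x i))) = 1
      rw [hqN x hx]
      simp
    refine hm f.ker (Subgroup.isOpen_mono hNf hN) inferInstance ?_ ?_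
    · exact isCyclic_of_injective (QuotientGroup.kerLift f) (QuotientGroup.kerLift_injective f)
    · rw [Subgroup.index_ker, MonoidHom.range_eq_top.2 hf, Subgroup.card_top,
        Nat.card_congr Multiplicative.toAdd, Nat.card_zmod]
  have hιe : Fintype.card ι ≤ e := by
    have hd : ∀ i, p ∣ n i := fun i => by rw [hs i]; exact dvd_pow_self _ (Nat.succ_ne_zero _)
    let g : Δ →* (ι → Multiplicative (ZMod p)) := MonoidHom.pi fun i =>
      (AddMonoidHom.toMultiplicative (ZMod.castHom (hd i) (ZMod p)).toAddMonoidHom).comp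
        ((Pi.evalMonoidHom _ i).comp q)
    have hgdef : ∀ x i, g x i = Multiplicative.ofAdd
        (ZMod.castHom (hd i) (ZMod p) (Multiplicative.toAdd (q x i))) := fun x i => rfl
    have hg : Function.Surjective g := by
      intro y
      choose z hz using fun i => ZMod.castHom_surjective (hd i) (y i).toAdd
      obtain ⟨x, hx⟩ := hq (fun i => Multiplicative.ofAdd (z i))
      refine ⟨x, funext fun i => ?_⟩
      rw [hgdef, hx, toAdd_ofAdd, hz, ofAdd_toAdd]
    have hNg : N ≤ g.ker := by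
      intro x hx
      rw [MonoidHom.mem_ker]
      funext i
      rw [hgdef, hqN x hx]
      simp
    have h := hR ⊤ g.ker (Subgroup.isOpen_mono hNg hN) ⟨le_top, ?_, ?_⟩
    · rw [Subgroup.relIndex_top_right, Subgroup.index_ker, MonoidHom.range_eq_top.2 hg,
        Subgroup.card_top, Nat.card_pi] at h
      simp only [Nat.card_congr Multiplicative.toAdd, Nat.card_zmod, Finset.prod_const,
        Finset.card_univ] at h
      exact (Nat.pow_le_pow_iff_right hpp.one_lt).1 h
    · intro x _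
      rw [MonoidHom.mem_ker, map_pow]
      funext i
      change (g x i) ^ p = 1
      rw [← ofAdd_toAdd (g x i), ← ofAdd_nsmul]
      simp
    · intro x _ y _
      rw [MonoidHom.mem_ker, map_mul, map_mul, map_mul, map_inv, map_inv]
      rw [mul_comm (g x) (g y)]
      simp
  calc N.index = p ^ k := hk
    _ = ∏ i, n i := hcard.symm
    _ ≤ ∏ _i : ι, p ^ m := Finset.prod_le_prod' fun i _ => by
        rw [hs i]; exact Nat.pow_le_pow_right hpp.pos (hsm i).le
    _ = p ^ (m * Fintype.card ι) := by rw [Finset.prod_const, Finset.card_univ, pow_mul]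
    _ ≤ p ^ (m * e) := Nat.pow_le_pow_right hpp.pos (Nat.mul_le_mul_left _ hιe)

end CycQPAux

open CycQPAux in
/-- If `Δ` has no cyclic quotient of order `p ^ m`, it has finitely many abelian quotients. -/
theorem finite_abelian_quotients [NonarchimedeanGroup Δ] [CompactSpace Δ] (hp : ProP p Δ) {e : ℕ}
    (hR : RP p Δ e) (hC : ¬ CycQ p Δ) :
    {N : Subgroup Δ | IsOpen (N : Set Δ) ∧ commutator Δ ≤ N}.Finite := by
  have hpp : p.Prime := Fact.out
  unfold CycQ at hC
  push Not at hC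
  obtain ⟨m, hm⟩ := hC
  refine Set.Finite.subset (Set.Finite.biUnion (Set.finite_Iic (m * e))
    fun k _ => finite_open_index hp hR k) ?_
  rintro N ⟨hN, hc⟩
  obtain ⟨k, hk⟩ := hp N hN
  have h := index_bound hp hR (m := m) (fun N h1 h2 h3 => hm N h1 h2 h3) N hN hc
  rw [hk] at h
  exact Set.mem_biUnion (Set.mem_Iic.2 ((Nat.pow_le_pow_iff_right hpp.one_lt).1 h)) ⟨hN, hk⟩

theorem cycQ_of_QP [NonarchimedeanGroup Δ] [CompactSpace Δ] (hp : ProP p Δ) {e : ℕ}
    (hR : RP p Δ e) (k : ℕ) (A : Type) [CommGroup A]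
    (hA : Nonempty (A ≃* Multiplicative (Fin (k + 1) → ℤ))) (hQ : QP p Δ A)
    (hne : ∃ U : Subgroup Δ, IsOpen (U : Set Δ) ∧ U ≠ ⊤) : CycQ p Δ := by
  have hpp : p.Prime := Fact.out
  by_contra hC
  obtain ⟨h, E, hE, hcong⟩ := ontoCount_eq hp A hA (finite_abelian_quotients hp hR hC)
  obtain ⟨d, hd⟩ := ontoCount_dvd hp hR A hQ (cnt_finite hp hR A hA) hne
  have hlat : ∀ c, ¬ p ∣ latCount p A c := by
    intro c
    have h1 : latCount p A c ≡ 1 [MOD p] := by
      induction c with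
      | zero => rw [latCount_zero hA]
      | succ c ih =>
        exact ((latCount_succ hA c).of_dvd (dvd_pow_self _ (Nat.succ_ne_zero _))).trans ih
    intro h2
    have h3 : (1 : ℕ) ≡ 0 [MOD p] := h1.symm.trans (Nat.modEq_zero_iff_dvd.2 h2)
    exact hpp.one_lt.ne' (Nat.dvd_one.1 (Nat.modEq_zero_iff_dvd.1 h3))
  obtain ⟨r, hr⟩ : ∃ r, E < p ^ r := ⟨E, Nat.lt_pow_self hpp.one_lt⟩
  set c := max d h + r with hc
  have h1 := hd c (by omega)
  have h2 := hcong c (by omega)
  have h3 : p ^ r ∣ E * latCount p A c := by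
    have h4 : p ^ r ∣ ontoCount p Δ A c := (pow_dvd_pow p (by omega)).trans h1
    have h5 := h2.of_dvd (pow_dvd_pow p (show r ≤ c + 1 - h by omega))
    exact (Nat.ModEq.dvd_iff h5 dvd_rfl).1 h4
  have h6 : p ^ r ∣ E :=
    (Nat.Coprime.pow_left r ((Nat.Prime.coprime_iff_not_dvd hpp).2 (hlat c))).dvd_of_dvd_mul_right h3
  exact absurd (Nat.le_of_dvd hE h6) (not_le.2 hr)

end Vale.Agent.P241.F
end

section

set_option autoImplicit false

namespace Vale.Agent.P241.F

namespace GroupMainAux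

/-- If the quotient is trivial, the chain length is zero. -/
theorem ell_top {G : Type} [Group G] {N : Subgroup G} [N.Normal] (hN : N = ⊤) (e : ℕ) :
    ell (⊥ : Subgroup (G ⧸ N)) ≤ e := by
  refine (ell_le (s := 0) ⟨fun _ => ⊥, rfl, ?_, fun i hi => absurd hi (Nat.not_lt_zero i)⟩).trans
    (Nat.zero_le e)
  have : Subsingleton (G ⧸ N) := by subst hN; exact QuotientGroup.subsingleton_quotient_top
  exact Subsingleton.elim _ _

/-- A proper open normal subgroup gives an elementary abelian quotient of order `p`. -/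
theorem one_le {p : ℕ} [Fact p.Prime] {Δ : Type} [Group Δ] [TopologicalSpace Δ]
    [IsTopologicalGroup Δ] [CompactSpace Δ] (hp : ProP p Δ) {e : ℕ} (hR : RP p Δ e)
    (N : Subgroup Δ) [N.Normal] (hN : IsOpen (N : Set Δ)) (hne : N ≠ ⊤) : 1 ≤ e := by
  have hpp : p.Prime := Fact.out
  have : Finite (Δ ⧸ N) := N.quotient_finite_of_isOpen hN
  obtain ⟨k, hk⟩ := hp N hN
  have hk0 : k ≠ 0 := by
    rintro rfl
    rw [pow_zero, Subgroup.index_eq_one] at hk
    exact hne hk
  obtain ⟨K, hK⟩ := Sylow.exists_subgroup_card_pow_prime (G := Δ ⧸ N) p (n := k - 1) (by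
    change p ^ (k - 1) ∣ N.index
    rw [hk]; exact pow_dvd_pow p (by omega))
  have hidx : K.index = p := by
    have h1 := K.card_mul_index
    rw [hK] at h1
    have h2 : Nat.card (Δ ⧸ N) = p ^ (k - 1) * p := by
      change N.index = _
      rw [hk, ← pow_succ]; congr 1; omega
    rw [h2] at h1
    exact Nat.eq_of_mul_eq_mul_left (pow_pos hpp.pos _) h1
  have hKn : K.Normal := by
    apply Subgroup.normal_of_index_eq_minFac_card
    have : Nat.card (Δ ⧸ N) = p ^ k := hk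
    rw [this, hpp.pow_minFac hk0, hidx]
  let V : Subgroup Δ := K.comap (QuotientGroup.mk' N)
  have hVn : V.Normal := hKn.comap _
  have hNV : N ≤ V := by
    intro x hx
    change QuotientGroup.mk' N x ∈ K
    have : QuotientGroup.mk' N x = 1 := (QuotientGroup.eq_one_iff x).2 hx
    rw [this]; exact K.one_mem
  have hVo : IsOpen (V : Set Δ) := Subgroup.isOpen_mono hNV hN
  have hVi : V.index = p := by
    rw [← hidx]; exact K.index_comap_of_surjective (QuotientGroup.mk'_surjective N)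
  have hc : IsCyclic (Δ ⧸ V) := isCyclic_of_prime_card (p := p) hVi
  have hE : ElemAb p V ⊤ := by
    refine ⟨le_top, fun x _ => ?_, fun x _ y _ => ?_⟩
    · rw [← hVi]; exact V.pow_index_mem x
    · rw [← QuotientGroup.eq_one_iff]
      let : CommGroup (Δ ⧸ V) := IsCyclic.commGroup
      have h1 : ((x * y * x⁻¹ * y⁻¹ : Δ) : Δ ⧸ V) = (x : Δ ⧸ V) * y * (x : Δ ⧸ V)⁻¹ *
        (y : Δ ⧸ V)⁻¹ := rfl
      rw [h1]
      have h2 : ((x : Δ ⧸ V) * y) = y * x := mul_comm _ _
      rw [h2, mul_assoc (y : Δ ⧸ V), mul_inv_cancel, mul_one, mul_inv_cancel]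
  have h3 := hR ⊤ V hVo hE
  rw [Subgroup.relIndex_top_right, hVi] at h3
  by_contra h4
  have : e = 0 := by omega
  rw [this, pow_zero] at h3
  exact absurd h3 (by have := hpp.two_le; omega)

/-- Some member of the sequence is contained in an open subgroup containing the intersection. -/
theorem exists_le {Δ : Type} [Group Δ] [TopologicalSpace Δ] [IsTopologicalGroup Δ]
    [CompactSpace Δ] {M : ℕ → Subgroup Δ} (ho : ∀ m, IsOpen (M m : Set Δ))
    (ha : ∀ m, M (m + 1) ≤ M m) {H : Subgroup Δ} (hH : IsOpen (H : Set Δ))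
    (hle : (⨅ m, M m : Subgroup Δ) ≤ H) : ∃ l, M l ≤ H := by
  by_contra hcon
  push Not at hcon
  have hcl : ∀ m, IsClosed (M m : Set Δ) := fun m => (M m).isClosed_of_isOpen (ho m)
  have hne := IsCompact.nonempty_iInter_of_sequence_nonempty_isCompact_isClosed
    (fun l => (M l : Set Δ) ∩ (H : Set Δ)ᶜ)
    (fun i x hx => ⟨ha i hx.1, hx.2⟩)
    (fun i => by
      obtain ⟨x, hx, hx'⟩ := SetLike.not_le_iff_exists.1 (hcon i)
      exact ⟨x, hx, hx'⟩)
    ((hcl 0).inter hH.isClosed_compl).isCompact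
    (fun i => (hcl i).inter hH.isClosed_compl)
  obtain ⟨x, hx⟩ := hne
  rw [Set.mem_iInter] at hx
  exact (hx 0).2 (hle (Subgroup.mem_iInf.2 fun m => (hx m).1))

/-- The equivalence used to increase the rank. -/
theorem equiv_succ {A : Type} [CommGroup A] {k : ℕ}
    (h : Nonempty (A ≃* Multiplicative (Fin k → ℤ))) :
    Nonempty ((Multiplicative ℤ × A) ≃* Multiplicative (Fin (k + 1) → ℤ)) := by
  obtain ⟨f⟩ := h
  let g : (ℤ × (Fin k → ℤ)) ≃+ (Fin (k + 1) → ℤ) :=
    (Fin.consLinearEquiv ℤ (fun _ : Fin (k + 1) => ℤ)).toAddEquiv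
  exact ⟨((MulEquiv.refl (Multiplicative ℤ)).prodCongr f).trans
    ((MulEquiv.prodMultiplicative ℤ (Fin k → ℤ)).symm.trans (AddEquiv.toMultiplicative g))⟩

/-- The step for quotients. -/
theorem ell_quot {p : ℕ} [Fact p.Prime] {Δ : Type} [Group Δ] [TopologicalSpace Δ]
    [IsTopologicalGroup Δ] [CompactSpace Δ] (hp : ProP p Δ) (D N : Subgroup Δ) [D.Normal]
    [N.Normal] (hN : IsOpen (N : Set Δ)) (L : Subgroup Δ) [L.Normal] (hL : IsCyclic (Δ ⧸ L))
    (hLe : L ≤ N ⊔ D) {e : ℕ} (h : ell (⊥ : Subgroup (D ⧸ N.subgroupOf D)) ≤ e) :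
    ell (⊥ : Subgroup (Δ ⧸ N)) ≤ e + 1 := by
  have hf : Finite (Δ ⧸ N) := N.quotient_finite_of_isOpen hN
  obtain ⟨k, hk⟩ := hp N hN
  have hP : IsPGroup p (Δ ⧸ N) := IsPGroup.of_card (n := k) hk
  let Q2 : Subgroup (Δ ⧸ N) := D.map (QuotientGroup.mk' N)
  have hQ2 : Q2.Normal := Subgroup.Normal.map inferInstance _ (QuotientGroup.mk'_surjective N)
  -- the map `D ⧸ N ∩ D → Δ ⧸ N`
  let j : D →* Δ ⧸ N := (QuotientGroup.mk' N).comp D.subtype
  have hker : ∀ x ∈ N.subgroupOf D, j x = 1 := by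
    intro x hx
    exact (QuotientGroup.eq_one_iff (x : Δ)).2 (Subgroup.mem_subgroupOf.1 hx)
  let J : D ⧸ N.subgroupOf D →* Δ ⧸ N := QuotientGroup.lift _ j hker
  have hJinj : Function.Injective J := by
    rw [injective_iff_map_eq_one]
    intro a
    induction a using QuotientGroup.induction_on with
    | H x =>
      intro hx
      rw [QuotientGroup.eq_one_iff]
      exact Subgroup.mem_subgroupOf.2 ((QuotientGroup.eq_one_iff (x : Δ)).1 hx)
  have : Finite (D ⧸ N.subgroupOf D) := Finite.of_injective J hJinj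
  have hP' : IsPGroup p (D ⧸ N.subgroupOf D) := hP.of_injective J hJinj
  let J' : D ⧸ N.subgroupOf D →* Q2 := J.codRestrict Q2 (by
    intro a
    induction a using QuotientGroup.induction_on with
    | H x => exact ⟨(x : Δ), x.2, rfl⟩)
  have hJ' : Function.Surjective J' := by
    rintro ⟨y, x, hx, rfl⟩
    exact ⟨((⟨x, hx⟩ : D) : D ⧸ N.subgroupOf D), rfl⟩
  have h1 : ell (⊥ : Subgroup Q2) ≤ e := (ell_of_surjective hP' J' hJ').trans h
  -- cyclicity
  let q : Δ →* (Δ ⧸ N) ⧸ Q2 := (QuotientGroup.mk' Q2).comp (QuotientGroup.mk' N)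
  have hq : Function.Surjective q :=
    (QuotientGroup.mk'_surjective Q2).comp (QuotientGroup.mk'_surjective N)
  have hqk : ∀ x ∈ L, q x = 1 := by
    have hN' : N ≤ q.ker := by
      intro x hx
      have : QuotientGroup.mk' N x = 1 := (QuotientGroup.eq_one_iff x).2 hx
      change QuotientGroup.mk' Q2 (QuotientGroup.mk' N x) = 1
      rw [this, map_one]
    have hD' : D ≤ q.ker := by
      intro x hx
      exact (QuotientGroup.eq_one_iff (QuotientGroup.mk' N x)).2 ⟨x, hx, rfl⟩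
    exact fun x hx => (sup_le hN' hD') (hLe hx)
  have := hL
  have hcyc : IsCyclic ((Δ ⧸ N) ⧸ Q2) := by
    refine isCyclic_of_surjective (QuotientGroup.lift L q hqk) ?_
    intro y
    obtain ⟨x, rfl⟩ := hq y
    exact ⟨(x : Δ ⧸ L), rfl⟩
  exact (ell_le_succ hP Q2 hcyc).trans (Nat.add_le_add_right h1 1)

end GroupMainAux

open GroupMainAux

theorem group_main {p : ℕ} [Fact p.Prime] (e : ℕ) : ∀ (k : ℕ) (Δ : Type) [Group Δ]
    [TopologicalSpace Δ] [NonarchimedeanGroup Δ] [CompactSpace Δ] (A : Type) [CommGroup A],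
    ProP p Δ → RP p Δ e → Nonempty (A ≃* Multiplicative (Fin k → ℤ)) → QP p Δ A →
    (k = 0 → CycQ p Δ) → ∀ (N : Subgroup Δ) [N.Normal], IsOpen (N : Set Δ) →
      ell (⊥ : Subgroup (Δ ⧸ N)) ≤ e := by
  induction e with
  | zero =>
    intro k Δ _ _ _ _ A _ hp hR _ _ _ N _ hN
    by_cases hne : N = ⊤
    · exact ell_top hne 0
    · exact absurd (one_le hp hR N hN hne) (by norm_num)
  | succ e ih =>
    intro k Δ _ _ _ _ A _ hp hR hA hQ hk N _ hN
    by_cases hne : N = ⊤
    · exact ell_top hne _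
    have hC : CycQ p Δ := by
      cases k with
      | zero => exact hk rfl
      | succ k => exact cycQ_of_QP hp hR k A hA hQ ⟨N, hN, hne⟩
    obtain ⟨M, hM⟩ := exists_zpSeq hp hR hC
    have hDn : (⨅ m, M m : Subgroup Δ).Normal := Subgroup.normal_iInf_normal hM.normal
    have := closed_nonarch (⨅ m, M m : Subgroup Δ)
    have : CompactSpace (⨅ m, M m : Subgroup Δ) := by
      apply isCompact_iff_compactSpace.1
      rw [Subgroup.coe_iInf]
      exact (isClosed_iInter fun m => (M m).isClosed_of_isOpen (hM.isOpen m)).isCompact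
    have hN' : IsOpen ((N.subgroupOf (⨅ m, M m : Subgroup Δ) :
        Subgroup (⨅ m, M m : Subgroup Δ)) : Set (⨅ m, M m : Subgroup Δ)) :=
      hN.preimage continuous_subtype_val
    have h1 := ih (k + 1) (⨅ m, M m : Subgroup Δ) (Multiplicative ℤ × A)
      (step_proP hp _) (step_RP hp hR hM) (equiv_succ hA) (step_QP hp hR hM A hQ)
      (fun h => absurd h (Nat.succ_ne_zero k))
      (N.subgroupOf (⨅ m, M m : Subgroup Δ)) hN'
    obtain ⟨l, hl⟩ := exists_le hM.isOpen hM.anti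
      (Subgroup.isOpen_mono (le_sup_left : N ≤ N ⊔ ⨅ m, M m) hN) le_sup_right
    have := hM.normal l
    exact ell_quot hp (⨅ m, M m : Subgroup Δ) N hN (M l) (hM.cyclic l) hl h1

end Vale.Agent.P241.F
end

section

set_option autoImplicit false

namespace Vale.Agent.P241.F

theorem cat {p : ℕ} [Fact p.Prime] (T : Tel p) {t : ℕ} (hT : RankBound T t)
    {G₀ : FiniteGrp.{0}} (hG : IsPGroup p G₀) (hA : ¬ T.Dead G₀) :
    ell (⊥ : Subgroup G₀) ≤ t := by
  obtain ⟨Γ, _, _, _, _, hp, hR, hC, hQ, π, hπ, hπo⟩ := exists_gamma T hT hG hA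
  have h0 : Nonempty (PUnit.{1} ≃* Multiplicative (Fin 0 → ℤ)) :=
    ⟨⟨⟨fun _ => 1, fun _ => PUnit.unit, fun _ => rfl, fun _ => Subsingleton.elim _ _⟩,
      fun _ _ => Subsingleton.elim _ _⟩⟩
  have h1 := group_main t 0 Γ PUnit.{1} hp hR h0 hQ (fun _ => hC) π.ker hπo
  have e := QuotientGroup.quotientKerEquivOfSurjective π hπ
  have : Finite (Γ ⧸ π.ker) := Finite.of_equiv _ e.symm.toEquiv
  have h2 : IsPGroup p (Γ ⧸ π.ker) := hG.of_equiv e.symm
  exact (ell_of_surjective h2 e.toMonoidHom e.surjective).trans h1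

end Vale.Agent.P241.F
end

section

set_option autoImplicit false

namespace Vale.Agent.P241.F

section

variable {p : ℕ} [hp : Fact p.Prime] {G : Type} [Group G]

lemma gap' [Finite G] (hG : IsPGroup p G) {A B : Subgroup G} (h : Step A B) {g W : G}
    (hg : g ∈ B) (hW : W ∈ B) {β : ℕ} (hN : g ^ p ^ β = 1) (hWN : W ^ p ^ (β - 1) ∉ A)
    (hβ : 1 ≤ β) : ∃ n : ℤ, g * W ^ n ∈ A := by
  obtain ⟨h1, h2, h3⟩ := h
  have hQ : IsPGroup p (B ⧸ A.subgroupOf B) := (hG.to_subgroup B).to_quotient _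
  suffices h4 : QuotientGroup.mk' (A.subgroupOf B) ⟨g, hg⟩ ∈
      Subgroup.zpowers (QuotientGroup.mk' (A.subgroupOf B) ⟨W, hW⟩) by
    obtain ⟨n, hn⟩ := Subgroup.mem_zpowers_iff.1 h4
    refine ⟨-n, ?_⟩
    have h5 : (⟨g, hg⟩ : B) * ⟨W, hW⟩ ^ (-n) ∈ A.subgroupOf B := by
      rw [← QuotientGroup.ker_mk' (A.subgroupOf B), MonoidHom.mem_ker, map_mul, map_zpow, ← hn,
        ← zpow_add, add_neg_cancel, zpow_zero]
    exact h5
  rcases mem_zpowers_or hQ (QuotientGroup.mk' (A.subgroupOf B) ⟨g, hg⟩)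
    (QuotientGroup.mk' (A.subgroupOf B) ⟨W, hW⟩) with h4 | h4
  · exact h4
  · have h5 : Subgroup.zpowers (QuotientGroup.mk' (A.subgroupOf B) ⟨W, hW⟩) =
        Subgroup.zpowers (QuotientGroup.mk' (A.subgroupOf B) ⟨g, hg⟩) := by
      refine Subgroup.eq_of_le_of_card_ge (by rwa [Subgroup.zpowers_le]) ?_
      rw [Nat.card_zpowers, Nat.card_zpowers]
      have h6 : orderOf (QuotientGroup.mk' (A.subgroupOf B) ⟨g, hg⟩) ∣ p ^ β := by
        apply orderOf_dvd_of_pow_eq_one
        rw [← map_pow]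
        have : (⟨g, hg⟩ : B) ^ p ^ β = 1 := Subtype.ext hN
        rw [this, map_one]
      have h7 : orderOf (QuotientGroup.mk' (A.subgroupOf B) ⟨W, hW⟩) = p ^ ((β - 1) + 1) ∨
          p ^ β ≤ orderOf (QuotientGroup.mk' (A.subgroupOf B) ⟨W, hW⟩) := by
        right
        obtain ⟨k, hk⟩ := (IsPGroup.iff_orderOf.1 hQ) (QuotientGroup.mk' (A.subgroupOf B) ⟨W, hW⟩)
        rw [hk]
        by_contra hlt
        have h8 : k ≤ β - 1 := by
          have := (Nat.pow_lt_pow_iff_right hp.out.one_lt).1 (not_le.1 hlt)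
          omega
        apply hWN
        have h9 : (QuotientGroup.mk' (A.subgroupOf B) ⟨W, hW⟩) ^ p ^ (β - 1) = 1 := by
          rw [← orderOf_dvd_iff_pow_eq_one, hk]
          exact pow_dvd_pow p h8
        rw [← map_pow, ← MonoidHom.mem_ker, QuotientGroup.ker_mk'] at h9
        exact h9
      have h8 : p ^ β ≤ orderOf (QuotientGroup.mk' (A.subgroupOf B) ⟨W, hW⟩) := by
        rcases h7 with h7 | h7
        · rw [h7]
          exact Nat.pow_le_pow_right hp.out.pos (by omega)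
        · exact h7
      exact (Nat.le_of_dvd (pow_pos hp.out.pos _) h6).trans h8
    rw [h5]
    exact Subgroup.mem_zpowers _

/-- A cyclic chain in `G × C`, with `C` a large cyclic group, gives a shorter one in `G`. -/
theorem chain_prod' [Finite G] (hG : IsPGroup p G) {C : Type} [Group C] [Finite C]
    (hC : IsPGroup p C) (w : C) {β k : ℕ} (hβ : Nat.card G = p ^ β) (hw : orderOf w = p ^ k)
    {H : Subgroup G} {s : ℕ} (hk : s * β ≤ k) (hk1 : 1 ≤ k)
    (h : HasCyclicChain (H.prod (⊥ : Subgroup C)) ⊤ s) :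
    ∃ s', s' + 1 = s ∧ HasCyclicChain H ⊤ s' := by
  obtain ⟨c, h0, hs, hc⟩ := hasCyclicChain_iff.1 h
  have hGC : IsPGroup p (G × C) := by
    intro x
    obtain ⟨i, hi⟩ := hG x.1
    obtain ⟨j, hj⟩ := hC x.2
    refine ⟨i + j, Prod.ext ?_ ?_⟩
    · rw [Prod.pow_fst, pow_add, pow_mul, hi, one_pow]; rfl
    · rw [Prod.pow_snd, pow_add, mul_comm, pow_mul, hj, one_pow]; rfl
  -- the level at which `c i` meets `C`
  let P : ℕ → ℕ → Prop := fun i a => ((1 : G), w) ^ p ^ a ∈ c i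
  have hP : ∀ i, ∃ a, P i a := fun i => ⟨k, by
    change ((1 : G), w) ^ p ^ k ∈ c i
    have : ((1 : G), w) ^ p ^ k = 1 := by
      rw [Prod.pow_mk, one_pow, ← hw, pow_orderOf_eq_one]; rfl
    rw [this]
    exact Subgroup.one_mem _⟩
  classical
  let a : ℕ → ℕ := fun i => Nat.find (hP i)
  have ha : ∀ i, P i (a i) := fun i => Nat.find_spec (hP i)
  have ha' : ∀ i b, P i b → a i ≤ b := fun i b hb => Nat.find_min' (hP i) hb
  have ha0 : k ≤ a 0 := by
    have h1 := ha 0
    change ((1 : G), w) ^ p ^ (a 0) ∈ c 0 at h1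
    rw [h0, Prod.pow_mk, Subgroup.mem_prod] at h1
    have h2 : w ^ p ^ (a 0) = 1 := h1.2
    have h3 := orderOf_dvd_of_pow_eq_one h2
    rw [hw] at h3
    exact (Nat.pow_dvd_pow_iff_le_right hp.out.one_lt).1 h3
  have has : a s = 0 := by
    have := ha' s 0 (by change _ ∈ c s; rw [hs]; exact Subgroup.mem_top _)
    omega
  have hex : ∃ i < s, a (i + 1) + β ≤ a i ∧ (β = 0 ∨ a (i + 1) + β ≤ a i) := by
    by_contra hcon
    push Not at hcon
    have hcon' : ∀ i < s, a i < a (i + 1) + β := by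
      intro i hi
      by_contra h4
      have h5 := hcon i hi (by omega)
      omega
    have h1 : ∀ i ≤ s, a 0 + i ≤ a i + i * β := by
      intro i
      induction i with
      | zero => intro _; simp
      | succ i ih =>
        intro hi
        have h2 := ih (by omega)
        have h3 := hcon' i (by omega)
        calc a 0 + (i + 1) ≤ a i + i * β + 1 := by omega
          _ ≤ a (i + 1) + β + i * β := by omega
          _ = a (i + 1) + (i + 1) * β := by ring
    have h2 := h1 s le_rfl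
    rw [has] at h2
    have h3 : s = 0 := by omega
    subst h3
    omega
  obtain ⟨i, his, hi, -⟩ := hex
  set W : G × C := ((1 : G), w) ^ p ^ (a (i + 1)) with hWdef
  have hWB : W ∈ c (i + 1) := ha (i + 1)
  have hWA : β ≠ 0 → W ^ p ^ (β - 1) ∉ c i := by
    intro hβ0 h1
    rw [hWdef, ← pow_mul, ← pow_add] at h1
    have := ha' i _ h1
    omega
  have hW1 : W.1 = 1 := by rw [hWdef, Prod.pow_mk, one_pow]
  have hcomm : ∀ g : G, Commute ((g, 1) : G × C) W := by
    intro g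
    refine Prod.ext ?_ ?_
    · change g * W.1 = W.1 * g
      rw [hW1]; simp
    · change 1 * W.2 = W.2 * 1
      simp
  -- the map `(g, n) ↦ (g, W ^ n)`
  let f : G × Multiplicative ℤ →* G × C :=
    MonoidHom.mk' (fun t => (t.1, 1) * W ^ t.2.toAdd) (by
      rintro ⟨g, n⟩ ⟨g', n'⟩
      change ((g * g', 1) : G × C) * W ^ (n.toAdd + n'.toAdd) =
        ((g, 1) * W ^ n.toAdd) * ((g', 1) * W ^ n'.toAdd)
      rw [zpow_add]
      have h1 : ((g', 1) : G × C) * W ^ n.toAdd = W ^ n.toAdd * (g', 1) :=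
        (hcomm g').zpow_right _
      have h2 : ((g * g', 1) : G × C) = (g, 1) * (g', 1) := by simp
      rw [h2]
      calc _ = ((g, 1) : G × C) * ((g', 1) * W ^ n.toAdd) * W ^ n'.toAdd := by
            simp only [mul_assoc]
        _ = _ := by rw [h1]; simp only [mul_assoc])
  let D : ℕ → Subgroup G := fun j => ((c j).comap f).map (MonoidHom.fst G (Multiplicative ℤ))
  let D' : ℕ → Subgroup G := fun j => (c (i + 1 + j)).comap (MonoidHom.inl G C)
  have hD : HasCyclicChain (D 0) (D i) i := hasCyclicChain_iff.2 ⟨D, rfl, rfl, fun j hj =>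
    ((hc j (by omega)).comap f).map _⟩
  have hD' : HasCyclicChain (D' 0) (D' (s - (i + 1))) (s - (i + 1)) :=
    hasCyclicChain_iff.2 ⟨D', rfl, rfl, fun j hj => (hc (i + 1 + j) (by omega)).comap _⟩
  have hD0 : D 0 = H := by
    ext g
    constructor
    · rintro ⟨⟨g', n⟩, hn, rfl⟩
      change ((g', 1) : G × C) * W ^ n.toAdd ∈ c 0 at hn
      rw [h0, Subgroup.mem_prod] at hn
      have h1 := hn.1
      rw [Prod.fst_mul, Prod.pow_fst] at h1
      rw [hW1, one_zpow, mul_one] at h1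
      exact h1
    · intro hg
      refine ⟨(g, 1), ?_, rfl⟩
      change ((g, 1) : G × C) * W ^ (0 : ℤ) ∈ c 0
      rw [h0, zpow_zero, mul_one]
      exact ⟨hg, Subgroup.one_mem _⟩
  have hDi : D i = D' 0 := by
    ext g
    constructor
    · rintro ⟨⟨g', n⟩, hn, rfl⟩
      change ((g', 1) : G × C) * W ^ n.toAdd ∈ c i at hn
      change ((g', 1) : G × C) ∈ c (i + 1)
      have h1 := Subgroup.mul_mem _ ((hc i his).1 hn) (Subgroup.zpow_mem _ hWB (-n.toAdd))
      rwa [zpow_neg, mul_inv_cancel_right] at h1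
    · intro hg
      change ((g, 1) : G × C) ∈ c (i + 1) at hg
      have h1 : ((g, 1) : G × C) ^ p ^ β = 1 := by
        rw [Prod.pow_mk, ← hβ, pow_card_eq_one', one_pow]; rfl
      by_cases hβ0 : β = 0
      · have h2 : g = 1 := by
          have h3 := pow_card_eq_one' (x := g)
          rwa [hβ, hβ0, pow_zero, pow_one] at h3
        subst h2
        refine ⟨(1, 1), ?_, rfl⟩
        rw [← Prod.one_eq_mk]
        exact Subgroup.one_mem _
      obtain ⟨n, hn⟩ := gap' hGC (hc i his) hg hWB h1 (hWA hβ0) (by omega)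
      exact ⟨(g, Multiplicative.ofAdd n), hn, rfl⟩
  have hDs : D' (s - (i + 1)) = ⊤ := by
    change (c (i + 1 + (s - (i + 1)))).comap _ = ⊤
    have : i + 1 + (s - (i + 1)) = s := by omega
    rw [this, hs, Subgroup.comap_top]
  refine ⟨i + (s - (i + 1)), by omega, ?_⟩
  rw [← hD0, ← hDs]
  refine HasCyclicChain.append hD ?_
  rw [hDi]
  exact hD'

end

/-- One factor. -/
theorem ell_prod_one {p : ℕ} [Fact p.Prime] {G : Type} [Group G] [Finite G] (hG : IsPGroup p G)
    (t m : ℕ) (hm : 1 ≤ m) (hm' : ∀ g, Nat.card G = p ^ g → t * g ≤ m)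
    (h : ell (⊥ : Subgroup (G × Multiplicative (ZMod (p ^ m)))) ≤ t) :
    ell (⊥ : Subgroup G) + 1 ≤ t := by
  have hp : p.Prime := Fact.out
  have : NeZero (p ^ m) := ⟨pow_ne_zero _ hp.ne_zero⟩
  have hC : IsPGroup p (Multiplicative (ZMod (p ^ m))) :=
    IsPGroup.of_card (n := m) (by rw [Nat.card_congr Multiplicative.toAdd, Nat.card_zmod])
  obtain ⟨β, hβ⟩ := hG.exists_card_eq
  have hGC : IsPGroup p (G × Multiplicative (ZMod (p ^ m))) := by
    refine IsPGroup.of_card (n := β + m) ?_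
    rw [Nat.card_prod, hβ, Nat.card_congr Multiplicative.toAdd, Nat.card_zmod, pow_add]
  have hc := isChain_iff.1 (isChain_ell hGC ⊥)
  rw [← Subgroup.bot_prod_bot] at hc
  obtain ⟨s', hs', h'⟩ := chain_prod' hG hC (Multiplicative.ofAdd (1 : ZMod (p ^ m)))
    (k := m) hβ (by rw [orderOf_ofAdd_eq_addOrderOf, ZMod.addOrderOf_one])
    ((Nat.mul_le_mul_right _ (by rw [Subgroup.bot_prod_bot]; exact h)).trans (hm' β hβ)) hm hc
  have h1 := ell_le (isChain_iff.2 h')
  rw [Subgroup.bot_prod_bot] at hs'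
  omega

theorem ell_prod {p : ℕ} [Fact p.Prime] {V : Type} [Group V] [Finite V] (hV : IsPGroup p V)
    (j t : ℕ) (h : ∀ m, ell (⊥ : Subgroup (V × (Fin j → Multiplicative (ZMod (p ^ m))))) ≤ t) :
    ell (⊥ : Subgroup V) + j ≤ t := by
  have hp : p.Prime := Fact.out
  have hfin : ∀ m, NeZero (p ^ m) := fun m => ⟨pow_ne_zero _ hp.ne_zero⟩
  have hcard : ∀ (j m a : ℕ), Nat.card V = p ^ a →
      Nat.card (V × (Fin j → Multiplicative (ZMod (p ^ m)))) = p ^ (a + m * j) := by
    intro j m a ha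
    rw [Nat.card_prod, ha, Nat.card_fun, Nat.card_fin, Nat.card_congr Multiplicative.toAdd,
      Nat.card_zmod, ← pow_mul, pow_add]
  obtain ⟨a, ha⟩ := hV.exists_card_eq
  have hP : ∀ j m, IsPGroup p (V × (Fin j → Multiplicative (ZMod (p ^ m)))) :=
    fun j m => IsPGroup.of_card (hcard j m a ha)
  induction j generalizing t with
  | zero =>
    exact (ell_of_surjective (hP 0 0) (MonoidHom.fst _ _) Prod.fst_surjective).trans (h 0)
  | succ j ih =>
    have key : ∀ m, ell (⊥ : Subgroup (V × (Fin j → Multiplicative (ZMod (p ^ m))))) + 1 ≤ t := by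
      intro m
      set M := m + 1 + t * (a + m * j) with hM
      have hmM : m ≤ M := by omega
      let red : Multiplicative (ZMod (p ^ M)) →* Multiplicative (ZMod (p ^ m)) :=
        AddMonoidHom.toMultiplicative
          (ZMod.castHom (pow_dvd_pow p hmM) (ZMod (p ^ m))).toAddMonoidHom
      have hred : Function.Surjective red := ZMod.castHom_surjective (pow_dvd_pow p hmM)
      let f : V × (Fin (j + 1) → Multiplicative (ZMod (p ^ M))) →*
          (V × (Fin j → Multiplicative (ZMod (p ^ m)))) × Multiplicative (ZMod (p ^ M)) :=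
        MonoidHom.mk' (fun x => ((x.1, fun i => red (x.2 i.succ)), x.2 0)) (by
          intro x y
          refine Prod.ext (Prod.ext rfl ?_) rfl
          funext i
          exact map_mul red _ _)
      have hf : Function.Surjective f := by
        rintro ⟨⟨v, u⟩, c⟩
        choose w hw using fun i => hred (u i)
        refine ⟨(v, Fin.cons c w), ?_⟩
        refine Prod.ext (Prod.ext rfl ?_) rfl
        funext i
        exact hw i
      refine ell_prod_one (hP j m) t M (by omega) ?_ ((ell_of_surjective (hP (j + 1) M) f hf).trans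
        (h M))
      intro g hg
      have : g = a + m * j :=
        Nat.pow_right_injective hp.two_le (hg.symm.trans (hcard j m a ha))
      subst this
      omega
    obtain ⟨t, rfl⟩ : ∃ t', t = t' + 1 := ⟨t - 1, by have := key 0; omega⟩
    have := ih t (fun m => by have := key m; omega)
    omega

end Vale.Agent.P241.F
end

section

set_option autoImplicit false

open CategoryTheory Opposite

namespace Vale.Agent.P241.F

theorem ell_top' {G : Type} [Group G] : ell (⊤ : Subgroup G) = 0 :=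
  Nat.le_zero.1 (ell_le ⟨fun _ => ⊤, rfl, rfl, fun i hi => absurd hi (Nat.not_lt_zero i)⟩)

theorem ell_conj_le {p : ℕ} [Fact p.Prime] {G : Type} [Group G] [Finite G] (hG : IsPGroup p G)
    (A : Subgroup G) (g : G) : ell (Based.conj g A) ≤ ell A := by
  have h := (isChain_ell hG A).map (MulAut.conj g).toMonoidHom
  rw [Subgroup.map_top_of_surjective _ (MulAut.conj g).surjective] at h
  exact ell_le h

theorem rank_pi_zmod_le (p j k : ℕ) [NeZero (p ^ k)] :
    Group.rank (Fin j → Multiplicative (ZMod (p ^ k))) ≤ j := by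
  classical
  let S : Finset (Fin j → Multiplicative (ZMod (p ^ k))) :=
    Finset.univ.image (fun i => Pi.mulSingle i (Multiplicative.ofAdd (1 : ZMod (p ^ k))))
  have hS : Subgroup.closure (S : Set (Fin j → Multiplicative (ZMod (p ^ k)))) = ⊤ := by
    rw [eq_top_iff]
    intro x _
    rw [← Finset.univ_prod_mulSingle x]
    refine Subgroup.prod_mem _ fun i _ => ?_
    have h1 : (Pi.mulSingle i (x i) : Fin j → Multiplicative (ZMod (p ^ k))) =
        (Pi.mulSingle i (Multiplicative.ofAdd (1 : ZMod (p ^ k)))) ^ (x i).toAdd.val := by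
      rw [← Pi.mulSingle_pow]
      congr 1
      rw [← ofAdd_nsmul, nsmul_eq_mul, mul_one, ZMod.natCast_val, ZMod.cast_id]
      rfl
    rw [h1]
    exact Subgroup.pow_mem _ (Subgroup.subset_closure
      (Finset.mem_coe.2 (Finset.mem_image.2 ⟨i, Finset.mem_univ _, rfl⟩))) _
  calc Group.rank (Fin j → Multiplicative (ZMod (p ^ k))) ≤ S.card := Group.rank_le hS
    _ ≤ (Finset.univ : Finset (Fin j)).card := Finset.card_image_le
    _ = j := by simp

section

variable {p : ℕ} [hp : Fact p.Prime] {K : ℕ → Homology} {T : ℕ → Tel p}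
  (hab : ∀ A : FiniteGrp.{0}, IsPGroup p A → IsMulCommutative A → ∀ n r,
    Smith (K (n + r)) (K n) (⊥ : Subgroup A) ↔ Group.rank A ≤ r)
  (halive : ∀ t, ∀ A : FiniteGrp.{0}, IsPGroup p A → ¬ (T t).Dead A →
    Smith (K (t + 1)) (K 0) (⊥ : Subgroup A))
include hab halive

/-- Chains from groups which are not dead. -/
theorem ell_le_of_not_dead (t : ℕ) (A : FiniteGrp.{0}) (hA : IsPGroup p A)
    (h : ¬ (T t).Dead A) : ell (⊥ : Subgroup A) ≤ t + 1 :=
  cat (T t) (fun B hB hB' U V hUV =>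
    rankBound_of_smith K hab (t + 1) B hB (halive t B hB hB') U V hUV) hA h

/-- If `V × A` is not dead for all abelian groups `A` of rank at most `j`, then `ℓ(V) + j` is small. -/
theorem ell_add_le_of_not_dead (V : FiniteGrp.{0}) (hV : IsPGroup p V) (t j : ℕ)
    (h : ∀ A : FiniteGrp.{0}, IsPGroup p A → IsMulCommutative A → Group.rank A ≤ j →
      ¬ (T t).Dead (.of (V × A))) : ell (⊥ : Subgroup V) + j ≤ t + 1 := by
  have hp' : p.Prime := Fact.out
  have hne : ∀ k, NeZero (p ^ k) := fun k => ⟨pow_ne_zero _ hp'.ne_zero⟩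
  have hA : ∀ k, IsPGroup p (Fin j → Multiplicative (ZMod (p ^ k))) := by
    intro k
    refine IsPGroup.of_card (n := k * j) ?_
    rw [Nat.card_fun, Nat.card_fin, Nat.card_congr Multiplicative.toAdd, Nat.card_zmod, ← pow_mul]
  have hVA : ∀ k, IsPGroup p (V × (Fin j → Multiplicative (ZMod (p ^ k)))) := by
    intro k
    obtain ⟨a, ha⟩ := hV.exists_card_eq
    obtain ⟨b, hb⟩ := (hA k).exists_card_eq
    exact IsPGroup.of_card (n := a + b) (by rw [Nat.card_prod, ha, hb, pow_add])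
  refine ell_prod hV j _ fun k => ell_le_of_not_dead hab halive t (.of _) (hVA k) ?_
  exact h (.of (Fin j → Multiplicative (ZMod (p ^ k)))) (hA k)
    ⟨⟨fun x y : Fin j → Multiplicative (ZMod (p ^ k)) => mul_comm x y⟩⟩ (rank_pi_zmod_le p j k)

theorem link {G : Type} [Group G] [Finite G] (hG : IsPGroup p G) {L U : Subgroup G} (hLU : L ≤ U)
    [(L.subgroupOf U).Normal] (n j : ℕ) (hj : n + ell U ≤ j) :
    LinkD T (U ⧸ L.subgroupOf U) (n + ell L - 1) j := by
  intro t ht V ⟨e⟩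
  by_contra hcon
  have hQ : IsPGroup p (U ⧸ L.subgroupOf U) := (hG.to_subgroup U).to_quotient _
  have hV : IsPGroup p V := hQ.of_equiv e.symm
  have h1 := ell_add_le_of_not_dead hab halive V hV t j
    (fun A h1 h2 h3 h4 => hcon ⟨A, h1, h2, h3, h4⟩)
  have h2 := ell_of_surjective hV e.toMonoidHom e.surjective
  have h3 := ell_add hG hLU
  omega

theorem lower {B : ℕ → FiniteGrp.{0} → Homology}
    (hN : ∀ (t : ℕ) (V : FiniteGrp.{0}) (Y : BSS), Y.IsFin → ¬ (B t V).Acyclic Y →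
      ∃ j, ¬ (K j).Acyclic Y ∧ ∀ A : FiniteGrp.{0}, IsPGroup p A → IsMulCommutative A →
        Group.rank A ≤ j → ¬ (T t).Dead (.of (V × A)))
    (hR : ∀ W : FiniteGrp.{0}, IsPGroup p W → ∀ (S : GCx W) (r : ℕ), S.IsFin →
      (∀ V : Subgroup W, V ≠ ⊥ → ∀ t < r, FixAcyclic (B t (.of V)) S V) → Attachable K r S)
    (G : FiniteGrp.{0}) (hG : IsPGroup p G) (H : Subgroup G)
    (n r : ℕ) (h : Smith (K (n + r)) (K n) H) : ell H ≤ r := by
  by_contra hlt
  push Not at hlt
  obtain ⟨Z, hZ, hZ0, hZn⟩ := exists_type K hab n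
  obtain ⟨Y, h1, h2, h3⟩ := Based.construction (fun n => acTh (K n)) hG
    (D := fun V _ m j => LinkD T V m j)
    (fun V V' _ _ e m j h => LinkD.congr V V' e m j h)
    (realization_toB (acyclic_mono K hab) hN hR) H n (toB Z)
    (isFin_toB hZ) (fun j hj => hZ0 j hj) hZn (θ := fun A => n + ell A)
    (fun A g => Nat.add_le_add_left (ell_conj_le hG A g) n) (by rw [ell_top']; exact le_rfl)
    (fun L U _ hLU hn j hj _ => link hab halive hG hLU.le n j hj)
  refine h3 ((fixAcyclic_gOfB (K n) Y ⊤).1 (h (gOfB Y) (isFin_gOfB h1) ?_))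
  exact (fixAcyclic_gOfB (K (n + r)) Y H).2 (h2 (n + r) (by omega))

end

end Vale.Agent.P241.F
end

section

set_option autoImplicit false

namespace Vale.Agent.P241.F

theorem main (p : ℕ) [Fact p.Prime] (K : ℕ → Homology)
    (T : ℕ → Tel p) (B : ℕ → FiniteGrp.{0} → Homology)
    (h₁ : ∀ A : FiniteGrp.{0}, IsPGroup p A → IsMulCommutative A → ∀ n r,
      Smith (K (n + r)) (K n) (⊥ : Subgroup A) ↔ Group.rank A ≤ r)
    (h₂ : ∀ t V (X : GCx V), X.IsFin → (K (t + 1)).Acyclic X.toBSS → FixAcyclic (B t V) X ⊤)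
    (h₃ : ∀ t V (Y : BSS), ¬ (T t).Dead V → (B t V).Acyclic Y → (K 0).Acyclic Y)
    (h₄ : ∀ t V (Y : BSS), Y.IsFin → ¬ (B t V).Acyclic Y → ∃ j, ¬ (K j).Acyclic Y ∧
      ∀ A : FiniteGrp.{0}, IsPGroup p A → IsMulCommutative A → Group.rank A ≤ j →
        ¬ (T t).Dead (.of (V × A)))
    (h₅ : ∀ W : FiniteGrp.{0}, IsPGroup p W → ∀ (S : GCx W) r, S.IsFin →
      (∀ V : Subgroup W, V ≠ ⊥ → ∀ t < r, FixAcyclic (B t (.of V)) S V) → Attachable K r S)
    (G : FiniteGrp.{0}) (hG : IsPGroup p G) (H : Subgroup G) (n r : ℕ) :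
    Smith (K (n + r)) (K n) H ↔ ell H ≤ r := by
  have halive : ∀ t, ∀ A : FiniteGrp.{0}, IsPGroup p A → ¬ (T t).Dead A →
      Smith (K (t + 1)) (K 0) (⊥ : Subgroup A) := by
    intro t A _ hA X hX h
    obtain ⟨Y, i, _, hi⟩ := exists_isFixF X hX ⊤
    rw [fixAcyclic_iffF _ hi]
    exact h₃ t A Y hA ((fixAcyclic_iffF _ hi).1 (h₂ t A X hX ((fixAcyclic_bot _ X).1 h)))
  exact ⟨lower h₁ halive h₄ h₅ G hG H n r, smith_of_ell_le K h₁ G hG H n r⟩

end Vale.Agent.P241.F
end
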